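import Vale.Agent.P292.Mo.Sp.Lift

/-! # Spreading out: tools for the final assembly. -/

namespace Vale.Agent.P292.Mo

open MvPolynomial

universe u v w

/-- Weighted homogeneity of the image under a change of the coefficients. -/
theorem asm_wh_map {σ : Type w} {A : Type u} {B : Type v} [CommRing A] [CommRing B] (j : A →+* B)
    {d : σ → ℕ} {p : MvPolynomial σ A} {n : ℕ} (h : IsWeightedHomogeneous d p n) :
    IsWeightedHomogeneous d (MvPolynomial.map j p) n := by
  intro m hm
  refine h fun h0 => hm ?_
  rw [coeff_map, h0, map_zero]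

theorem asm_wh_of_map {σ : Type w} {A : Type u} {B : Type v} [CommRing A] [CommRing B]
    {j : A →+* B} (hj : Function.Injective j)
    {d : σ → ℕ} {p : MvPolynomial σ A} {n : ℕ}
    (h : IsWeightedHomogeneous d (MvPolynomial.map j p) n) : IsWeightedHomogeneous d p n := by
  intro m hm
  refine h ?_
  rw [coeff_map]
  exact fun h0 => hm (hj (by rw [h0, map_zero]))

/-- Polynomials without constant term vanish at the origin. -/
theorem asm_eval_zero {M : ℕ} {A : Type u} {E : Type v} [CommRing A] [CommRing E]
    (j : A →+* E) {d : Fin M → ℕ} {p : MvPolynomial (Fin M) A} {n : ℕ} (hn : 0 < n)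
    (h : IsWeightedHomogeneous d p n) {z : Fin M → E} (hz : ∀ i, z i = 0) :
    eval₂ j z p = 0 := by
  have h1 : z = fun _ => 0 := funext hz
  rw [eval₂_eq', h1]
  refine Finset.sum_eq_zero fun m hm => ?_
  have h2 : m ≠ 0 := by
    rintro rfl
    have := h (mem_support_iff.mp hm)
    rw [map_zero] at this
    omega
  obtain ⟨i, hi⟩ := Finsupp.ne_iff.mp h2
  rw [Finset.prod_eq_zero (Finset.mem_univ i), mul_zero]
  exact zero_pow (by simpa using hi)

theorem asm_pderiv_map {A : Type u} {B : Type v} [CommRing A] [CommRing B] (j : A →+* B)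
    {M : ℕ} (i : Fin M) (p : MvPolynomial (Fin M) A) :
    pderiv i (MvPolynomial.map j p) = MvPolynomial.map j (pderiv i p) := by
  induction p using MvPolynomial.induction_on with
  | C a => rw [map_C, pderiv_C, pderiv_C, map_zero]
  | add p q hp hq => rw [map_add, map_add, map_add, map_add, hp, hq]
  | mul_X p l hp =>
    rw [map_mul, Derivation.leibniz, Derivation.leibniz, map_add, hp, map_X, smul_eq_mul,
      smul_eq_mul, smul_eq_mul, smul_eq_mul, map_mul, map_mul, map_X]
    congr 2
    classical
    rw [pderiv_X, pderiv_X, Pi.single_apply, Pi.single_apply]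
    split_ifs <;> simp

theorem asm_pbr_map {A : Type u} {B : Type v} [CommRing A] [CommRing B] (j : A →+* B)
    {M L : ℕ} (D : Dat A M L) (a b : MvPolynomial (Fin M) A) :
    (D.map j).pbr (MvPolynomial.map j a) (MvPolynomial.map j b) = MvPolynomial.map j (D.pbr a b) := by
  simp only [Dat.pbr, Dat.map, asm_pderiv_map, map_sum, map_mul]

theorem asm_det_map {A : Type u} {B : Type v} [CommRing A] [CommRing B] (j : A →+* B)
    {M L n : ℕ} (D : Dat A M L) (y : Fin n → MvPolynomial (Fin M) A) :
    ((D.map j).pbrM fun i => MvPolynomial.map j (y i)).det = MvPolynomial.map j (D.pbrM y).det := by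
  have h1 : (D.map j).pbrM (fun i => MvPolynomial.map j (y i)) =
      (MvPolynomial.map j).mapMatrix (D.pbrM y) := by
    ext1 i i'
    exact asm_pbr_map j D _ _
  rw [h1, ← RingHom.map_det]

/-- The determinant of the brackets of classes of polynomials. -/
theorem asm_det_q {k : Type u} [Field k] {M L n : ℕ} (D : Dat k M L)
    (Q : D.Rg →ₗ[k] D.Rg →ₗ[k] D.Rg) (hQ : ∀ a b, Q (D.q a) (D.q b) = D.q (D.pbr a b))
    (y : Fin n → MvPolynomial (Fin M) k) : (brM Q fun i => D.q (y i)).det = D.q (D.pbrM y).det := by
  have h1 : brM Q (fun i => D.q (y i)) = D.q.toRingHom.mapMatrix (D.pbrM y) := by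
    ext1 i i'
    exact hQ _ _
  rw [h1, ← RingHom.map_det]
  rfl

/-- The bracket of two values. -/
theorem asm_ev_pbr {R : Type u} [CommRing R] [Algebra ℂ R] {𝒜 : ℕ → Submodule ℂ R}
    {P : R →ₗ[ℂ] R →ₗ[ℂ] R} (halt : ∀ a, P a a = 0)
    (hl : ∀ a b c, P a (b * c) = P a b * c + b * P a c)
    {M L : ℕ} {D : Dat ℂ M L} {ev : MvPolynomial (Fin M) ℂ →ₐ[ℂ] R}
    (hD : IsPres 𝒜 P D ev) (a b : MvPolynomial (Fin M) ℂ) :
    ev (D.pbr a b) = P (ev a) (ev b) := by
  have hsk : ∀ a b, P a b = - P b a := by
    intro a b
    have h1 := halt (a + b)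
    simp only [map_add, LinearMap.add_apply, halt, zero_add, add_zero] at h1
    exact eq_neg_of_add_eq_zero_right h1
  have hC : ∀ (a : R) (c : ℂ), P a (algebraMap ℂ R c) = 0 := by
    intro a c
    have h1 : P a 1 = 0 := by
      have := hl a 1 1
      rw [mul_one, mul_one, one_mul] at this
      exact left_eq_add.mp this
    rw [Algebra.algebraMap_eq_smul_one, map_smul, h1, smul_zero]
  -- the expansion in the second argument
  have hR : ∀ (r : R) (b : MvPolynomial (Fin M) ℂ),
      P r (ev b) = ∑ i, ev (pderiv i b) * P r (ev (X i)) := by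
    intro r b
    induction b using MvPolynomial.induction_on with
    | C c =>
      have : ev (C c) = algebraMap ℂ R c := ev.commutes c
      rw [this, hC]
      refine (Finset.sum_eq_zero fun i _ => ?_).symm
      rw [pderiv_C, map_zero, zero_mul]
    | add p q hp hq =>
      rw [map_add, map_add, hp, hq, ← Finset.sum_add_distrib]
      refine Finset.sum_congr rfl fun i _ => ?_
      rw [map_add, map_add, add_mul]
    | mul_X p l hp =>
      rw [map_mul, hl, hp, Finset.sum_mul]
      have h1 : ∀ i, ev (pderiv i (p * X l)) * P r (ev (X i)) =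
          ev (pderiv i p) * P r (ev (X i)) * ev (X l) +
            (if i = l then ev p * P r (ev (X l)) else 0) := by
        intro i
        classical
        rw [Derivation.leibniz, smul_eq_mul, smul_eq_mul, pderiv_X, Pi.single_apply, map_add,
          map_mul, map_mul]
        by_cases h : i = l
        · subst h
          rw [if_pos rfl, if_pos rfl, map_one]
          ring
        · rw [if_neg h, if_neg (Ne.symm h), map_zero]
          ring
      rw [Finset.sum_congr rfl fun i _ => h1 i, Finset.sum_add_distrib,
        Finset.sum_ite_eq' Finset.univ l, if_pos (Finset.mem_univ l)]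
  have hLft : ∀ (r : R) (a : MvPolynomial (Fin M) ℂ),
      P (ev a) r = ∑ i, ev (pderiv i a) * P (ev (X i)) r := by
    intro r a
    rw [hsk, hR, ← Finset.sum_neg_distrib]
    refine Finset.sum_congr rfl fun i _ => ?_
    rw [hsk (ev (X i)) r]
    ring
  rw [hLft, Dat.pbr, map_sum]
  refine Finset.sum_congr rfl fun i _ => ?_
  rw [hR, Finset.mul_sum, map_sum]
  refine Finset.sum_congr rfl fun l _ => ?_
  rw [map_mul, map_mul, hD.br]
  ring


/-- The homomorphism from the algebra of the data given by a solution of the relations. -/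
theorem asm_exists_point {A : Type u} [CommRing A] {k : Type v} [Field k] (j : A →+* k)
    {M L : ℕ} (D : Dat A M L) (z : Fin M → k) (hz : ∀ l, eval₂ j z (D.F l) = 0) :
    ∃ w : (D.map j).Rg →ₐ[k] k, ∀ p : MvPolynomial (Fin M) A,
      w ((D.map j).q (MvPolynomial.map j p)) = eval₂ j z p := by
  have h1 : ∀ a ∈ (D.map j).I, aeval z a = 0 := by
    intro a ha
    have h2 : (D.map j).I ≤ RingHom.ker (aeval z : MvPolynomial (Fin M) k →ₐ[k] k) := by
      rw [Dat.I, Ideal.span_le]
      rintro _ ⟨l, rfl⟩
      rw [SetLike.mem_coe, RingHom.mem_ker]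
      change aeval z (MvPolynomial.map j (D.F l)) = 0
      rw [aeval_def, Algebra.algebraMap_self, eval₂_map]
      exact hz l
    exact h2 ha
  refine ⟨Ideal.Quotient.liftₐ _ (aeval z) h1, fun p => ?_⟩
  have h3 : (Ideal.Quotient.liftₐ (D.map j).I (aeval z) h1) ((D.map j).q (MvPolynomial.map j p)) =
      aeval z (MvPolynomial.map j p) := rfl
  rw [h3, aeval_def, Algebra.algebraMap_self, eval₂_map]
  rfl

theorem asm_finiteType_int {B : Type u} [CommRing B] (h : (Int.castRingHom B).FiniteType) :
    Algebra.FiniteType ℤ B := by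
  have h1 : Int.castRingHom B = algebraMap ℤ B := RingHom.ext_int _ _
  rw [h1] at h
  exact RingHom.finiteType_algebraMap.mp h

/-- Finite type over the integers. -/
theorem asm_finiteType {A : Subalgebra ℤ ℂ} (hA : A.FG) {M L : ℕ} (D : Dat A M L) (g : D.Rg) :
    (Int.castRingHom (Localization.Away g)).FiniteType := by
  have h1 : Algebra.FiniteType ℤ A := (Subalgebra.fg_iff_finiteType A).mp hA
  have h2 : (algebraMap ℤ A).FiniteType := RingHom.finiteType_algebraMap.mpr h1
  have h3 : (C : A →+* MvPolynomial (Fin M) A).FiniteType := by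
    have : Algebra.FiniteType A (MvPolynomial (Fin M) A) := inferInstance
    exact RingHom.finiteType_algebraMap.mpr this
  have h4 : (Ideal.Quotient.mk D.I).FiniteType :=
    RingHom.FiniteType.of_surjective _ Ideal.Quotient.mk_surjective
  have h5 : (algebraMap D.Rg (Localization.Away g)).FiniteType := by
    have : Algebra.FiniteType D.Rg (Localization.Away g) :=
      IsLocalization.finiteType_of_monoid_fg (Submonoid.powers g) _
    exact RingHom.finiteType_algebraMap.mpr this
  have h6 := h5.comp (h4.comp (h3.comp h2))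
  have h7 : ((algebraMap D.Rg (Localization.Away g)).comp ((Ideal.Quotient.mk D.I).comp
      ((C : A →+* MvPolynomial (Fin M) A).comp (algebraMap ℤ A)))) =
      Int.castRingHom (Localization.Away g) := RingHom.ext_int _ _
  rw [h7] at h6
  exact h6

end Vale.Agent.P292.Mo
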