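import Vale.Agent.P292.Mo.Sp.Lift
import Vale.Agent.P292.Defs

/-! # Spreading out: every nonzero element divides a nonzero polynomial in a Noether system. -/

namespace Vale.Agent.P292.Mo

open MvPolynomial

universe u v w

section

variable {R : Type u} [CommRing R] [Algebra ℂ R]

/-- a nonzero element divides a nonzero element of the subring over which the ring is finite -/
theorem divides_zero [IsDomain R] {n : ℕ} (z : Fin n → R)
    (hS : ∃ S : Finset R, Submodule.span (Algebra.adjoin ℂ (Set.range z)) (S : Set R) = ⊤)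
    (f : R) (hf : f ≠ 0) :
    ∃ (r : R) (G : MvPolynomial (Fin n) ℂ), G ≠ 0 ∧ f * r = aeval z G := by
  obtain ⟨S, hS⟩ := hS
  have : Module.Finite (Algebra.adjoin ℂ (Set.range z)) R := ⟨⟨S, hS⟩⟩
  have hint : IsIntegral (Algebra.adjoin ℂ (Set.range z)) f := IsIntegral.of_finite _ f
  have h1 : (Ideal.span {f} : Ideal R).comap
      (algebraMap (Algebra.adjoin ℂ (Set.range z)) R) ≠ ⊥ :=
    Ideal.comap_ne_bot_of_integral_mem hf (Ideal.mem_span_singleton_self f) hint
  obtain ⟨g, hg, hg0⟩ := Submodule.exists_mem_ne_zero_of_ne_bot h1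
  rw [Ideal.mem_comap, Ideal.mem_span_singleton] at hg
  obtain ⟨r, hr⟩ := hg
  have hgm : (g : R) ∈ (aeval z : MvPolynomial (Fin n) ℂ →ₐ[ℂ] R).range :=
    (Algebra.adjoin_range_eq_range_aeval ℂ z) ▸ g.2
  obtain ⟨G, hG⟩ := hgm
  refine ⟨r, G, ?_, ?_⟩
  · rintro rfl
    apply hg0
    ext
    rw [← hG]
    simp
  · rw [← hr]
    exact hG.symm

variable {𝒜 : ℕ → Submodule ℂ R} [GradedAlgebra 𝒜] {P : R →ₗ[ℂ] R →ₗ[ℂ] R}

/-- HF: every nonzero element divides a nonzero polynomial in the `y i`; spread out. -/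
theorem divides_spread (hX : IsContactFano 𝒜 P) {M L : ℕ} {D : Dat ℂ M L}
    {ev : MvPolynomial (Fin M) ℂ →ₐ[ℂ] R} (hD : IsPres 𝒜 P D ev) {n : ℕ}
    (y : Fin n → MvPolynomial (Fin M) ℂ) (hy : AlgebraicIndependent ℂ fun i => ev (y i))
    (hS : ∃ S : Finset R, Submodule.span
      (Algebra.adjoin ℂ (Set.range fun i => ev (y i))) (S : Set R) = ⊤)
    (f : MvPolynomial (Fin M) ℂ) (hf : ev f ≠ 0) :
    ∃ (b : ℂ) (A₀ : Subalgebra ℤ ℂ), b ≠ 0 ∧ A₀.FG ∧ ∀ A : Subalgebra ℤ ℂ, A₀ ≤ A →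
      ∃ hb : b ∈ A, ∀ (D' : Dat A M L) (y' : Fin n → MvPolynomial (Fin M) A)
        (f' : MvPolynomial (Fin M) A),
        D'.map (algebraMap A ℂ) = D → (∀ i, MvPolynomial.map (algebraMap A ℂ) (y' i) = y i) →
        MvPolynomial.map (algebraMap A ℂ) f' = f →
        ∀ (k : Type v) [Field k] (j : A →+* k), j ⟨b, hb⟩ ≠ 0 →
          ∃ h : (D'.map j).Rg, ∃ G : MvPolynomial (Fin n) k, G ≠ 0 ∧
            (D'.map j).q (MvPolynomial.map j f') * h =
              aeval (fun i => (D'.map j).q (MvPolynomial.map j (y' i))) G := by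
  classical
  have := hX.domain
  obtain ⟨r, G, hG, hr⟩ := divides_zero (fun i => ev (y i)) hS (ev f) hf
  obtain ⟨h₀, rfl⟩ := hD.surj r
  obtain ⟨mm, hmm⟩ := MvPolynomial.ne_zero_iff.1 hG
  have hmem : f * h₀ - aeval y G ∈ Ideal.span (Set.range D.F) := by
    have h2 : ev (f * h₀ - aeval y G) = 0 := by
      rw [map_sub, map_mul, hr, ← MvPolynomial.comp_aeval_apply, sub_self]
    exact (hD.ker _).1 h2
  obtain ⟨A₁, hA₁, h₁⟩ := mem_spread.{0, v, 0} D.F _ hmem
  obtain ⟨A₂, hA₂, h₂⟩ := exists_lift_poly (ι := Unit) fun _ => h₀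
  obtain ⟨A₃, hA₃, h₃⟩ := exists_lift_poly (ι := Unit) fun _ => G
  refine ⟨coeff mm G, A₁ ⊔ A₂ ⊔ A₃, hmm, (hA₁.sup hA₂).sup hA₃, fun A hA => ?_⟩
  obtain ⟨G', hG'⟩ := h₃ A (le_sup_right.trans hA) ()
  obtain ⟨h', hh'⟩ := h₂ A ((le_sup_right.trans le_sup_left).trans hA) ()
  have hb : coeff mm G ∈ A := by
    rw [← hG', coeff_map]
    exact (coeff mm G').2
  refine ⟨hb, fun D' y' f' hD' hy' hf' k _ j hj => ?_⟩
  have e1 : ∀ l, MvPolynomial.map (algebraMap A ℂ) (D'.F l) = D.F l := by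
    intro l
    rw [← hD']
    rfl
  have e2 : MvPolynomial.map (algebraMap A ℂ) (f' * h' - aeval y' G') = f * h₀ - aeval y G := by
    rw [map_sub, map_mul, hf', hh', ← hG']
    congr 1
    have e3 : y = fun i => MvPolynomial.map (algebraMap A ℂ) (y' i) := funext fun i => (hy' i).symm
    rw [e3, aeval_def, aeval_def, eval₂_map]
    rw [MvPolynomial.eval₂_comp_left]
    congr 1
    ext a
    simp
  obtain ⟨-, h4⟩ := h₁ A ((le_sup_left.trans le_sup_left).trans hA) D'.F _ e1 e2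
  have h5 := h4 k j
  refine ⟨(D'.map j).q (MvPolynomial.map j h'), MvPolynomial.map j G', ?_, ?_⟩
  · intro h6
    apply hj
    have h7 := congrArg (coeff mm) h6
    rw [coeff_map, coeff_zero] at h7
    have e4 : coeff mm G' = ⟨coeff mm G, hb⟩ := by
      apply Subtype.ext
      have e6 : ((coeff mm G' : A) : ℂ) = coeff mm (MvPolynomial.map (algebraMap A ℂ) G') := by
        rw [coeff_map]
        rfl
      rw [e6, hG']
    rwa [e4] at h7
  · have h6 : (D'.map j).q (MvPolynomial.map j (f' * h' - aeval y' G')) = 0 :=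
      Ideal.Quotient.eq_zero_iff_mem.2 h5
    rw [map_sub, map_sub, map_mul, map_mul, sub_eq_zero] at h6
    rw [h6]
    have e5 : MvPolynomial.map j (aeval y' G')
        = aeval (fun i => MvPolynomial.map j (y' i)) (MvPolynomial.map j G') := by
      rw [aeval_def, aeval_def, eval₂_map, MvPolynomial.eval₂_comp_left]
      congr 1
      ext a
      simp
    rw [e5, ← MvPolynomial.comp_aeval_apply]

end

end Vale.Agent.P292.Mo
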