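import Vale.Agent.P292.Mo.Sp.Dat

/-! # Spreading out: algebraic independence from a nonvanishing determinant. -/

namespace Vale.Agent.P292.Mo

open MvPolynomial

universe u v w

/-- The homomorphism to the dual numbers given by a point and a tangent vector. -/
theorem indep_dual {k : Type u} [Field k] {R : Type v} [CommRing R] [Algebra k R]
    (w : R →ₐ[k] k) (δ : R →ₗ[k] k) (hδ : ∀ r s, δ (r * s) = w r * δ s + w s * δ r)
    {T : Type w} [CommRing T] [Algebra k T] (ε : T) (hε : ε * ε = 0) :
    ∃ g : R →ₐ[k] T, ∀ r, g r = algebraMap k T (w r) + algebraMap k T (δ r) * ε := by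
  have hδ1 : δ 1 = 0 := by
    have h := hδ 1 1
    rw [mul_one, map_one w, one_mul] at h
    exact left_eq_add.mp h
  refine ⟨AlgHom.ofLinearMap
    ((Algebra.linearMap k T).comp w.toLinearMap +
      (LinearMap.toSpanSingleton k T ε).comp δ) ?_ ?_, fun r => ?_⟩
  · simp [hδ1]
  · intro r t
    simp only [LinearMap.add_apply, LinearMap.comp_apply, AlgHom.toLinearMap_apply,
      Algebra.linearMap_apply, LinearMap.toSpanSingleton_apply, map_mul, hδ, Algebra.smul_def,
      map_add]
    linear_combination (- (algebraMap k T (δ r)) * (algebraMap k T (δ t))) * hε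
  · simp [Algebra.smul_def]

/-- Lifting along a nilpotent thickening, at a smooth point. -/
theorem indep_lift {k : Type u} [Field k] {R : Type v} [CommRing R] [Algebra k R]
    (w : R →ₐ[k] k) (δ : R →ₗ[k] k) (hδ : ∀ r s, δ (r * s) = w r * δ s + w s * δ r)
    (s : R) (hs : w s ≠ 0) (hsm : Algebra.FormallySmooth k (Localization.Away s))
    {B : Type w} [CommRing B] [Algebra k B] (x : B) (N : ℕ) (hxN : x ^ N = 0) :
    ∃ γ : R →ₐ[k] B, ∀ r, ∃ c : B,
      γ r = algebraMap k B (w r) + algebraMap k B (δ r) * x + x ^ 2 * c := by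
  set I : Ideal B := Ideal.span {x ^ 2} with hI
  have hnil : IsNilpotent I := by
    refine ⟨N, ?_⟩
    rw [hI, Ideal.span_singleton_pow, ← pow_mul, mul_comm, pow_mul, hxN, Ideal.zero_eq_bot,
      Ideal.span_singleton_eq_bot]
    ring
  have hεε : Ideal.Quotient.mk I x * Ideal.Quotient.mk I x = 0 := by
    rw [← map_mul, Ideal.Quotient.eq_zero_iff_mem, hI, ← pow_two]
    exact Ideal.mem_span_singleton_self _
  obtain ⟨g0, hg0a⟩ := indep_dual w δ hδ (Ideal.Quotient.mk I x) hεε
  have hu : IsUnit (g0 s) := by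
    have h1 : g0 s * (algebraMap k (B ⧸ I) (w s) -
        algebraMap k (B ⧸ I) (δ s) * Ideal.Quotient.mk I x) =
        algebraMap k (B ⧸ I) (w s * w s) := by
      rw [hg0a, map_mul]
      linear_combination (- (algebraMap k (B ⧸ I) (δ s)) *
        (algebraMap k (B ⧸ I) (δ s))) * hεε
    have h2 : IsUnit (algebraMap k (B ⧸ I) (w s * w s)) :=
      (IsUnit.mk0 _ (mul_ne_zero hs hs)).map _
    rw [← h1] at h2
    exact isUnit_of_mul_isUnit_left h2
  have hu' : ∀ t : Submonoid.powers s, IsUnit (g0 t) := by
    rintro ⟨_, n, rfl⟩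
    change IsUnit (g0 (s ^ n))
    rw [map_pow]
    exact hu.pow n
  obtain ⟨f, hf⟩ := Algebra.FormallySmooth.exists_lift (R := k) (A := Localization.Away s) I hnil
    (IsLocalization.liftAlgHom (M := Submonoid.powers s) (f := g0) hu')
  refine ⟨f.comp (IsScalarTower.toAlgHom k R (Localization.Away s)), fun r => ?_⟩
  have h1 : Ideal.Quotient.mk I (f (algebraMap R (Localization.Away s) r)) = g0 r := by
    have h2 := DFunLike.congr_fun hf (algebraMap R (Localization.Away s) r)
    rw [AlgHom.comp_apply, Ideal.Quotient.mkₐ_eq_mk, IsLocalization.liftAlgHom_apply,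
      IsLocalization.lift_eq] at h2
    exact h2
  have h3 : Ideal.Quotient.mk I (f (algebraMap R (Localization.Away s) r)) =
      Ideal.Quotient.mk I (algebraMap k B (w r) + algebraMap k B (δ r) * x) := by
    rw [h1, hg0a, map_add, map_mul]
    rfl
  rw [Ideal.Quotient.eq, hI, Ideal.mem_span_singleton] at h3
  obtain ⟨c, hc⟩ := h3
  refine ⟨c, ?_⟩
  rw [← hc]
  change f (algebraMap R (Localization.Away s) r) = _
  ring

/-- A truncated arc with a given tangent vector at a smooth point. -/
theorem indep_arc {k : Type u} [Field k] {R : Type v} [CommRing R] [Algebra k R]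
    (w : R →ₐ[k] k) (δ : R →ₗ[k] k) (hδ : ∀ r s, δ (r * s) = w r * δ s + w s * δ r)
    (s : R) (hs : w s ≠ 0) (hsm : Algebra.FormallySmooth k (Localization.Away s)) (N : ℕ) :
    ∃ γ : R →ₐ[k] (Polynomial k ⧸ Ideal.span {(Polynomial.X : Polynomial k) ^ N}),
      ∀ r, ∃ q : Polynomial k, γ r =
        Ideal.Quotient.mk (Ideal.span {(Polynomial.X : Polynomial k) ^ N})
        (Polynomial.C (w r) + Polynomial.C (δ r) * Polynomial.X + Polynomial.X ^ 2 * q) := by
  have hxN : (Ideal.Quotient.mk (Ideal.span {(Polynomial.X : Polynomial k) ^ N}) Polynomial.X) ^ N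
      = 0 := by
    rw [← map_pow, Ideal.Quotient.eq_zero_iff_mem]
    exact Ideal.mem_span_singleton_self _
  obtain ⟨γ, hγ⟩ := indep_lift w δ hδ s hs hsm _ N hxN
  refine ⟨γ, fun r => ?_⟩
  obtain ⟨c, hc⟩ := hγ r
  obtain ⟨q, rfl⟩ := Ideal.Quotient.mk_surjective c
  refine ⟨q, ?_⟩
  rw [hc, map_add, map_add, map_mul, map_mul, map_pow]
  rfl

/-- Tangent vectors from the bracket. -/
theorem indep_vec {k : Type u} [Field k] {R : Type v} [CommRing R] [Algebra k R]
    {P : R →ₗ[k] R →ₗ[k] R} (hL : ∀ a b c, P a (b * c) = P a b * c + b * P a c)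
    {n : ℕ} (y : Fin n → R) (w : R →ₐ[k] k) (hdet : w (brM P y).det ≠ 0) (a : Fin n → k) :
    ∃ δ : R →ₗ[k] k, (∀ r s, δ (r * s) = w r * δ s + w s * δ r) ∧ ∀ j, δ (y j) = a j := by
  have hM : ((brM P y).map w).det ≠ 0 := by
    have h := AlgHom.map_det w (brM P y)
    rw [h] at hdet
    exact hdet
  have hMu : IsUnit ((brM P y).map w).det := IsUnit.mk0 _ hM
  set c : Fin n → k := Matrix.vecMul a ((brM P y).map w)⁻¹ with hc
  have hcM : Matrix.vecMul c ((brM P y).map w) = a := by
    rw [hc, Matrix.vecMul_vecMul, Matrix.nonsing_inv_mul _ hMu, Matrix.vecMul_one]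
  refine ⟨∑ l, c l • (w.toLinearMap.comp (P (y l))), fun r s => ?_, fun j => ?_⟩
  · simp only [LinearMap.sum_apply, LinearMap.smul_apply, LinearMap.comp_apply,
      AlgHom.toLinearMap_apply, smul_eq_mul, Finset.mul_sum]
    rw [← Finset.sum_add_distrib]
    refine Finset.sum_congr rfl fun l _ => ?_
    rw [hL, map_add, map_mul, map_mul]
    ring
  · have h := congrFun hcM j
    rw [← h]
    simp only [LinearMap.sum_apply, LinearMap.smul_apply, LinearMap.comp_apply,
      AlgHom.toLinearMap_apply, smul_eq_mul, Matrix.vecMul, dotProduct, Matrix.map_apply, brM,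
      Matrix.of_apply]

/-- A nonzero polynomial does not vanish to infinite order along all arcs. -/
theorem indep_poly {k : Type u} [Field k] [Infinite k] {n : ℕ} (G : MvPolynomial (Fin n) k)
    (hG : G ≠ 0) (b : Fin n → k) : ∃ (m : ℕ) (a : Fin n → k), ∀ p : Fin n → Polynomial k,
      (∀ i, (p i).coeff 0 = a i) → ¬ ((Polynomial.X : Polynomial k) ^ (m + 1) ∣
        aeval (fun i => Polynomial.C (b i) + Polynomial.X * p i) G) := by
  classical
  set G' : MvPolynomial (Fin n) k := aeval (fun i => C (b i) + X i) G with hG'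
  have hback : aeval (fun i => X i - C (b i)) G' = G := by
    rw [hG', ← AlgHom.comp_apply]
    have h : (aeval (fun i => (X i - C (b i) : MvPolynomial (Fin n) k))).comp
        (aeval (fun i => (C (b i) + X i : MvPolynomial (Fin n) k))) = AlgHom.id k _ := by
      refine MvPolynomial.algHom_ext fun i => ?_
      simp [MvPolynomial.algebraMap_eq]
    rw [h]
    rfl
  have hG0 : G' ≠ 0 := by
    intro h
    rw [h, map_zero] at hback
    exact hG hback.symm
  have hex : ∃ m, homogeneousComponent m G' ≠ 0 := by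
    by_contra hcon
    push Not at hcon
    refine hG0 ?_
    rw [← MvPolynomial.sum_homogeneousComponent G']
    exact Finset.sum_eq_zero fun i _ => hcon i
  set m := Nat.find hex with hm
  have hm1 : homogeneousComponent m G' ≠ 0 := Nat.find_spec hex
  have hm2 : ∀ d < m, homogeneousComponent d G' = 0 := fun d hd => by
    by_contra h
    exact Nat.find_min hex hd h
  obtain ⟨a, ha⟩ : ∃ a : Fin n → k, eval a (homogeneousComponent m G') ≠ 0 := by
    by_contra hcon
    push Not at hcon
    exact hm1 (MvPolynomial.funext fun x => by rw [hcon x, map_zero])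
  refine ⟨m, a, fun p hp hdvd => ha ?_⟩
  have h1 : aeval (fun i => Polynomial.C (b i) + Polynomial.X * p i) G =
      aeval (fun i => (Polynomial.X : Polynomial k) * p i) G' := by
    rw [hG', ← AlgHom.comp_apply]
    congr 1
    refine MvPolynomial.algHom_ext fun i => ?_
    simp [Polynomial.algebraMap_eq]
  have h2 : aeval (fun i => (Polynomial.X : Polynomial k) * p i) G' =
      ∑ d ∈ Finset.range (G'.totalDegree + 1),
        (Polynomial.X : Polynomial k) ^ d * aeval p (homogeneousComponent d G') := by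
    conv_lhs => rw [← MvPolynomial.sum_homogeneousComponent G']
    rw [map_sum]
    refine Finset.sum_congr rfl fun d _ => ?_
    have hh := homogeneousComponent_isHomogeneous d G'
    rw [MvPolynomial.aeval_def, MvPolynomial.aeval_def, MvPolynomial.eval₂_eq,
      MvPolynomial.eval₂_eq, Finset.mul_sum]
    refine Finset.sum_congr rfl fun e he => ?_
    have hde : ∑ i, e i = d := by
      have h3 := hh (MvPolynomial.mem_support_iff.mp he)
      rw [← h3, Finsupp.weight_apply, Finsupp.sum_fintype _ _ (fun _ => by simp)]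
      simp
    have h4 : ∏ i ∈ e.support, ((Polynomial.X : Polynomial k) * p i) ^ e i =
        Polynomial.X ^ d * ∏ i ∈ e.support, p i ^ e i := by
      simp only [mul_pow]
      rw [Finset.prod_mul_distrib, Finset.prod_pow_eq_pow_sum]
      congr 2
      rw [← hde]
      refine Finset.sum_subset (Finset.subset_univ _) fun i _ hi => ?_
      exact Finsupp.notMem_support_iff.mp hi
    rw [h4]
    ring
  rw [h1, h2, Polynomial.X_pow_dvd_iff] at hdvd
  have h5 := hdvd m (Nat.lt_succ_self m)
  rw [Polynomial.finsetSum_coeff, Finset.sum_eq_single m] at h5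
  · rw [Polynomial.coeff_X_pow_mul', if_pos le_rfl, Nat.sub_self] at h5
    have h6 : (aeval p (homogeneousComponent m G') : Polynomial k).coeff 0 =
        eval a (homogeneousComponent m G') := by
      rw [← Polynomial.constantCoeff_apply, ← MvPolynomial.coe_aeval_eq_eval, RingHom.coe_coe]
      have h7 : ((Polynomial.constantCoeff : Polynomial k →+* k)).comp
          ((aeval p : MvPolynomial (Fin n) k →ₐ[k] Polynomial k) : MvPolynomial (Fin n) k →+* _) =
          ((aeval a : MvPolynomial (Fin n) k →ₐ[k] k) : MvPolynomial (Fin n) k →+* k) := by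
        refine MvPolynomial.ringHom_ext (fun r => ?_) (fun i => ?_)
        · simp
        · simp [hp]
      exact DFunLike.congr_fun h7 _
    rw [← h6]
    exact h5
  · intro d _ hd
    rcases lt_or_gt_of_ne hd with h | h
    · rw [hm2 d h, map_zero, mul_zero, Polynomial.coeff_zero]
    · rw [Polynomial.coeff_X_pow_mul', if_neg (by omega)]
  · intro h
    have h8 : homogeneousComponent m G' = 0 := by
      apply homogeneousComponent_eq_zero
      rw [Finset.mem_range] at h
      omega
    rw [h8, map_zero, mul_zero, Polynomial.coeff_zero]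

/-- IND: algebraic independence from a nonvanishing determinant. -/
theorem indep_of_det {k : Type u} [Field k] [IsAlgClosed k] {R : Type v} [CommRing R]
    [Algebra k R] {𝒜 : ℕ → Submodule k R} [GradedAlgebra 𝒜] {P : R →ₗ[k] R →ₗ[k] R}
    (hPM : IsPM 𝒜 P) {n : ℕ} (y : Fin n → R) (w : R →ₐ[k] k) (hw : NV 𝒜 w)
    (hdet : w (brM P y).det ≠ 0) : AlgebraicIndependent k y := by
  have : Infinite k := IsAlgClosed.instInfinite
  obtain ⟨e, he, s, hs, hws⟩ := hw
  rw [algebraicIndependent_iff]
  intro G hG
  by_contra hne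
  obtain ⟨m, a, hma⟩ := indep_poly G hne (fun i => w (y i))
  obtain ⟨δ, hδ1, hδ2⟩ := indep_vec hPM.leibniz y w hdet a
  obtain ⟨γ, hγ⟩ := indep_arc w δ hδ1 s hws (hPM.smooth e he s hs) (m + 1)
  choose q hq using hγ
  refine hma (fun i => Polynomial.C (a i) + Polynomial.X * q (y i)) (fun i => by simp) ?_
  rw [← Ideal.mem_span_singleton, ← Ideal.Quotient.eq_zero_iff_mem]
  have h1 : γ (aeval y G) = 0 := by rw [hG, map_zero]
  rw [← h1]
  have h2 : ∀ H : MvPolynomial (Fin n) k,
      Ideal.Quotient.mk (Ideal.span {(Polynomial.X : Polynomial k) ^ (m + 1)})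
        (aeval (fun i => Polynomial.C (w (y i)) + Polynomial.X *
          (Polynomial.C (a i) + Polynomial.X * q (y i))) H) = γ (aeval y H) := by
    intro H
    have h3 : (Ideal.Quotient.mkₐ k (Ideal.span {(Polynomial.X : Polynomial k) ^ (m + 1)})).comp
        (aeval (fun i => Polynomial.C (w (y i)) + Polynomial.X *
          (Polynomial.C (a i) + Polynomial.X * q (y i)))) = γ.comp (aeval y) := by
      refine MvPolynomial.algHom_ext fun i => ?_
      rw [AlgHom.comp_apply, AlgHom.comp_apply, aeval_X, aeval_X, hq (y i), hδ2 i,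
        Ideal.Quotient.mkₐ_eq_mk]
      congr 1
      ring
    exact DFunLike.congr_fun h3 H
  exact h2 G

end Vale.Agent.P292.Mo
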