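import Mathlib

/-! # Homomorphisms of finitely generated rings to fields of large characteristic. -/

namespace Vale.Agent.P292.Mo

universe u v w

theorem largechar_jacobson_int : IsJacobsonRing ℤ := by
  rw [isJacobsonRing_iff_prime_eq]
  intro P hP
  by_cases h : P = ⊥
  · subst h
    rw [eq_bot_iff]
    intro x hx
    rw [Ideal.mem_jacobson_bot] at hx
    have h1 := hx x
    rw [Int.isUnit_iff] at h1
    rw [Ideal.mem_bot]
    have h2 : 0 ≤ x * x := mul_self_nonneg x
    have h3 : x * x = 0 := by
      rcases h1 with h1 | h1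
      · omega
      · omega
    exact mul_self_eq_zero.mp h3
  · have : P.IsMaximal := hP.isMaximal h
    exact Ideal.jacobson_eq_self_of_isMaximal

/-- MAXI: homomorphisms of finitely generated rings to fields of large characteristic. -/
theorem exists_hom_large_char (B : Type) [CommRing B] [Algebra.FiniteType ℤ B] (C : Type w)
    [CommRing C] [Nontrivial C] [Algebra ℂ C] (f : B →+* C) (N₀ : ℕ) :
    ∃ (k : Type) (_ : Field k) (_ : IsAlgClosed k) (p : ℕ), N₀ < p ∧ p.Prime ∧ CharP k p ∧
      Nonempty (B →+* k) := by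
  classical
  have hJ := largechar_jacobson_int
  let c : B := ((N₀.factorial : ℕ) : B)
  let B' := Localization.Away c
  have h4 : Algebra.FiniteType B B' := by
    have : Algebra.FinitePresentation B B' := IsLocalization.Away.finitePresentation c
    infer_instance
  have h5 := Algebra.FiniteType.trans ‹Algebra.FiniteType ℤ B› h4
  have hfc : IsUnit (f c) := by
    have h1 : f c = algebraMap ℂ C ((N₀.factorial : ℕ) : ℂ) := by
      rw [map_natCast, map_natCast]
    rw [h1]
    refine IsUnit.map _ (isUnit_iff_ne_zero.mpr ?_)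
    exact_mod_cast N₀.factorial_ne_zero
  let θ : B' →+* C := IsLocalization.Away.lift c hfc
  have : Nontrivial B' := θ.domain_nontrivial
  obtain ⟨𝔪, h𝔪⟩ := Ideal.exists_maximal B'
  let κ := B' ⧸ 𝔪
  let _ : Field κ := Ideal.Quotient.field 𝔪
  obtain ⟨n, φ, hφ⟩ := Algebra.FiniteType.iff_quotient_mvPolynomial''.mp h5
  let ψ : MvPolynomial (Fin n) ℤ →+* κ := (Ideal.Quotient.mk 𝔪).comp (φ : MvPolynomial (Fin n) ℤ →+* B')
  have hψ : Function.Surjective ψ := Ideal.Quotient.mk_surjective.comp hφ
  have hint : (ψ.comp MvPolynomial.C).IsIntegral :=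
    MvPolynomial.comp_C_integral_of_surjective_of_isJacobsonRing ψ hψ
  obtain ⟨p, hp⟩ := CharP.exists κ
  have hp0 : p ≠ 0 := by
    rintro rfl
    have h0 : CharZero κ := CharP.charP_to_charZero κ
    have h1 : ψ.comp MvPolynomial.C = algebraMap ℤ κ := Subsingleton.elim _ _
    rw [h1] at hint
    have h2 : Algebra.IsIntegral ℤ κ := ⟨hint⟩
    have h3 : Function.Injective (algebraMap ℤ κ) := by
      intro a b hab
      simpa using hab
    exact Int.not_isField (isField_of_isIntegral_of_isField h3 (Field.toIsField κ))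
  have hpp : p.Prime := (CharP.char_is_prime_or_zero κ p).resolve_right hp0
  have hpN : N₀ < p := by
    by_contra hle
    push Not at hle
    have h1 : p ∣ N₀.factorial := (Nat.Prime.dvd_factorial hpp).mpr hle
    have h2 : ((N₀.factorial : ℕ) : κ) = 0 := (CharP.cast_eq_zero_iff κ p _).mpr h1
    have h3 : IsUnit (Ideal.Quotient.mk 𝔪 (algebraMap B B' c)) :=
      (IsLocalization.Away.algebraMap_isUnit c).map _
    have h4 : ∀ m : ℕ, Ideal.Quotient.mk 𝔪 (algebraMap B B' (m : B)) = (m : κ) := fun m => by
      rw [map_natCast, map_natCast]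
    have h5 : Ideal.Quotient.mk 𝔪 (algebraMap B B' c) = 0 := (h4 _).trans h2
    rw [h5] at h3
    exact not_isUnit_zero h3
  refine ⟨AlgebraicClosure κ, inferInstance, inferInstance, p, hpN, hpp,
    charP_of_injective_algebraMap (algebraMap κ (AlgebraicClosure κ)).injective p,
    ⟨(algebraMap κ (AlgebraicClosure κ)).comp ((Ideal.Quotient.mk 𝔪).comp (algebraMap B B'))⟩⟩

end Vale.Agent.P292.Mo
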