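import Vale.Agent.P292.Mo.Sp.Dat

/-! # The bracket on the graded algebra of the data over a field. -/

namespace Vale.Agent.P292.Mo

open MvPolynomial

universe u

variable {k : Type u} [Field k] {M L : ℕ}

theorem modelbr_add_left (D : Dat k M L) (a a' b : MvPolynomial (Fin M) k) :
    D.pbr (a + a') b = D.pbr a b + D.pbr a' b := by
  simp only [Dat.pbr, map_add, add_mul, Finset.sum_add_distrib]

theorem modelbr_add_right (D : Dat k M L) (a b b' : MvPolynomial (Fin M) k) :
    D.pbr a (b + b') = D.pbr a b + D.pbr a b' := by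
  simp only [Dat.pbr, map_add, add_mul, mul_add, Finset.sum_add_distrib]

theorem modelbr_smul_left (D : Dat k M L) (c : k) (a b : MvPolynomial (Fin M) k) :
    D.pbr (c • a) b = c • D.pbr a b := by
  simp only [Dat.pbr, Derivation.map_smul, smul_mul_assoc, Finset.smul_sum]

theorem modelbr_smul_right (D : Dat k M L) (c : k) (a b : MvPolynomial (Fin M) k) :
    D.pbr a (c • b) = c • D.pbr a b := by
  simp only [Dat.pbr, Derivation.map_smul, smul_mul_assoc, mul_smul_comm, Finset.smul_sum]

theorem modelbr_mul_right (D : Dat k M L) (a b c : MvPolynomial (Fin M) k) :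
    D.pbr a (b * c) = D.pbr a b * c + b * D.pbr a c := by
  simp only [Dat.pbr, Derivation.leibniz, smul_eq_mul, Finset.sum_mul, Finset.mul_sum,
    ← Finset.sum_add_distrib]
  refine Finset.sum_congr rfl fun i _ => Finset.sum_congr rfl fun j _ => ?_
  ring

theorem modelbr_skew (D : Dat k M L) (h : D.IsOK) (a b : MvPolynomial (Fin M) k) :
    D.pbr a b = - D.pbr b a := by
  unfold Dat.pbr
  rw [Finset.sum_comm, ← Finset.sum_neg_distrib]
  refine Finset.sum_congr rfl fun i _ => ?_
  rw [← Finset.sum_neg_distrib]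
  refine Finset.sum_congr rfl fun j _ => ?_
  rw [h.skew j i]
  ring

theorem modelbr_self (D : Dat k M L) (h : D.IsOK) (a : MvPolynomial (Fin M) k) :
    D.pbr a a = 0 := by
  unfold Dat.pbr
  rw [← Finset.sum_product']
  refine Finset.sum_involution (fun p _ => p.swap) ?_ ?_ ?_ ?_
  · rintro ⟨i, j⟩ _
    simp only [Prod.swap_prod_mk]
    rw [h.skew j i]
    ring
  · rintro ⟨i, j⟩ _ hne heq
    simp only [Prod.swap_prod_mk, Prod.mk.injEq] at heq
    obtain ⟨h1, _⟩ := heq
    subst h1
    apply hne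
    simp only [h.alt, mul_zero]
  · intro p _
    simp
  · intro p _
    simp

theorem modelbr_mem_left (D : Dat k M L) (h : D.IsOK) (a b : MvPolynomial (Fin M) k)
    (ha : a ∈ D.I) : D.pbr b a ∈ D.I := by
  unfold Dat.I at ha
  induction ha using Submodule.span_induction with
  | mem x hx =>
    obtain ⟨l, rfl⟩ := hx
    rw [modelbr_skew D h]
    refine neg_mem ?_
    unfold Dat.pbr
    rw [Finset.sum_comm]
    refine Submodule.sum_mem _ fun j _ => ?_
    have : ∑ i, pderiv i (D.F l) * pderiv j b * D.π i j =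
        pderiv j b * ∑ i, pderiv i (D.F l) * D.π i j := by
      rw [Finset.mul_sum]
      refine Finset.sum_congr rfl fun i _ => ?_
      ring
    rw [this]
    exact Ideal.mul_mem_left _ _ (h.desc l j)
  | zero =>
    have : D.pbr b 0 = 0 := by simp [Dat.pbr]
    rw [this]
    exact zero_mem _
  | add x y _ _ hx hy =>
    rw [modelbr_add_right]
    exact add_mem hx hy
  | smul c x hx' hx =>
    rw [smul_eq_mul, modelbr_mul_right]
    exact add_mem (Ideal.mul_mem_left _ _ hx') (Ideal.mul_mem_left _ _ hx)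

theorem modelbr_q_congr_right (D : Dat k M L) (h : D.IsOK) (a b b' : MvPolynomial (Fin M) k)
    (hb : D.q b = D.q b') : D.q (D.pbr a b) = D.q (D.pbr a b') := by
  have h1 : b - b' ∈ D.I := by
    rw [← Ideal.Quotient.eq]
    exact hb
  have h2 := modelbr_mem_left D h (b - b') a h1
  have h3 : D.pbr a (b - b') = D.pbr a b - D.pbr a b' := by
    have := modelbr_add_right D a (b - b') b'
    rw [sub_add_cancel] at this
    rw [this, add_sub_cancel_right]
  rw [h3] at h2
  exact (Ideal.Quotient.eq).2 h2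

theorem modelbr_q_congr (D : Dat k M L) (h : D.IsOK) (a a' b b' : MvPolynomial (Fin M) k)
    (ha : D.q a = D.q a') (hb : D.q b = D.q b') : D.q (D.pbr a b) = D.q (D.pbr a' b') := by
  rw [modelbr_q_congr_right D h a b b' hb, modelbr_skew D h a b', modelbr_skew D h a' b',
    map_neg, map_neg, modelbr_q_congr_right D h b' a a' ha]

theorem modelbr_pderiv_zero {M : ℕ} (w : Fin M → ℕ) (i : Fin M) (m : ℕ)
    (a : MvPolynomial (Fin M) k) (ha : IsWeightedHomogeneous w a m) (hm : m < w i) :
    pderiv i a = 0 := by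
  rw [a.as_sum, map_sum]
  refine Finset.sum_eq_zero fun s hs => ?_
  rw [pderiv_monomial]
  have h1 : s i = 0 := by
    by_contra hne
    have h2 : Finsupp.weight w s = m := ha (mem_support_iff.1 hs)
    have h3 : w i ≤ Finsupp.weight w s := Finsupp.le_weight_of_ne_zero' w hne
    omega
  rw [h1]
  simp

theorem modelbr_hom (D : Dat k M L) (h : D.IsOK) (a b : MvPolynomial (Fin M) k) (m m' n : ℕ)
    (hm : m + m' = n + 1) (ha : IsWeightedHomogeneous D.d a m)
    (hb : IsWeightedHomogeneous D.d b m') : IsWeightedHomogeneous D.d (D.pbr a b) n := by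
  unfold Dat.pbr
  rw [← mem_weightedHomogeneousSubmodule]
  refine Submodule.sum_mem _ fun i _ => Submodule.sum_mem _ fun j _ => ?_
  rw [mem_weightedHomogeneousSubmodule]
  by_cases hi : m < D.d i
  · rw [modelbr_pderiv_zero D.d i m a ha hi, zero_mul, zero_mul]
    exact isWeightedHomogeneous_zero _ _ _
  by_cases hj : m' < D.d j
  · rw [modelbr_pderiv_zero D.d j m' b hb hj, mul_zero, zero_mul]
    exact isWeightedHomogeneous_zero _ _ _
  push Not at hi hj
  have hpi := h.pos i
  have hpj := h.pos j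
  have h1 : IsWeightedHomogeneous D.d (pderiv i a) (m - D.d i) :=
    ha.pderiv (by omega)
  have h2 : IsWeightedHomogeneous D.d (pderiv j b) (m' - D.d j) :=
    hb.pderiv (by omega)
  have h3 : IsWeightedHomogeneous D.d (D.π i j) (D.d i + D.d j - 1) :=
    h.homπ i j _ (by omega)
  have h4 := (h1.mul h2).mul h3
  have h5 : m - D.d i + (m' - D.d j) + (D.d i + D.d j - 1) = n := by omega
  rwa [h5] at h4

/-- M3 -/
theorem Dat.exists_bracket (D : Dat k M L) (h : D.IsOK) :
    ∃ Q : D.Rg →ₗ[k] D.Rg →ₗ[k] D.Rg, (∀ a b, Q (D.q a) (D.q b) = D.q (D.pbr a b)) ∧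
      (∀ a, Q a a = 0) ∧ (∀ a b c, Q a (b * c) = Q a b * c + b * Q a c) ∧
      ∀ i j n, i + j = n + 1 → ∀ a ∈ D.gr i, ∀ b ∈ D.gr j, Q a b ∈ D.gr n := by
  have hsurj : Function.Surjective D.q := Ideal.Quotient.mkₐ_surjective k D.I
  choose o ho using hsurj
  have key : ∀ a b x y, D.q a = x → D.q b = y → D.q (D.pbr (o x) (o y)) = D.q (D.pbr a b) :=
    fun a b x y hx hy => modelbr_q_congr D h _ _ _ _ ((ho x).trans hx.symm) ((ho y).trans hy.symm)
  let Q : D.Rg →ₗ[k] D.Rg →ₗ[k] D.Rg := LinearMap.mk₂ k (fun x y => D.q (D.pbr (o x) (o y)))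
    (fun x x' y => by
      rw [key (o x + o x') (o y) (x + x') y (by rw [map_add, ho, ho]) (ho y),
        modelbr_add_left, map_add])
    (fun c x y => by
      rw [key (c • o x) (o y) (c • x) y (by rw [map_smul, ho]) (ho y),
        modelbr_smul_left, map_smul])
    (fun x y y' => by
      rw [key (o x) (o y + o y') x (y + y') (ho x) (by rw [map_add, ho, ho]),
        modelbr_add_right, map_add])
    (fun c x y => by
      rw [key (o x) (c • o y) x (c • y) (ho x) (by rw [map_smul, ho]),
        modelbr_smul_right, map_smul])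
  have hQ : ∀ a b, Q (D.q a) (D.q b) = D.q (D.pbr a b) := fun a b => key a b _ _ rfl rfl
  refine ⟨Q, hQ, ?_, ?_, ?_⟩
  · intro x
    rw [← ho x, hQ, modelbr_self D h, map_zero]
  · intro x y z
    rw [← ho x, ← ho y, ← ho z, ← map_mul, hQ, hQ, hQ, ← map_mul, ← map_mul, ← map_add,
      modelbr_mul_right]
  · intro i j n hij x hx y hy
    obtain ⟨a, ha, rfl⟩ := Submodule.mem_map.1 hx
    obtain ⟨b, hb, rfl⟩ := Submodule.mem_map.1 hy
    refine Submodule.mem_map.2 ⟨D.pbr a b, ?_, ?_⟩
    · rw [mem_weightedHomogeneousSubmodule] at ha hb ⊢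
      exact modelbr_hom D h a b i j n hij ha hb
    · exact (hQ a b).symm

end Vale.Agent.P292.Mo
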