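import Vale.Agent.P292.Mo.Sp.Dat

/-! # Spreading out: the grading of the algebra given by finite data. -/

namespace Vale.Agent.P292.Mo

open MvPolynomial

universe u v w

section modelgr

variable {A : Type u} [CommRing A] {M L : ℕ}

theorem modelgr_mem (D : Dat A M L) {n : ℕ} {p : MvPolynomial (Fin M) A}
    (hp : IsWeightedHomogeneous D.d p n) : D.q p ∈ D.gr n :=
  Submodule.mem_map_of_mem (f := D.q.toLinearMap)
    ((mem_weightedHomogeneousSubmodule A D.d n p).2 hp)

instance modelgr_monoid (D : Dat A M L) : SetLike.GradedMonoid D.gr where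
  one_mem := by
    have := modelgr_mem D (isWeightedHomogeneous_one A D.d)
    rwa [map_one] at this
  mul_mem := by
    rintro i j _ _ ⟨a, ha, rfl⟩ ⟨b, hb, rfl⟩
    have := modelgr_mem D (IsWeightedHomogeneous.mul ha hb)
    rwa [map_mul] at this

/-- The coaction, on polynomials. -/
noncomputable def modelgr_f (D : Dat A M L) :
    MvPolynomial (Fin M) A →ₐ[A] DirectSum ℕ (fun n => D.gr n) :=
  aeval fun i => DirectSum.of (fun n => D.gr n) (D.d i)
    ⟨D.q (X i), modelgr_mem D (isWeightedHomogeneous_X A D.d i)⟩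

theorem modelgr_coe (D : Dat A M L) (p : MvPolynomial (Fin M) A) :
    DirectSum.coeAlgHom D.gr (modelgr_f D p) = D.q p := by
  have : (DirectSum.coeAlgHom D.gr).comp (modelgr_f D) = D.q := by
    ext i
    rw [AlgHom.comp_apply, modelgr_f, aeval_X, DirectSum.coeAlgHom_of]
  rw [← this, AlgHom.comp_apply]

/-- The elements of degree `n` of the direct sum. -/
noncomputable def modelgr_S (D : Dat A M L) (n : ℕ) : Submodule A (DirectSum ℕ (fun n => D.gr n)) :=
  LinearMap.range (DirectSum.lof A ℕ (fun n => D.gr n) n)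

theorem modelgr_one (D : Dat A M L) : (1 : DirectSum ℕ (fun n => D.gr n)) ∈ modelgr_S D 0 :=
  ⟨1, rfl⟩

theorem modelgr_mul (D : Dat A M L) {i j : ℕ} {x y : DirectSum ℕ (fun n => D.gr n)}
    (hx : x ∈ modelgr_S D i) (hy : y ∈ modelgr_S D j) : x * y ∈ modelgr_S D (i + j) := by
  obtain ⟨a, rfl⟩ := hx
  obtain ⟨b, rfl⟩ := hy
  exact ⟨GradedMonoid.GMul.mul (A := fun n => D.gr n) a b,
    (DirectSum.of_mul_of (A := fun n => D.gr n) a b).symm⟩

theorem modelgr_pow (D : Dat A M L) {i : ℕ} {x : DirectSum ℕ (fun n => D.gr n)}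
    (hx : x ∈ modelgr_S D i) (m : ℕ) : x ^ m ∈ modelgr_S D (m * i) := by
  induction m with
  | zero => rw [pow_zero, zero_mul]; exact modelgr_one D
  | succ m ih => rw [pow_succ, Nat.succ_mul]; exact modelgr_mul D ih hx

theorem modelgr_monomial (D : Dat A M L) (m : Fin M →₀ ℕ) :
    modelgr_f D (monomial m 1) ∈ modelgr_S D (Finsupp.weight D.d m) := by
  induction m using Finsupp.induction_linear with
  | zero =>
    rw [map_zero]
    have : (monomial 0 1 : MvPolynomial (Fin M) A) = 1 := rfl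
    rw [this, map_one]
    exact modelgr_one D
  | add m m' h h' =>
    rw [map_add, ← mul_one (1 : A), ← monomial_mul, map_mul]
    exact modelgr_mul D h h'
  | single i c =>
    rw [← X_pow_eq_monomial, map_pow, Finsupp.weight_single, smul_eq_mul]
    refine modelgr_pow D ?_ c
    rw [modelgr_f, aeval_X]
    exact ⟨_, rfl⟩

theorem modelgr_hom (D : Dat A M L) {n : ℕ} {p : MvPolynomial (Fin M) A}
    (hp : IsWeightedHomogeneous D.d p n) :
    modelgr_f D p = DirectSum.of (fun n => D.gr n) n ⟨D.q p, modelgr_mem D hp⟩ := by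
  have h : modelgr_f D p ∈ modelgr_S D n := by
    rw [p.as_sum, map_sum]
    refine Submodule.sum_mem _ fun m hm => ?_
    have h1 := modelgr_monomial D m
    rw [hp (mem_support_iff.1 hm)] at h1
    have h2 : (monomial m (coeff m p) : MvPolynomial (Fin M) A) = coeff m p • monomial m 1 := by
      rw [smul_monomial, smul_eq_mul, mul_one]
    rw [h2, map_smul]
    exact Submodule.smul_mem _ _ h1
  obtain ⟨y, hy⟩ := h
  have h3 := modelgr_coe D p
  rw [← hy, DirectSum.lof_eq_of, DirectSum.coeAlgHom_of] at h3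
  rw [← hy, DirectSum.lof_eq_of]
  congr 1
  exact Subtype.ext h3

theorem modelgr_I (D : Dat A M L) (h : D.IsOK) (p : MvPolynomial (Fin M) A) (hp : p ∈ D.I) :
    modelgr_f D p = 0 := by
  have h1 : D.I ≤ RingHom.ker (modelgr_f D) := by
    refine Ideal.span_le.2 ?_
    rintro _ ⟨l, rfl⟩
    rw [SetLike.mem_coe, RingHom.mem_ker, modelgr_hom D (h.homF l)]
    have h2 : (⟨D.q (D.F l), modelgr_mem D (h.homF l)⟩ : D.gr (D.e l)) = 0 := by
      apply Subtype.ext
      exact Ideal.Quotient.eq_zero_iff_mem.2 (Ideal.subset_span ⟨l, rfl⟩)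
    rw [h2, map_zero]
  exact h1 hp

/-- The coaction. -/
noncomputable def modelgr_g (D : Dat A M L) (h : D.IsOK) :
    D.Rg →ₐ[A] DirectSum ℕ (fun n => D.gr n) :=
  Ideal.Quotient.liftₐ D.I (modelgr_f D) (modelgr_I D h)

theorem modelgr_g_q (D : Dat A M L) (h : D.IsOK) (p : MvPolynomial (Fin M) A) :
    modelgr_g D h (D.q p) = modelgr_f D p := rfl

/-- The grading. -/
@[instance_reducible]
noncomputable def modelgr_graded (D : Dat A M L) (h : D.IsOK) : GradedAlgebra D.gr :=
  GradedAlgebra.ofAlgHom D.gr (modelgr_g D h)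
    (by
      apply AlgHom.ext
      intro r
      obtain ⟨p, rfl⟩ := Ideal.Quotient.mkₐ_surjective A D.I r
      rw [AlgHom.comp_apply, modelgr_g_q, modelgr_coe, AlgHom.id_apply])
    (by
      rintro i ⟨_, p, hp, rfl⟩
      exact modelgr_hom D hp)

theorem modelgr_connected (D : Dat A M L) (h : D.IsOK) (r : D.Rg) (hr : r ∈ D.gr 0) :
    ∃ c : A, r = algebraMap A D.Rg c := by
  obtain ⟨p, hp, rfl⟩ := hr
  have h1 : p = C (coeff 0 p) := by
    rw [← weightedHomogeneousComponent_zero p (fun i => (h.pos i).ne')]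
    exact (IsWeightedHomogeneous.weightedHomogeneousComponent_same hp).symm
  refine ⟨coeff 0 p, ?_⟩
  rw [AlgHom.toLinearMap_apply]
  conv_lhs => rw [h1]
  exact D.q.commutes (coeff 0 p)

end modelgr

section model

variable {k : Type u} [Field k] {M L : ℕ}

/-- M1 -/
theorem Dat.nonempty_gradedAlgebra (D : Dat k M L) (h : D.IsOK) : Nonempty (GradedAlgebra D.gr) :=
  ⟨modelgr_graded D h⟩

/-- M2 -/
theorem Dat.connected (D : Dat k M L) (h : D.IsOK) :
    ∀ r ∈ D.gr 0, ∃ c : k, r = algebraMap k D.Rg c :=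
  fun r hr => modelgr_connected D h r hr

end model

end Vale.Agent.P292.Mo
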