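import Vale.Agent.P292.Mo.Defs

/-! # Spreading out: finite data for graded algebras with a bracket. -/

namespace Vale.Agent.P292.Mo

open MvPolynomial

universe u v w

/-- Finite data describing a graded algebra with a bracket over an arbitrary base ring:
weights `d` of the generators, degrees `e` of the relations `F`, brackets `π` of the generators. -/
structure Dat (A : Type u) [CommRing A] (M L : ℕ) where
  d : Fin M → ℕ
  e : Fin L → ℕ
  F : Fin L → MvPolynomial (Fin M) A
  π : Fin M → Fin M → MvPolynomial (Fin M) A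

namespace Dat

variable {A : Type u} [CommRing A] {M L : ℕ}

/-- The ideal of relations. -/
noncomputable def I (D : Dat A M L) : Ideal (MvPolynomial (Fin M) A) := Ideal.span (Set.range D.F)

/-- The algebra. -/
abbrev Rg (D : Dat A M L) : Type u := MvPolynomial (Fin M) A ⧸ D.I

/-- The class of a polynomial. -/
noncomputable abbrev q (D : Dat A M L) : MvPolynomial (Fin M) A →ₐ[A] D.Rg := Ideal.Quotient.mkₐ A D.I

/-- The graded pieces. -/
noncomputable def gr (D : Dat A M L) (n : ℕ) : Submodule A D.Rg :=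
  (weightedHomogeneousSubmodule A D.d n).map D.q.toLinearMap

/-- The bracket of two polynomials. -/
noncomputable def pbr (D : Dat A M L) (a b : MvPolynomial (Fin M) A) : MvPolynomial (Fin M) A :=
  ∑ i, ∑ j, pderiv i a * pderiv j b * D.π i j

/-- The matrix of brackets. -/
noncomputable def pbrM (D : Dat A M L) {N : ℕ} (x : Fin N → MvPolynomial (Fin M) A) :
    Matrix (Fin N) (Fin N) (MvPolynomial (Fin M) A) :=
  Matrix.of fun i j => D.pbr (x i) (x j)

/-- Change of the base ring. -/
noncomputable def map {B : Type v} [CommRing B] (j : A →+* B) (D : Dat A M L) : Dat B M L where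
  d := D.d
  e := D.e
  F := fun l => MvPolynomial.map j (D.F l)
  π := fun i i' => MvPolynomial.map j (D.π i i')

/-- Validity of the data. -/
structure IsOK (D : Dat A M L) : Prop where
  pos : ∀ i, 0 < D.d i
  homF : ∀ l, IsWeightedHomogeneous D.d (D.F l) (D.e l)
  homπ : ∀ i j n, D.d i + D.d j = n + 1 → IsWeightedHomogeneous D.d (D.π i j) n
  alt : ∀ i, D.π i i = 0
  skew : ∀ i j, D.π i j = - D.π j i
  desc : ∀ l j, ∑ i, pderiv i (D.F l) * D.π i j ∈ D.I

end Dat

/-- `D` is a presentation of the graded Poisson algebra `(R, 𝒜, P)`. -/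
structure IsPres {R : Type u} [CommRing R] [Algebra ℂ R] (𝒜 : ℕ → Submodule ℂ R)
    (P : R →ₗ[ℂ] R →ₗ[ℂ] R) {M L : ℕ} (D : Dat ℂ M L)
    (ev : MvPolynomial (Fin M) ℂ →ₐ[ℂ] R) : Prop where
  ok : D.IsOK
  surj : Function.Surjective ev
  ker : ∀ p, ev p = 0 ↔ p ∈ D.I
  hom : ∀ i, ev (X i) ∈ 𝒜 (D.d i)
  lift : ∀ n, ∀ r ∈ 𝒜 n, ∃ p, IsWeightedHomogeneous D.d p n ∧ ev p = r
  br : ∀ i j, ev (D.π i j) = P (ev (X i)) (ev (X j))

end Vale.Agent.P292.Mo
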