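import Vale.Agent.P292.Defs
import Vale.Agent.P292.Mo.Sp.Dat

/-! # Graded Noether normalisation. -/

namespace Vale.Agent.P292.Mo

open MvPolynomial

universe u v w

/-! ## The coefficient of top degree after a linear change of variables -/

theorem noether_prod {A : Type u} [CommRing A] {n : ℕ} (s : Finset (Fin n)) (c b : Fin n → A)
    (m : Fin n → ℕ) :
    (∏ i ∈ s, (Polynomial.C (c i) + Polynomial.C (b i) * Polynomial.X) ^ m i).natDegree ≤
        ∑ i ∈ s, m i ∧
      (∏ i ∈ s, (Polynomial.C (c i) + Polynomial.C (b i) * Polynomial.X) ^ m i).coeff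
        (∑ i ∈ s, m i) = ∏ i ∈ s, b i ^ m i := by
  classical
  have h1 : ∀ i, (Polynomial.C (c i) + Polynomial.C (b i) * Polynomial.X).natDegree ≤ 1 := by
    intro i
    refine (Polynomial.natDegree_add_le _ _).trans (max_le ?_ ?_)
    · rw [Polynomial.natDegree_C]
      exact Nat.zero_le _
    · refine Polynomial.natDegree_mul_le.trans ?_
      rw [Polynomial.natDegree_C, zero_add]
      exact Polynomial.natDegree_X_le
  have h2 : ∀ i, (Polynomial.C (c i) + Polynomial.C (b i) * Polynomial.X).coeff 1 = b i := by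
    intro i
    rw [Polynomial.coeff_add, Polynomial.coeff_C, if_neg one_ne_zero, zero_add,
      Polynomial.coeff_C_mul, Polynomial.coeff_X_one, mul_one]
  induction s using Finset.induction_on with
  | empty => simp
  | insert i s hi ih =>
    rw [Finset.prod_insert hi, Finset.sum_insert hi, Finset.prod_insert hi]
    have h3 : ((Polynomial.C (c i) + Polynomial.C (b i) * Polynomial.X) ^ m i).natDegree ≤ m i := by
      refine Polynomial.natDegree_pow_le.trans ?_
      calc m i * (Polynomial.C (c i) + Polynomial.C (b i) * Polynomial.X).natDegree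
          ≤ m i * 1 := Nat.mul_le_mul_left _ (h1 i)
        _ = m i := mul_one _
    have h4 : ((Polynomial.C (c i) + Polynomial.C (b i) * Polynomial.X) ^ m i).coeff (m i) =
        b i ^ m i := by
      have h5 := Polynomial.coeff_pow_of_natDegree_le (m := m i) (h1 i)
      rw [mul_one, h2] at h5
      exact h5
    refine ⟨Polynomial.natDegree_mul_le.trans (add_le_add h3 ih.1), ?_⟩
    rw [Polynomial.coeff_mul_add_eq_of_natDegree_le h3 ih.1, h4, ih.2]

theorem noether_coeff {k : Type u} [Field k] {A : Type v} [CommRing A] [Algebra k A] {n : ℕ}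
    (c : Fin n → A) (b : Fin n → k) (f : MvPolynomial (Fin n) k) (j : ℕ)
    (hf : f.IsHomogeneous j) :
    (aeval (fun i => Polynomial.C (c i) + Polynomial.C (algebraMap k A (b i)) *
        Polynomial.X : Fin n → Polynomial A) f).natDegree ≤ j ∧
      (aeval (fun i => Polynomial.C (c i) + Polynomial.C (algebraMap k A (b i)) *
        Polynomial.X : Fin n → Polynomial A) f).coeff j = algebraMap k A (eval b f) := by
  classical
  have key : ∀ m ∈ f.support, (aeval (fun i => Polynomial.C (c i) +
      Polynomial.C (algebraMap k A (b i)) * Polynomial.X : Fin n → Polynomial A)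
        (monomial m (coeff m f))).natDegree ≤ j ∧
      (aeval (fun i => Polynomial.C (c i) +
      Polynomial.C (algebraMap k A (b i)) * Polynomial.X : Fin n → Polynomial A)
        (monomial m (coeff m f))).coeff j = algebraMap k A (eval b (monomial m (coeff m f))) := by
    intro m hm
    have hd : ∑ i, m i = j := by
      have h := hf (mem_support_iff.mp hm)
      rw [Finsupp.weight_apply] at h
      simp only [Pi.one_apply, smul_eq_mul, mul_one] at h
      rw [← h, Finsupp.sum_fintype _ _ (fun _ => rfl)]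
    have h := noether_prod (Finset.univ : Finset (Fin n)) c (fun i => algebraMap k A (b i)) m
    rw [hd] at h
    rw [aeval_monomial, Finsupp.prod_fintype _ _ (fun _ => pow_zero _), eval_monomial,
      Finsupp.prod_fintype _ _ (fun _ => pow_zero _)]
    have h6 : (algebraMap k (Polynomial A)) (coeff m f) =
        Polynomial.C (algebraMap k A (coeff m f)) := rfl
    rw [h6]
    refine ⟨(Polynomial.natDegree_C_mul_le _ _).trans h.1, ?_⟩
    rw [Polynomial.coeff_C_mul, h.2, map_mul, map_prod]
    simp only [map_pow]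
  have hs : f = ∑ m ∈ f.support, monomial m (coeff m f) := (support_sum_monomial_coeff f).symm
  constructor
  · conv_lhs => rw [hs]
    rw [map_sum]
    exact Polynomial.natDegree_sum_le_of_forall_le _ _ fun m hm => (key m hm).1
  · conv_lhs => rw [hs]
    conv_rhs => rw [hs]
    rw [map_sum, map_sum, map_sum, Polynomial.finsetSum_coeff]
    exact Finset.sum_congr rfl fun m hm => (key m hm).2

/-! ## Integrality -/

theorem noether_trans {k : Type u} [Field k] {R : Type v} [CommRing R] [Algebra k R]
    {S T : Set R} (hS : ∀ r : R, IsIntegral (Algebra.adjoin k S) r)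
    (hT : ∀ s ∈ S, IsIntegral (Algebra.adjoin k T) s) (r : R) :
    IsIntegral (Algebra.adjoin k T) r := by
  have hle : Algebra.adjoin k S ≤
      (integralClosure (Algebra.adjoin k T) R).restrictScalars k :=
    Algebra.adjoin_le fun s hs => hT s hs
  have h1 : IsIntegral ((integralClosure (Algebra.adjoin k T) R).restrictScalars k) r := by
    have h := IsIntegral.map_of_comp_eq (Subalgebra.inclusion hle).toRingHom (RingHom.id R)
      (RingHom.ext fun _ => rfl) (hS r)
    exact h
  exact isIntegral_trans (A := integralClosure (Algebra.adjoin k T) R) r h1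

theorem noether_of_mem {k : Type u} [Field k] {R : Type v} [CommRing R] [Algebra k R]
    {T : Set R} {r : R} (hr : r ∈ Algebra.adjoin k T) : IsIntegral (Algebra.adjoin k T) r :=
  isIntegral_algebraMap (R := Algebra.adjoin k T) (A := R) (x := ⟨r, hr⟩)

/-! ## Homogeneous relations -/

theorem noether_aeval_mem {k : Type u} [Field k] {R : Type v} [CommRing R] [Algebra k R]
    {𝒜 : ℕ → Submodule k R} [GradedAlgebra 𝒜] {e n : ℕ} {y : Fin n → R}
    (hy : ∀ i, y i ∈ 𝒜 e) (f : MvPolynomial (Fin n) k) (j : ℕ) (hf : f.IsHomogeneous j) :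
    aeval y f ∈ 𝒜 (e * j) := by
  classical
  rw [← support_sum_monomial_coeff f, map_sum]
  refine Submodule.sum_mem _ fun m hm => ?_
  have hd : ∑ i, m i = j := by
    have h := hf (mem_support_iff.mp hm)
    rw [Finsupp.weight_apply] at h
    simp only [Pi.one_apply, smul_eq_mul, mul_one] at h
    rw [← h, Finsupp.sum_fintype _ _ (fun _ => rfl)]
  rw [aeval_monomial, Finsupp.prod_fintype _ _ (fun _ => pow_zero _), ← Algebra.smul_def]
  refine Submodule.smul_mem _ _ ?_
  have h1 : ∏ i, y i ^ m i ∈ 𝒜 (∑ i, m i • e) :=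
    SetLike.prod_pow_mem_graded 𝒜 (fun _ => e) y m fun i _ => hy i
  rw [← Finset.sum_smul, hd, smul_eq_mul, mul_comm] at h1
  exact h1

theorem noether_component {k : Type u} [Field k] {R : Type v} [CommRing R] [Algebra k R]
    {𝒜 : ℕ → Submodule k R} [GradedAlgebra 𝒜] {e n : ℕ} (he : 0 < e) {y : Fin n → R}
    (hy : ∀ i, y i ∈ 𝒜 e) (f : MvPolynomial (Fin n) k) (hf : aeval y f = 0) (j : ℕ) :
    aeval y (homogeneousComponent j f) = 0 := by
  classical
  have h1 : ∑ i ∈ Finset.range (f.totalDegree + 1), aeval y (homogeneousComponent i f) = 0 := by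
    rw [← map_sum, sum_homogeneousComponent, hf]
  have hm : ∀ i, aeval y (homogeneousComponent i f) ∈ 𝒜 (e * i) := fun i =>
    noether_aeval_mem hy _ i (homogeneousComponent_isHomogeneous i f)
  by_cases hj : j ∈ Finset.range (f.totalDegree + 1)
  · have h2 : ((DirectSum.decompose 𝒜 (∑ i ∈ Finset.range (f.totalDegree + 1),
        aeval y (homogeneousComponent i f))) (e * j) : R) = 0 := by
      rw [h1, DirectSum.decompose_zero]
      rfl
    rw [DirectSum.decompose_sum, DFinsupp.finsetSum_apply, AddSubmonoidClass.coe_finsetSum,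
      Finset.sum_eq_single j] at h2
    · rwa [DirectSum.decompose_of_mem_same 𝒜 (hm j)] at h2
    · intro i _ hij
      exact DirectSum.decompose_of_mem_ne 𝒜 (hm i) fun h => hij (Nat.eq_of_mul_eq_mul_left he h)
    · intro h
      exact absurd hj h
  · rw [homogeneousComponent_eq_zero _ _ (by
      rw [Finset.mem_range] at hj
      omega), map_zero]

/-! ## Dropping one element -/

theorem noether_drop {k : Type u} [Field k] [Infinite k] {R : Type v} [CommRing R] [Nontrivial R]
    [Algebra k R] {𝒜 : ℕ → Submodule k R} [GradedAlgebra 𝒜] {e n : ℕ} (he : 0 < e)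
    (y : Fin (n + 1) → R) (hy : ∀ i, y i ∈ 𝒜 e)
    (hint : ∀ r : R, IsIntegral (Algebra.adjoin k (Set.range y)) r)
    (hna : ¬ AlgebraicIndependent k y) :
    ∃ y' : Fin n → R, (∀ i, y' i ∈ 𝒜 e) ∧
      ∀ r : R, IsIntegral (Algebra.adjoin k (Set.range y')) r := by
  classical
  rw [algebraicIndependent_iff] at hna
  push Not at hna
  obtain ⟨f, hf0, hfne⟩ := hna
  obtain ⟨j, hj⟩ : ∃ j, homogeneousComponent j f ≠ 0 := by
    by_contra h
    push Not at h
    apply hfne
    rw [← sum_homogeneousComponent f]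
    exact Finset.sum_eq_zero fun i _ => h i
  have hg0 := noether_component he hy f hf0 j
  have hgh := homogeneousComponent_isHomogeneous j f
  generalize homogeneousComponent j f = g at hj hg0 hgh
  -- the degree is positive
  have hjpos : j ≠ 0 := by
    rintro rfl
    obtain ⟨c, hc⟩ : ∃ c, g = C c := ⟨coeff 0 g, (totalDegree_eq_zero_iff_eq_C).mp
      (Nat.le_zero.mp hgh.totalDegree_le)⟩
    rw [hc, aeval_C] at hg0
    have hc0 : c = 0 := (algebraMap k R).injective (by rw [hg0, map_zero])
    rw [hc, hc0, map_zero] at hj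
    exact hj rfl
  obtain ⟨a, ha⟩ : ∃ a : Fin (n + 1) → k, eval a g ≠ 0 := by
    by_contra h
    push Not at h
    exact hj (MvPolynomial.funext fun x => by rw [h x, map_zero])
  obtain ⟨i0, hi0⟩ : ∃ i, a i ≠ 0 := by
    by_contra h
    push Not at h
    apply ha
    have h0 : a = 0 := funext h
    rw [h0, eval_zero, constantCoeff_eq]
    by_contra hc
    have h := hgh hc
    rw [map_zero] at h
    exact hjpos h.symm
  have hc : ∀ i, ∃ c : R, c = y i - algebraMap k R (a i) * (algebraMap k R (a i0)⁻¹ * y i0) :=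
    fun i => ⟨_, rfl⟩
  choose c hc using hc
  have hci0 : c i0 = 0 := by
    rw [hc, ← mul_assoc, ← map_mul, mul_inv_cancel₀ hi0, map_one, one_mul, sub_self]
  have hcA : ∀ i, c i ∈ 𝒜 e := by
    intro i
    rw [hc]
    refine Submodule.sub_mem _ (hy i) ?_
    rw [← Algebra.smul_def, ← Algebra.smul_def]
    exact Submodule.smul_mem _ _ (Submodule.smul_mem _ _ (hy i0))
  have hcmem : ∀ i, c i ∈ Algebra.adjoin k (Set.range fun i' : Fin n => c (i0.succAbove i')) := by
    intro i
    by_cases h : i = i0
    · rw [h, hci0]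
      exact zero_mem _
    · obtain ⟨i', rfl⟩ := Fin.exists_succAbove_eq h
      exact Algebra.subset_adjoin ⟨i', rfl⟩
  refine ⟨fun i' => c (i0.succAbove i'), fun i' => hcA _, ?_⟩
  -- `t` is integral
  have ht : IsIntegral (Algebra.adjoin k (Set.range fun i' : Fin n => c (i0.succAbove i')))
      (algebraMap k R (a i0)⁻¹ * y i0) := by
    have h := noether_coeff (A := Algebra.adjoin k (Set.range fun i' : Fin n =>
      c (i0.succAbove i'))) (fun i => ⟨c i, hcmem i⟩) a g j hgh
    refine ⟨Polynomial.C (algebraMap k _ (eval a g)⁻¹) * aeval (fun i => Polynomial.C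
      (⟨c i, hcmem i⟩ : Algebra.adjoin k (Set.range fun i' : Fin n => c (i0.succAbove i'))) +
      Polynomial.C (algebraMap k _ (a i)) * Polynomial.X) g, ?_, ?_⟩
    · refine Polynomial.monic_of_natDegree_le_of_coeff_eq_one j
        ((Polynomial.natDegree_C_mul_le _ _).trans h.1) ?_
      rw [Polynomial.coeff_C_mul, h.2, ← map_mul, inv_mul_cancel₀ ha, map_one]
    · rw [Polynomial.eval₂_mul]
      have h5 : Polynomial.eval₂ (algebraMap (Algebra.adjoin k (Set.range fun i' : Fin n =>
          c (i0.succAbove i'))) R) (algebraMap k R (a i0)⁻¹ * y i0) (aeval (fun i => Polynomial.C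
          (⟨c i, hcmem i⟩ : Algebra.adjoin k (Set.range fun i' : Fin n => c (i0.succAbove i'))) +
          Polynomial.C (algebraMap k _ (a i)) * Polynomial.X) g) = aeval y g := by
        have h6 : (((Polynomial.aeval (algebraMap k R (a i0)⁻¹ * y i0)).restrictScalars k).comp
            (aeval (fun i => Polynomial.C (⟨c i, hcmem i⟩ : Algebra.adjoin k (Set.range
              fun i' : Fin n => c (i0.succAbove i'))) +
              Polynomial.C (algebraMap k _ (a i)) * Polynomial.X))) = aeval y := by
          refine MvPolynomial.algHom_ext fun i => ?_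
          rw [AlgHom.comp_apply, aeval_X, aeval_X, AlgHom.restrictScalars_apply, map_add,
            map_mul, Polynomial.aeval_C, Polynomial.aeval_C, Polynomial.aeval_X]
          change c i + algebraMap k R (a i) * _ = y i
          rw [hc i, sub_add_cancel]
        exact DFunLike.congr_fun h6 g
      rw [h5, hg0, mul_zero]
  refine noether_trans hint ?_
  rintro _ ⟨i, rfl⟩
  have h7 : y i = c i + algebraMap k R (a i) * (algebraMap k R (a i0)⁻¹ * y i0) := by
    rw [hc i, sub_add_cancel]
  rw [h7]
  refine (noether_of_mem (hcmem i)).add (IsIntegral.mul (noether_of_mem ?_) ht)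
  exact Subalgebra.algebraMap_mem _ _

/-! ## Homogeneous generators -/

theorem noether_gens {k : Type u} [Field k] {R : Type v} [CommRing R] [Algebra k R]
    {𝒜 : ℕ → Submodule k R} [GradedAlgebra 𝒜] (hft : Algebra.FiniteType k R)
    (hconn : ∀ r ∈ 𝒜 0, ∃ c : k, r = algebraMap k R c) :
    ∃ (m : ℕ) (x : Fin m → R) (d : Fin m → ℕ), (∀ i, 0 < d i) ∧ (∀ i, x i ∈ 𝒜 (d i)) ∧
      Algebra.adjoin k (Set.range x) = ⊤ := by
  classical
  obtain ⟨S, hS⟩ := hft.out
  obtain ⟨T, hT⟩ : ∃ T : Finset R, T = S.biUnion fun s =>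
      ((DirectSum.decompose 𝒜 s).support.erase 0).image fun i => (DirectSum.decompose 𝒜 s i : R) :=
    ⟨_, rfl⟩
  have hd : ∀ t : T, ∃ d, 0 < d ∧ (t : R) ∈ 𝒜 d := by
    rintro ⟨t, ht⟩
    rw [hT, Finset.mem_biUnion] at ht
    obtain ⟨s, -, ht⟩ := ht
    rw [Finset.mem_image] at ht
    obtain ⟨i, hi, rfl⟩ := ht
    rw [Finset.mem_erase] at hi
    exact ⟨i, Nat.pos_of_ne_zero hi.1, SetLike.coe_mem _⟩
  choose d hd0 hd using hd
  refine ⟨T.card, fun i => (T.equivFin.symm i : R), fun i => d (T.equivFin.symm i),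
    fun i => hd0 _, fun i => hd _, ?_⟩
  have hr : Set.range (fun i => (T.equivFin.symm i : R)) = (T : Set R) := by
    ext r
    constructor
    · rintro ⟨i, rfl⟩
      exact (T.equivFin.symm i).2
    · intro hr
      exact ⟨T.equivFin ⟨r, hr⟩, by simp⟩
  rw [hr, eq_top_iff, ← hS]
  refine Algebra.adjoin_le fun s hs => ?_
  rw [← DirectSum.sum_support_decompose 𝒜 s]
  refine Subalgebra.sum_mem _ fun i hi => ?_
  by_cases h0 : i = 0
  · obtain ⟨c, hc⟩ := hconn (DirectSum.decompose 𝒜 s i : R) (h0 ▸ SetLike.coe_mem _)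
    rw [hc]
    exact Subalgebra.algebraMap_mem _ _
  · refine Algebra.subset_adjoin ?_
    rw [hT]
    exact Finset.mem_biUnion.mpr ⟨s, hs, Finset.mem_image.mpr
      ⟨i, Finset.mem_erase.mpr ⟨h0, hi⟩, rfl⟩⟩

/-- Graded Noether normalisation over an infinite field. -/
theorem noether_main {k : Type u} [Field k] [Infinite k] {R : Type v} [CommRing R] [Nontrivial R]
    [Algebra k R] {𝒜 : ℕ → Submodule k R} [GradedAlgebra 𝒜] (hft : Algebra.FiniteType k R)
    (hconn : ∀ r ∈ 𝒜 0, ∃ c : k, r = algebraMap k R c) :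
    ∃ (e n : ℕ) (y : Fin n → R), 0 < e ∧ (∀ i, y i ∈ 𝒜 e) ∧ AlgebraicIndependent k y ∧
      ∃ S : Finset R, Submodule.span (Algebra.adjoin k (Set.range y)) (S : Set R) = ⊤ := by
  classical
  obtain ⟨m, x, d, hd, hx, htop⟩ := noether_gens hft hconn
  obtain ⟨e, he⟩ : ∃ e, e = ∏ i, d i := ⟨_, rfl⟩
  have he0 : 0 < e := by
    rw [he]
    exact Finset.prod_pos fun i _ => hd i
  have hdvd : ∀ i, d i ∣ e := fun i => he ▸ Finset.dvd_prod_of_mem _ (Finset.mem_univ i)
  have hQ : ∃ n : ℕ, ∃ y : Fin n → R, (∀ i, y i ∈ 𝒜 e) ∧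
      ∀ r : R, IsIntegral (Algebra.adjoin k (Set.range y)) r := by
    refine ⟨m, fun i => x i ^ (e / d i), fun i => ?_, ?_⟩
    · have h := SetLike.pow_mem_graded (A := 𝒜) (e / d i) (hx i)
      rwa [smul_eq_mul, Nat.div_mul_cancel (hdvd i)] at h
    · refine noether_trans (S := Set.range x) (fun r => noether_of_mem (by rw [htop]; trivial)) ?_
      rintro _ ⟨i, rfl⟩
      refine IsIntegral.of_pow (n := e / d i)
        (Nat.div_pos (Nat.le_of_dvd he0 (hdvd i)) (hd i)) ?_
      exact noether_of_mem (Algebra.subset_adjoin ⟨i, rfl⟩)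
  obtain ⟨y, hy, hint⟩ := Nat.find_spec hQ
  have hmin := fun n => Nat.find_min (m := n) hQ
  generalize Nat.find hQ = n at y hy hint hmin
  have hind : AlgebraicIndependent k y := by
    by_contra hna
    cases n with
    | zero =>
      apply hna
      rw [algebraicIndependent_empty_type_iff]
      exact (algebraMap k R).injective
    | succ n => exact hmin n (Nat.lt_succ_self n) (noether_drop he0 y hy hint hna)
  refine ⟨e, n, y, he0, hy, hind, ?_⟩
  have : Algebra.IsIntegral (Algebra.adjoin k (Set.range y)) R := ⟨hint⟩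
  have : Algebra.FiniteType (Algebra.adjoin k (Set.range y)) R :=
    Algebra.FiniteType.of_restrictScalars_finiteType k _ R
  have : Module.Finite (Algebra.adjoin k (Set.range y)) R := Algebra.IsIntegral.finite
  exact Module.Finite.fg_top

variable {R : Type u} [CommRing R] [Algebra ℂ R] {𝒜 : ℕ → Submodule ℂ R} [GradedAlgebra 𝒜]
  {P : R →ₗ[ℂ] R →ₗ[ℂ] R}

/-- NN: graded Noether normalisation. -/
theorem exists_noether (hX : IsContactFano 𝒜 P) :
    ∃ (e n : ℕ) (y : Fin n → R), 0 < e ∧ (∀ i, y i ∈ 𝒜 e) ∧ AlgebraicIndependent ℂ y ∧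
      ∃ S : Finset R, Submodule.span (Algebra.adjoin ℂ (Set.range y)) (S : Set R) = ⊤ := by
  have := hX.domain
  exact noether_main hX.finiteType hX.connected

end Vale.Agent.P292.Mo
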