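import Vale.Agent.P292.Fr.A
import Vale.Agent.P292.Mo.Sp.Dat

/-! # The bracket matrix of a Noether normalisation is nondegenerate. -/

open TensorProduct

universe u

namespace Vale.Agent.P292.Mo

/-- A derivation that kills a subalgebra over which the domain is algebraic is zero. -/
theorem noetherdet_derivation_eq_zero {k : Type} [Field k] [CharZero k] {R : Type u} [CommRing R]
    [IsDomain R] [Algebra k R] (A : Subalgebra k R) [Algebra.IsAlgebraic A R]
    (δ : Derivation k R R) (hδ : ∀ a ∈ A, δ a = 0) : δ = 0 := by
  classical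
  have : CharZero R := charZero_of_injective_algebraMap (algebraMap k R).injective
  have : CharZero A := charZero_of_injective_algebraMap (algebraMap k A).injective
  let δ' : Derivation A R R :=
    { toFun := δ
      map_add' := fun a b => map_add δ a b
      map_smul' := fun a r => by
        have h1 : δ (algebraMap A R a) = 0 := hδ _ a.2
        rw [Algebra.smul_def, Derivation.leibniz, RingHom.id_apply, h1, smul_zero, add_zero,
          smul_eq_mul]
        rfl
      map_one_eq_zero' := δ.map_one_eq_zero
      leibniz' := fun a b => δ.leibniz a b }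
  ext r
  rw [Derivation.coe_zero, Pi.zero_apply]
  by_contra hr
  have key : ∀ (m : ℕ) (p : Polynomial A), p.natDegree = m → Polynomial.aeval r p = 0 →
      p = 0 := by
    intro m
    induction m with
    | zero =>
      intro p hp h0
      rw [Polynomial.eq_C_of_natDegree_eq_zero hp, Polynomial.aeval_C] at h0
      rw [Polynomial.eq_C_of_natDegree_eq_zero hp]
      have : p.coeff 0 = 0 := Subtype.ext h0
      rw [this, Polynomial.C_0]
    | succ m ih =>
      intro p hp h0
      have h1 : Polynomial.aeval r (Polynomial.derivative p) = 0 := by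
        have h2 : δ' (Polynomial.aeval r p) = Polynomial.aeval r (Polynomial.derivative p) • δ' r :=
          Derivation.map_aeval δ' p r
        rw [h0, map_zero] at h2
        have h3 := h2.symm
        rw [smul_eq_mul] at h3
        rcases mul_eq_zero.mp h3 with h4 | h4
        · exact h4
        · exact absurd h4 hr
      have h2 : (Polynomial.derivative p).natDegree = m := by
        rw [Polynomial.natDegree_derivative, hp]; rfl
      have h3 := ih _ h2 h1
      have h4 := Polynomial.derivative_eq_zero.mp h3
      omega
  obtain ⟨p, hp0, hp⟩ := Algebra.IsAlgebraic.isAlgebraic (R := A) r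
  exact hp0 (key _ p rfl hp)

/-- Differentials of a transcendence basis are independent. -/
theorem noetherdet_linearIndependent {k : Type} [Field k] [CharZero k] {R : Type u} [CommRing R]
    [IsDomain R] [Algebra k R] {n : ℕ} (y : Fin n → R) (hy : IsTranscendenceBasis k y)
    (c : Fin n → R) (g : R) (hg : g ≠ 0)
    (h : ∀ δ : Derivation k R (Ω[(FractionRing R)⁄k]), g • ∑ i, c i • δ (y i) = 0) : c = 0 := by
  classical
  let K := FractionRing R
  let S := MvPolynomial (Fin n) k
  have hinj : Function.Injective (MvPolynomial.aeval (R := k) y) := hy.1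
  let _ : Algebra S R := (MvPolynomial.aeval (R := k) y).toRingHom.toAlgebra
  have : IsScalarTower k S R := IsScalarTower.of_algebraMap_eq fun x => by
    change _ = MvPolynomial.aeval y (algebraMap k S x)
    rw [MvPolynomial.algebraMap_eq, MvPolynomial.aeval_C]
  have halg : ∀ s : S, algebraMap S K s = algebraMap R K (MvPolynomial.aeval y s) := fun s =>
    IsScalarTower.algebraMap_apply S R K s
  have : IsScalarTower k S K := IsScalarTower.of_algebraMap_eq fun x => by
    rw [halg, MvPolynomial.algebraMap_eq, MvPolynomial.aeval_C]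
    exact (IsScalarTower.algebraMap_apply k R K x)
  have hinjK : Function.Injective (algebraMap S K) := by
    intro a b hab
    rw [halg, halg] at hab
    exact hinj (IsFractionRing.injective R K hab)
  have : FaithfulSMul S K := (faithfulSMul_iff_algebraMap_injective S K).mpr hinjK
  let L := FractionRing S
  let _ : Algebra L K := FractionRing.liftAlgebra S K
  have : IsScalarTower S L K := FractionRing.isScalarTower_liftAlgebra S K
  have : IsScalarTower k L K := IsScalarTower.to₁₃₄ k S L K
  have hSR : Algebra.IsAlgebraic S R := by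
    have h1 := hy.isAlgebraic
    refine Algebra.IsAlgebraic.of_ringHom_of_comp_eq (S := Algebra.adjoin k (Set.range y)) (B := R)
      (hy.1.aevalEquiv : S ≃ₐ[k] Algebra.adjoin k (Set.range y)).toRingEquiv.toRingHom
      (RingHom.id R) (hy.1.aevalEquiv).surjective Function.injective_id ?_
    ext x
    · simp [RingHom.algebraMap_toAlgebra]
    · simp [RingHom.algebraMap_toAlgebra]
  have hRK : Algebra.IsAlgebraic R K :=
    (IsFractionRing.comap_isAlgebraic_iff (A := R) (K := K) (C := K)).mpr inferInstance
  have hSK : Algebra.IsAlgebraic S K := Algebra.IsAlgebraic.trans S R K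
  have : Algebra.IsAlgebraic L K := (IsFractionRing.comap_isAlgebraic_iff (A := S) (K := L)).mp hSK
  have : CharZero L := charZero_of_injective_algebraMap (algebraMap k L).injective
  have : Algebra.FormallyEtale L K := Algebra.FormallyEtale.of_isSeparable L K
  have : Algebra.FormallyEtale S L := Algebra.FormallyEtale.of_isLocalization (nonZeroDivisors S)
  have : Algebra.FormallyEtale S K := Algebra.FormallyEtale.comp S L K
  let e := KaehlerDifferential.tensorKaehlerEquivOfFormallyEtale k S K
  let b := (KaehlerDifferential.mvPolynomialBasis k (Fin n)).baseChange K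
  have h1 := h ((KaehlerDifferential.D k K).compAlgebraMap R)
  have h2 : ∀ i, ((KaehlerDifferential.D k K).compAlgebraMap R) (y i) = e (b i) := by
    intro i
    have h3 : b i = e.symm (KaehlerDifferential.D k K (algebraMap S K (MvPolynomial.X i))) := by
      rw [KaehlerDifferential.tensorKaehlerEquivOfFormallyEtale_symm_D_algebraMap]
      simp only [b, Module.Basis.baseChange_apply, KaehlerDifferential.mvPolynomialBasis_apply]
      rfl
    rw [h3, LinearEquiv.apply_symm_apply, halg, MvPolynomial.aeval_X]
    rfl
  have h3 : ∑ i, (algebraMap R K (c i)) • b i = 0 := by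
    apply e.injective
    rw [map_zero, map_sum]
    have h4 : algebraMap R K g • ∑ i, e (algebraMap R K (c i) • b i) = 0 := by
      rw [← h1, algebraMap_smul]
      congr 1
      refine Finset.sum_congr rfl fun i _ => ?_
      rw [map_smul, h2, algebraMap_smul]
    rcases smul_eq_zero.mp h4 with h5 | h5
    · exact absurd ((map_eq_zero_iff _ (IsFractionRing.injective R K)).mp h5) hg
    · exact h5
  have h4 := Fintype.linearIndependent_iff.mp b.linearIndependent _ h3
  funext i
  exact (IsFractionRing.injective R K) (by rw [h4 i, Pi.zero_apply, map_zero])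

variable {R : Type u} [CommRing R] [Algebra ℂ R] {𝒜 : ℕ → Submodule ℂ R} [GradedAlgebra 𝒜]
  {P : R →ₗ[ℂ] R →ₗ[ℂ] R}

/-- NN2. -/
theorem det_ne_zero_of_noether (hX : IsContactFano 𝒜 P) {n : ℕ} (y : Fin n → R)
    (hy : AlgebraicIndependent ℂ y)
    (hS : ∃ S : Finset R, Submodule.span (Algebra.adjoin ℂ (Set.range y)) (S : Set R) = ⊤) :
    (brM P y).det ≠ 0 ∧ n = Algebra.trdeg ℂ R := by
  classical
  have := hX.domain
  obtain ⟨T, hT⟩ := hS
  have hfin : Module.Finite (Algebra.adjoin ℂ (Set.range y)) R := ⟨⟨T, hT⟩⟩
  have hint : Algebra.IsIntegral (Algebra.adjoin ℂ (Set.range y)) R :=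
    Algebra.IsIntegral.of_finite _ _
  have halg : Algebra.IsAlgebraic (Algebra.adjoin ℂ (Set.range y)) R := hint.isAlgebraic
  have hb : IsTranscendenceBasis ℂ y := hy.isTranscendenceBasis_iff_isAlgebraic.mpr halg
  refine ⟨?_, ?_⟩
  · intro hdet
    obtain ⟨c, hc, hc0⟩ := Matrix.exists_vecMul_eq_zero_iff.mpr hdet
    have hc1 : ∀ j, ∑ i, c i * P (y i) (y j) = 0 := fun j => congrFun hc0 j
    let δ : Derivation ℂ R R := ∑ i, c i • hX.ham (y i)
    have hδ : ∀ r, δ r = ∑ i, c i * P (y i) r := fun r => by
      have h1 : (⇑δ : R → R) = ∑ i, ⇑(c i • hX.ham (y i)) :=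
        map_sum Derivation.coeFnAddMonoidHom (fun i => c i • hX.ham (y i)) Finset.univ
      rw [h1, Finset.sum_apply]
      rfl
    have hδ0 : δ = 0 := by
      refine noetherdet_derivation_eq_zero (Algebra.adjoin ℂ (Set.range y)) δ ?_
      have h1 : Set.EqOn δ (0 : Derivation ℂ R R) (Algebra.adjoin ℂ (Set.range y)) := by
        refine Derivation.eqOn_adjoin ?_
        rintro _ ⟨j, rfl⟩
        rw [hδ, hc1]; rfl
      exact fun a ha => h1 ha
    obtain ⟨p, hp⟩ := hX.nonempty
    obtain ⟨N, x, g, h, hF, hg⟩ := exists_frame hX hp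
    have hg' : g * (brMat P x).det ≠ 0 := fun h0 => hg (by rw [h0, map_zero])
    have hg0 : g ≠ 0 := left_ne_zero_of_mul hg'
    have hx0 : (brMat P x).det ≠ 0 := right_ne_zero_of_mul hg'
    have hbk : (fun k => ∑ i, c i * h (y i) k) = 0 := by
      refine Matrix.eq_zero_of_mulVec_eq_zero hx0 ?_
      funext j
      have h1 : (brMat P x).mulVec (fun k => ∑ i, c i * h (y i) k) j =
          ∑ i, c i * ∑ k, h (y i) k * P (x j) (x k) := by
        simp only [Matrix.mulVec, dotProduct, brMat_apply, Finset.mul_sum]
        rw [Finset.sum_comm]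
        exact Finset.sum_congr rfl fun i _ => Finset.sum_congr rfl fun k _ => by ring
      have h2 : ∀ i, ∑ k, h (y i) k * P (x j) (x k) = g * P (x j) (y i) := fun i =>
        (hF.mul_P hX (x j) (y i)).symm
      have h3 : ∑ i, c i * P (y i) (x j) = 0 := by
        rw [← hδ, hδ0]; rfl
      rw [h1, Pi.zero_apply]
      have h4 : ∀ i, c i * ∑ k, h (y i) k * P (x j) (x k) = -g * (c i * P (y i) (x j)) := fun i => by
        rw [h2, hX.skew (x j) (y i)]; ring
      rw [Finset.sum_congr rfl fun i _ => h4 i, ← Finset.mul_sum, h3, mul_zero]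
    apply hc
    refine noetherdet_linearIndependent y hb c g hg0 fun δ' => ?_
    have h1 : ∀ i, g • δ' (y i) = ∑ k, h (y i) k • δ' (x k) := fun i => hF.smul_derivation δ' (y i)
    rw [Finset.smul_sum]
    have h2 : ∀ i, g • c i • δ' (y i) = ∑ k, (c i * h (y i) k) • δ' (x k) := fun i => by
      rw [smul_comm, h1, Finset.smul_sum]
      exact Finset.sum_congr rfl fun k _ => by rw [smul_smul]
    rw [Finset.sum_congr rfl fun i _ => h2 i, Finset.sum_comm]
    refine Finset.sum_eq_zero fun k _ => ?_
    rw [← Finset.sum_smul, congrFun hbk k, Pi.zero_apply, zero_smul]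
  · have h1 := hb.lift_cardinalMk_eq_trdeg
    simpa using h1

end Vale.Agent.P292.Mo
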