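import Vale.Agent.P292.Mo.Sp.Lift

/-!
# P292-Sp NN3: the multiplication table of a finite graded extension spreads out
-/

namespace Vale.Agent.P292.Mo

open MvPolynomial

universe u v w

theorem noetherspread_and (Q₁ Q₂ : Subalgebra ℤ ℂ → Prop)
    (h₁ : ∃ A₀ : Subalgebra ℤ ℂ, A₀.FG ∧ ∀ A : Subalgebra ℤ ℂ, A₀ ≤ A → Q₁ A)
    (h₂ : ∃ A₀ : Subalgebra ℤ ℂ, A₀.FG ∧ ∀ A : Subalgebra ℤ ℂ, A₀ ≤ A → Q₂ A) :
    ∃ A₀ : Subalgebra ℤ ℂ, A₀.FG ∧ ∀ A : Subalgebra ℤ ℂ, A₀ ≤ A → Q₁ A ∧ Q₂ A := by
  obtain ⟨A₁, f₁, g₁⟩ := h₁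
  obtain ⟨A₂, f₂, g₂⟩ := h₂
  exact ⟨A₁ ⊔ A₂, f₁.sup f₂, fun A hA =>
    ⟨g₁ A (le_sup_left.trans hA), g₂ A (le_sup_right.trans hA)⟩⟩

/-- Generation from a multiplication table. -/
theorem noetherspread_table {k : Type v} [Field k] {M L n s : ℕ} (E : Dat k M L)
    (y : Fin n → MvPolynomial (Fin M) k) (m : Fin s → MvPolynomial (Fin M) k)
    (a0 : Fin s → MvPolynomial (Fin n) k) (a : Fin M → Fin s → Fin s → MvPolynomial (Fin n) k)
    (h0 : 1 - ∑ l, aeval y (a0 l) * m l ∈ E.I)
    (h1 : ∀ i j, X i * m j - ∑ l, aeval y (a i j l) * m l ∈ E.I) :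
    Submodule.span (Algebra.adjoin k (Set.range fun i => E.q (y i)))
      (Set.range fun l => E.q (m l)) = ⊤ := by
  classical
  set T := Algebra.adjoin k (Set.range fun i => E.q (y i)) with hT
  set N := Submodule.span T (Set.range fun l => E.q (m l)) with hN
  have hy : ∀ p : MvPolynomial (Fin n) k, E.q (aeval y p) ∈ T := by
    intro p
    have h2 : E.q (aeval y p) = aeval (fun i => E.q (y i)) p := by
      have : E.q.comp (aeval y) = aeval (fun i => E.q (y i)) := by
        apply MvPolynomial.algHom_ext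
        intro i
        simp
      exact DFunLike.congr_fun this p
    rw [h2, hT, Algebra.adjoin_range_eq_range_aeval]
    exact ⟨p, rfl⟩
  have hm : ∀ l, E.q (m l) ∈ N := fun l => Submodule.subset_span ⟨l, rfl⟩
  have hsmul : ∀ (p : MvPolynomial (Fin n) k) (x : E.Rg), x ∈ N → E.q (aeval y p) * x ∈ N := by
    intro p x hx
    exact N.smul_mem (⟨E.q (aeval y p), hy p⟩ : T) hx
  have hmk : ∀ p ∈ E.I, E.q p = 0 := fun p hp => Ideal.Quotient.eq_zero_iff_mem.mpr hp
  have hone : (1 : E.Rg) ∈ N := by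
    have h2 := hmk _ h0
    rw [map_sub, map_one, sub_eq_zero, map_sum] at h2
    rw [h2]
    exact N.sum_mem fun l _ => by rw [map_mul]; exact hsmul _ _ (hm l)
  have hX : ∀ (i : Fin M) (x : E.Rg), x ∈ N → E.q (X i) * x ∈ N := by
    intro i x hx
    induction hx using Submodule.span_induction with
    | mem x hx =>
      obtain ⟨l, rfl⟩ := hx
      have h2 := hmk _ (h1 i l)
      rw [map_sub, sub_eq_zero, map_sum, map_mul] at h2
      show E.q (X i) * E.q (m l) ∈ N
      rw [h2]
      exact N.sum_mem fun l' _ => by rw [map_mul]; exact hsmul _ _ (hm l')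
    | zero => rw [mul_zero]; exact N.zero_mem
    | add x y _ _ hx hy => rw [mul_add]; exact N.add_mem hx hy
    | smul c x _ hx => rw [mul_smul_comm]; exact N.smul_mem c hx
  rw [eq_top_iff]
  rintro x -
  obtain ⟨p, rfl⟩ := Ideal.Quotient.mkₐ_surjective k E.I x
  have key : ∀ p : MvPolynomial (Fin M) k, E.q p ∈ N := by
    intro p
    induction p using MvPolynomial.induction_on with
    | C c =>
      have h2 := hsmul (C c) 1 hone
      rw [mul_one, aeval_C] at h2
      exact h2
    | add p q hp hq => rw [map_add]; exact N.add_mem hp hq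
    | mul_X p i hp => rw [map_mul, mul_comm]; exact hX i _ hp
  exact key p

theorem noetherspread_map_aeval {A : Type u} [CommRing A] {B : Type v} [CommRing B] {M n : ℕ}
    (y' : Fin n → MvPolynomial (Fin M) A) (θ : A →+* B) (p : MvPolynomial (Fin n) A) :
    MvPolynomial.map θ (aeval y' p) =
      aeval (fun i => MvPolynomial.map θ (y' i)) (MvPolynomial.map θ p) := by
  induction p using MvPolynomial.induction_on with
  | C c => simp
  | add p q hp hq => rw [map_add, map_add, hp, hq, map_add, map_add]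
  | mul_X p i hp => rw [map_mul, map_mul, hp, map_mul, map_mul, map_X, aeval_X, aeval_X]

variable {R : Type u} [CommRing R] [Algebra ℂ R] {𝒜 : ℕ → Submodule ℂ R} [GradedAlgebra 𝒜]
  {P : R →ₗ[ℂ] R →ₗ[ℂ] R}

omit [GradedAlgebra 𝒜] in
/-- NN3: the multiplication table spreads out. -/
theorem noether_spread {M L : ℕ} {D : Dat ℂ M L} {ev : MvPolynomial (Fin M) ℂ →ₐ[ℂ] R}
    (hD : IsPres 𝒜 P D ev) {n : ℕ} (y : Fin n → MvPolynomial (Fin M) ℂ)
    (hS : ∃ S : Finset R, Submodule.span
      (Algebra.adjoin ℂ (Set.range fun i => ev (y i))) (S : Set R) = ⊤) :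
    ∃ s : ℕ, ∃ A₀ : Subalgebra ℤ ℂ, A₀.FG ∧ ∀ A : Subalgebra ℤ ℂ, A₀ ≤ A →
      ∀ (D' : Dat A M L) (y' : Fin n → MvPolynomial (Fin M) A),
        D'.map (algebraMap A ℂ) = D → (∀ i, MvPolynomial.map (algebraMap A ℂ) (y' i) = y i) →
        ∀ (k : Type v) [Field k] (j : A →+* k), ∃ S : Finset (D'.map j).Rg, S.card ≤ s ∧
          Submodule.span (Algebra.adjoin k
            (Set.range fun i => (D'.map j).q (MvPolynomial.map j (y' i))))
            (S : Set (D'.map j).Rg) = ⊤ := by
  classical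
  obtain ⟨S, hS⟩ := hS
  -- lifts of the generators
  have hlift : ∀ r : R, ∃ p, ev p = r := hD.surj
  choose lift hlift using hlift
  let s := S.card
  let r : Fin s → R := fun l => (S.equivFin.symm l : R)
  have hr : (S : Set R) = Set.range r := by
    ext x
    constructor
    · intro hx
      exact ⟨S.equivFin ⟨x, hx⟩, by simp [r]⟩
    · rintro ⟨l, rfl⟩
      exact (S.equivFin.symm l).2
  let m : Fin s → MvPolynomial (Fin M) ℂ := fun l => lift (r l)
  have hm : ∀ l, ev (m l) = r l := fun l => hlift _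
  have hspan : ∀ x : R, ∃ c : Fin s → MvPolynomial (Fin n) ℂ,
      x = ∑ l, ev (aeval y (c l)) * r l := by
    intro x
    have hx : x ∈ Submodule.span (Algebra.adjoin ℂ (Set.range fun i => ev (y i)))
        (Set.range r) := by rw [← hr, hS]; trivial
    rw [Submodule.mem_span_range_iff_exists_fun] at hx
    obtain ⟨c, hc⟩ := hx
    have hc' : ∀ l, ∃ p : MvPolynomial (Fin n) ℂ, ev (aeval y p) = c l := by
      intro l
      obtain ⟨p, hp⟩ := (Algebra.adjoin_range_eq_range_aeval ℂ (fun i => ev (y i))).le (c l).2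
      refine ⟨p, ?_⟩
      rw [← hp]
      have : ev.comp (aeval y) = aeval (fun i => ev (y i)) := by
        apply MvPolynomial.algHom_ext
        intro i
        simp
      exact DFunLike.congr_fun this p
    choose p hp using hc'
    refine ⟨p, ?_⟩
    rw [← hc]
    refine Finset.sum_congr rfl fun l _ => ?_
    rw [hp l]
    rfl
  obtain ⟨a0, ha0⟩ := hspan 1
  have hax : ∀ (i : Fin M) (l : Fin s), ∃ c : Fin s → MvPolynomial (Fin n) ℂ,
      ev (X i) * r l = ∑ l', ev (aeval y (c l')) * r l' := fun i l => hspan _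
  choose a ha using hax
  have hI0 : 1 - ∑ l, aeval y (a0 l) * m l ∈ D.I := by
    rw [← hD.ker, map_sub, map_one, map_sum, sub_eq_zero, ha0]
    exact Finset.sum_congr rfl fun l _ => by rw [map_mul, hm]
  have hI1 : ∀ i j, X i * m j - ∑ l, aeval y (a i j l) * m l ∈ D.I := by
    intro i j
    rw [← hD.ker, map_sub, map_mul, map_sum, sub_eq_zero, hm, ha]
    exact Finset.sum_congr rfl fun l _ => by rw [map_mul, hm]
  -- the subring
  have e1 := exists_lift_poly m
  have e2 := exists_lift_poly a0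
  have e3 := exists_lift_poly (fun q : Fin M × Fin s × Fin s => a q.1 q.2.1 q.2.2)
  have e4 := mem_spread.{0, v, 0} D.F _ hI0
  have e5 := exists_fg_of_forall _ (fun q : Fin M × Fin s => mem_spread.{0, v, 0} D.F _ (hI1 q.1 q.2))
  obtain ⟨A₀, hfg, hA⟩ := noetherspread_and _ _ e1 (noetherspread_and _ _ e2
    (noetherspread_and _ _ e3 (noetherspread_and _ _ e4 e5)))
  refine ⟨s, A₀, hfg, fun A hle D' y' hD' hy' k _ j => ?_⟩
  obtain ⟨h1, h2, h3, h4, h5⟩ := hA A hle
  choose m' hm' using h1
  choose a0' ha0' using h2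
  choose a' ha' using h3
  have hF : ∀ i, MvPolynomial.map (algebraMap A ℂ) (D'.F i) = D.F i := by
    intro i
    rw [← hD']
    rfl
  have hyy : (fun i => MvPolynomial.map (algebraMap A ℂ) (y' i)) = y := funext hy'
  have g0 := (h4 D'.F (1 - ∑ l, aeval y' (a0' l) * m' l) hF (by
    rw [map_sub, map_one, map_sum]
    congr 1
    refine Finset.sum_congr rfl fun l _ => ?_
    rw [map_mul, noetherspread_map_aeval, ha0', hm', hyy])).2 k j
  have g1 : ∀ i l, MvPolynomial.map j (X i * m' l - ∑ l', aeval y' (a' (i, l, l')) * m' l') ∈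
      Ideal.span (Set.range fun l => MvPolynomial.map j (D'.F l)) := by
    intro i l
    refine (h5 (i, l) D'.F (X i * m' l - ∑ l', aeval y' (a' (i, l, l')) * m' l') hF ?_).2 k j
    rw [map_sub, map_mul, map_X, map_sum, hm']
    congr 1
    refine Finset.sum_congr rfl fun l' _ => ?_
    rw [map_mul, noetherspread_map_aeval, ha', hm', hyy]
  have key := noetherspread_table (D'.map j) (fun i => MvPolynomial.map j (y' i))
    (fun l => MvPolynomial.map j (m' l)) (fun l => MvPolynomial.map j (a0' l))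
    (fun i l l' => MvPolynomial.map j (a' (i, l, l')))
    (by
      rw [map_sub, map_one, map_sum] at g0
      refine (congrArg (· ∈ (D'.map j).I) ?_).mp g0
      congr 1
      refine Finset.sum_congr rfl fun l _ => ?_
      rw [map_mul, noetherspread_map_aeval])
    (by
      intro i l
      have g := g1 i l
      rw [map_sub, map_mul, map_X, map_sum] at g
      refine (congrArg (· ∈ (D'.map j).I) ?_).mp g
      congr 1
      refine Finset.sum_congr rfl fun l' _ => ?_
      rw [map_mul, noetherspread_map_aeval])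
  refine ⟨Finset.univ.image fun l => (D'.map j).q (MvPolynomial.map j (m' l)), ?_, ?_⟩
  · exact Finset.card_image_le.trans (by simp)
  · rw [Finset.coe_image, Finset.coe_univ, Set.image_univ]
    exact key

end Vale.Agent.P292.Mo
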