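import Vale.Agent.P292.Mo.Sp.Dat

/-! # Spreading out: polynomials and memberships in ideals. -/

namespace Vale.Agent.P292.Mo

open MvPolynomial

universe u v w

/-- A polynomial over `ℂ` whose coefficients lie in a subalgebra comes from the subalgebra. -/
theorem lift_poly_iff {σ : Type w} (A : Subalgebra ℤ ℂ) (p : MvPolynomial σ ℂ) :
    (∃ q : MvPolynomial σ A, MvPolynomial.map (algebraMap A ℂ) q = p) ↔
      ∀ m, coeff m p ∈ A := by
  constructor
  · rintro ⟨q, rfl⟩ m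
    rw [coeff_map]
    exact (coeff m q).2
  · intro h
    have h1 : p ∈ Set.range (MvPolynomial.map (σ := σ) (algebraMap A ℂ)) := by
      rw [MvPolynomial.mem_range_map_iff_coeffs_subset]
      intro c hc
      rw [Finset.mem_coe, MvPolynomial.mem_coeffs_iff] at hc
      obtain ⟨m, -, rfl⟩ := hc
      exact ⟨⟨coeff m p, h m⟩, rfl⟩
    exact h1

theorem map_algebraMap_injective {σ : Type w} (A : Subalgebra ℤ ℂ) :
    Function.Injective (MvPolynomial.map (σ := σ) (algebraMap A ℂ)) :=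
  MvPolynomial.map_injective _ Subtype.val_injective

/-- Finitely many finitely generated subalgebras are contained in a finitely generated one. -/
theorem exists_fg_of_forall {ι : Type w} [Finite ι] (Φ : ι → Subalgebra ℤ ℂ → Prop)
    (h : ∀ i, ∃ A₀ : Subalgebra ℤ ℂ, A₀.FG ∧ ∀ A : Subalgebra ℤ ℂ, A₀ ≤ A → Φ i A) :
    ∃ A₀ : Subalgebra ℤ ℂ, A₀.FG ∧ ∀ A : Subalgebra ℤ ℂ, A₀ ≤ A → ∀ i, Φ i A := by
  classical
  have := Fintype.ofFinite ι
  choose B hB hB' using h
  refine ⟨Finset.univ.sup B, ?_, fun A hA i => hB' i A (le_trans (Finset.le_sup (Finset.mem_univ i)) hA)⟩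
  refine Finset.sup_induction (p := fun A : Subalgebra ℤ ℂ => A.FG) ?_ ?_ fun i _ => hB i
  · exact Subalgebra.fg_bot
  · intro a ha b hb
    exact Subalgebra.FG.sup ha hb

/-- Every finite set of complex numbers lies in a finitely generated subalgebra. -/
theorem exists_fg_of_finite (S : Set ℂ) (hS : S.Finite) :
    ∃ A₀ : Subalgebra ℤ ℂ, A₀.FG ∧ ∀ A : Subalgebra ℤ ℂ, A₀ ≤ A → S ⊆ A :=
  ⟨Algebra.adjoin ℤ S, Subalgebra.fg_def.mpr ⟨S, hS, rfl⟩, fun _ hA =>
    subset_trans Algebra.subset_adjoin hA⟩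

/-- T0. -/
theorem exists_lift_poly {σ : Type v} {ι : Type w} [Finite ι] (p : ι → MvPolynomial σ ℂ) :
    ∃ A₀ : Subalgebra ℤ ℂ, A₀.FG ∧ ∀ A : Subalgebra ℤ ℂ, A₀ ≤ A →
      ∀ i, ∃ q : MvPolynomial σ A, MvPolynomial.map (algebraMap A ℂ) q = p i := by
  classical
  refine exists_fg_of_forall _ fun i => ?_
  obtain ⟨A₀, h1, h2⟩ := exists_fg_of_finite ((p i).coeffs : Set ℂ) (Finset.finite_toSet _)
  refine ⟨A₀, h1, fun A hA => (lift_poly_iff A _).mpr fun m => ?_⟩
  by_cases hm : coeff m (p i) = 0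
  · rw [hm]; exact zero_mem A
  · exact h2 A hA (by
      rw [Finset.mem_coe, MvPolynomial.mem_coeffs_iff]
      exact ⟨m, by rwa [mem_support_iff], rfl⟩)

/-- T1: memberships in ideals spread out. -/
theorem mem_spread {σ : Type w} {ι : Type u} [Finite ι] (G : ι → MvPolynomial σ ℂ)
    (p : MvPolynomial σ ℂ) (h : p ∈ Ideal.span (Set.range G)) :
    ∃ A₀ : Subalgebra ℤ ℂ, A₀.FG ∧ ∀ A : Subalgebra ℤ ℂ, A₀ ≤ A →
      ∀ (G' : ι → MvPolynomial σ A) (p' : MvPolynomial σ A),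
        (∀ i, MvPolynomial.map (algebraMap A ℂ) (G' i) = G i) →
        MvPolynomial.map (algebraMap A ℂ) p' = p →
        p' ∈ Ideal.span (Set.range G') ∧
        ∀ (k : Type v) [CommRing k] (j : A →+* k),
          MvPolynomial.map j p' ∈ Ideal.span (Set.range fun i => MvPolynomial.map j (G' i)) := by
  classical
  have := Fintype.ofFinite ι
  obtain ⟨c, hc⟩ := (Ideal.mem_span_range_iff_exists_fun).mp h
  obtain ⟨A₀, h1, h2⟩ := exists_lift_poly c
  refine ⟨A₀, h1, fun A hA G' p' hG hp => ?_⟩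
  choose c' hc' using h2 A hA
  have h3 : p' = ∑ i, c' i * G' i := by
    apply map_algebraMap_injective A
    rw [map_sum, hp, ← hc]
    exact Finset.sum_congr rfl fun i _ => by rw [map_mul, hc', hG]
  refine ⟨?_, fun k _ j => ?_⟩
  · rw [h3]
    exact sum_mem fun i _ => Ideal.mul_mem_left _ _ (Ideal.subset_span ⟨i, rfl⟩)
  · rw [h3, map_sum]
    refine sum_mem fun i _ => ?_
    rw [map_mul]
    exact Ideal.mul_mem_left _ _ (Ideal.subset_span ⟨i, rfl⟩)

end Vale.Agent.P292.Mo
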