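import Vale.Agent.P292.Mo.Sp.Dat
import Vale.Agent.P292.Mo.Sp.Lift

/-! # Spreading out: validity of the data. -/

namespace Vale.Agent.P292.Mo

open MvPolynomial

universe u v w

/-- Weighted homogeneity descends along injective changes of the base ring. -/
theorem okspread_whom_of_map {σ : Type w} {A : Type u} {B : Type v} [CommRing A] [CommRing B]
    (f : A →+* B) (hf : Function.Injective f) (d : σ → ℕ) (p : MvPolynomial σ A) (n : ℕ)
    (h : IsWeightedHomogeneous d (MvPolynomial.map f p) n) : IsWeightedHomogeneous d p n := by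
  intro m hm
  refine h ?_
  rw [coeff_map]
  intro h0
  exact hm (hf (by rw [h0, map_zero]))

/-- Weighted homogeneity is stable under changes of the base ring. -/
theorem okspread_whom_map {σ : Type w} {A : Type u} {B : Type v} [CommRing A] [CommRing B]
    (f : A →+* B) (d : σ → ℕ) (p : MvPolynomial σ A) (n : ℕ)
    (h : IsWeightedHomogeneous d p n) : IsWeightedHomogeneous d (MvPolynomial.map f p) n := by
  intro m hm
  refine h ?_
  rw [coeff_map] at hm
  intro h0
  exact hm (by rw [h0, map_zero])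

/-- Validity of the data spreads out. -/
theorem Dat.isOK_spread {M L : ℕ} (D : Dat ℂ M L) (h : D.IsOK) :
    ∃ A₀ : Subalgebra ℤ ℂ, A₀.FG ∧ ∀ A : Subalgebra ℤ ℂ, A₀ ≤ A →
      (∃ D' : Dat A M L, D'.map (algebraMap A ℂ) = D) ∧
      ∀ D' : Dat A M L, D'.map (algebraMap A ℂ) = D →
        ∀ (k : Type v) [Field k] (j : A →+* k), (D'.map j).IsOK := by
  classical
  obtain ⟨B₁, hB₁, hB₁'⟩ := exists_lift_poly D.F
  obtain ⟨B₂, hB₂, hB₂'⟩ := exists_lift_poly (fun p : Fin M × Fin M => D.π p.1 p.2)
  obtain ⟨B₃, hB₃, hB₃'⟩ := exists_fg_of_forall _ (fun p : Fin L × Fin M =>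
    mem_spread.{0, v} D.F (∑ i, pderiv i (D.F p.1) * D.π i p.2) (h.desc p.1 p.2))
  refine ⟨B₁ ⊔ B₂ ⊔ B₃, (hB₁.sup hB₂).sup hB₃, fun A hA => ?_⟩
  have hA₁ : B₁ ≤ A := le_trans (le_trans le_sup_left le_sup_left) hA
  have hA₂ : B₂ ≤ A := le_trans (le_trans le_sup_right le_sup_left) hA
  have hA₃ : B₃ ≤ A := le_trans le_sup_right hA
  constructor
  · choose F' hF' using hB₁' A hA₁
    choose π' hπ' using hB₂' A hA₂
    refine ⟨⟨D.d, D.e, F', fun i j => π' (i, j)⟩, ?_⟩
    have h1 : (fun l => MvPolynomial.map (algebraMap A ℂ) (F' l)) = D.F := funext hF'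
    have h2 : (fun i j => MvPolynomial.map (algebraMap A ℂ) (π' (i, j))) = D.π := by
      funext i j
      exact hπ' (i, j)
    unfold Dat.map
    simp only [h1, h2]
  · rintro D' rfl k _ j
    have hinj := map_algebraMap_injective (σ := Fin M) A
    refine ⟨h.pos, fun l => ?_, fun i i' n hn => ?_, fun i => ?_, fun i i' => ?_, fun l i' => ?_⟩
    · exact okspread_whom_map _ _ _ _
        (okspread_whom_of_map (algebraMap A ℂ) Subtype.val_injective _ _ _ (h.homF l))
    · exact okspread_whom_map _ _ _ _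
        (okspread_whom_of_map (algebraMap A ℂ) Subtype.val_injective _ _ _ (h.homπ i i' n hn))
    · have h1 : D'.π i i = 0 := hinj (by rw [map_zero]; exact h.alt i)
      change MvPolynomial.map j (D'.π i i) = 0
      rw [h1, map_zero]
    · have h1 : D'.π i i' = - D'.π i' i := hinj (by rw [map_neg]; exact h.skew i i')
      change MvPolynomial.map j (D'.π i i') = - MvPolynomial.map j (D'.π i' i)
      rw [h1, map_neg]
    · have h1 := (hB₃' A hA₃ (l, i') D'.F (∑ i, pderiv i (D'.F l) * D'.π i i') (fun _ => rfl) (by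
        rw [map_sum]
        refine Finset.sum_congr rfl fun i _ => ?_
        rw [map_mul, ← pderiv_map]
        rfl)).2 k j
      rw [map_sum] at h1
      change ∑ i, pderiv i (MvPolynomial.map j (D'.F l)) * MvPolynomial.map j (D'.π i i') ∈
        Ideal.span (Set.range fun l => MvPolynomial.map j (D'.F l))
      convert h1 using 2 with i
      rw [map_mul, pderiv_map]

end Vale.Agent.P292.Mo
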