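import Vale.Agent.P292.Defs
import Vale.Agent.P292.Mo.Sp.Dat

/-! # Spreading out: presentations of contact Fano algebras exist. -/

namespace Vale.Agent.P292.Mo

open MvPolynomial

universe u

section gr

variable {R : Type u} [CommRing R] [Algebra ℂ R] (𝒜 : ℕ → Submodule ℂ R) [GradedAlgebra 𝒜]

/-- homogeneous generators of positive degree, indexed by `Fin M` -/
lemma pres_gens [hft : Algebra.FiniteType ℂ R]
    (h0 : ∀ r ∈ 𝒜 0, ∃ c : ℂ, r = algebraMap ℂ R c) :
    ∃ (M : ℕ) (x : Fin M → R) (d : Fin M → ℕ), Algebra.adjoin ℂ (Set.range x) = ⊤ ∧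
      (∀ i, 0 < d i) ∧ ∀ i, x i ∈ 𝒜 (d i) := by
  classical
  obtain ⟨F, hF⟩ := hft.out
  let ι₀ := Σ (x : F), (DirectSum.decompose 𝒜 x.1).support
  let x (i : ι₀) : R := ((DirectSum.decompose 𝒜) i.1 i.2).1
  obtain ⟨s, hs, hn⟩ : ∃ s : Finset R, Algebra.adjoin ℂ (s : Set R) = ⊤ ∧
      ∀ i ∈ s, ∃ n, 0 < n ∧ i ∈ 𝒜 n := by
    refine ⟨(Finset.univ.filter fun i : ι₀ => i.2.1 ≠ 0).image x, ?_, ?_⟩
    · rw [← top_le_iff, ← hF, Algebra.adjoin_le_iff]
      intro s hs
      rw [← DirectSum.sum_support_decompose 𝒜 s]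
      refine sum_mem fun n hn => ?_
      by_cases h : n = 0
      · subst h
        obtain ⟨c, hc⟩ := h0 _ (DirectSum.decompose 𝒜 s 0).2
        rw [hc]
        exact Subalgebra.algebraMap_mem _ c
      · refine Algebra.subset_adjoin ?_
        rw [Finset.coe_image]
        exact ⟨⟨⟨s, hs⟩, n, hn⟩, by simpa using h, rfl⟩
    · intro i hi
      rw [Finset.mem_image] at hi
      obtain ⟨j, hj, rfl⟩ := hi
      rw [Finset.mem_filter] at hj
      exact ⟨j.2.1, Nat.pos_of_ne_zero hj.2, (DirectSum.decompose 𝒜 j.1.1 j.2.1).2⟩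
  choose! dd hdd using hn
  refine ⟨s.card, fun i => (s.equivFin.symm i : R), fun i => dd (s.equivFin.symm i : R), ?_,
    fun i => (hdd _ (s.equivFin.symm i).2).1, fun i => (hdd _ (s.equivFin.symm i).2).2⟩
  rw [← hs]
  congr 1
  ext r
  constructor
  · rintro ⟨i, rfl⟩
    exact (s.equivFin.symm i).2
  · intro hr
    exact ⟨s.equivFin ⟨r, hr⟩, by simp⟩

variable {M : ℕ} {x : Fin M → R} {d : Fin M → ℕ}

lemma pres_mono_mem (hx : ∀ i, x i ∈ 𝒜 (d i)) (m : Fin M →₀ ℕ) (c : ℂ) :
    aeval x (monomial m c) ∈ 𝒜 (Finsupp.weight d m) := by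
  rw [aeval_monomial, ← Algebra.smul_def]
  refine Submodule.smul_mem _ _ ?_
  rw [Finsupp.weight_apply]
  exact SetLike.prod_pow_mem_graded 𝒜 d x m fun k _ => hx k

/-- evaluation is graded -/
lemma pres_proj (hx : ∀ i, x i ∈ 𝒜 (d i)) (n : ℕ) (p : MvPolynomial (Fin M) ℂ) :
    aeval x (weightedHomogeneousComponent d n p) = GradedAlgebra.proj 𝒜 n (aeval x p) := by
  classical
  induction p using MvPolynomial.induction_on' with
  | monomial m c =>
    rw [GradedAlgebra.proj_apply]
    by_cases h : Finsupp.weight d m = n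
    · have h1 : weightedHomogeneousComponent d n (monomial m c) = monomial m c :=
        weightedHomogeneousComponent_eq_self (isWeightedHomogeneous_monomial d m c h)
      rw [h1, DirectSum.decompose_of_mem_same 𝒜 (h ▸ pres_mono_mem 𝒜 hx m c)]
    · have h1 : weightedHomogeneousComponent d n (monomial m c) = 0 := by
        refine weightedHomogeneousComponent_eq_zero' _ _ fun m' hm' => ?_
        have h2 : m' = m := by
          have := support_monomial_subset hm'
          simpa using this
        rw [h2]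
        exact h
      rw [h1, map_zero, DirectSum.decompose_of_mem_ne 𝒜 (pres_mono_mem 𝒜 hx m c) h]
  | add p q hp hq =>
    rw [map_add, map_add, map_add, map_add, hp, hq]

lemma pres_sum (d : Fin M → ℕ) (p : MvPolynomial (Fin M) ℂ) :
    ∑ n ∈ p.support.image (Finsupp.weight d), weightedHomogeneousComponent d n p = p := by
  classical
  conv_rhs => rw [← sum_weightedHomogeneousComponent d p]
  rw [finsum_eq_sum_of_support_subset]
  intro n hn
  by_contra h
  refine hn (weightedHomogeneousComponent_eq_zero' _ _ fun m hm hm' => h ?_)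
  rw [Finset.coe_image]
  exact ⟨m, hm, hm'⟩

/-- homogeneous elements have weighted homogeneous preimages -/
lemma pres_lift (hx : ∀ i, x i ∈ 𝒜 (d i)) (htop : Function.Surjective (aeval (R := ℂ) x)) (n : ℕ)
    (r : R) (hr : r ∈ 𝒜 n) :
    ∃ p : MvPolynomial (Fin M) ℂ, IsWeightedHomogeneous d p n ∧ aeval x p = r := by
  obtain ⟨p, hp⟩ := htop r
  refine ⟨weightedHomogeneousComponent d n p, weightedHomogeneousComponent_isWeightedHomogeneous _ _, ?_⟩
  rw [pres_proj 𝒜 hx, hp, GradedAlgebra.proj_apply, DirectSum.decompose_of_mem_same 𝒜 hr]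

/-- the kernel of the evaluation is generated by finitely many weighted homogeneous polynomials -/
lemma pres_ker (hx : ∀ i, x i ∈ 𝒜 (d i)) :
    ∃ (L : ℕ) (F : Fin L → MvPolynomial (Fin M) ℂ) (e : Fin L → ℕ),
      (∀ l, IsWeightedHomogeneous d (F l) (e l)) ∧
      ∀ p, aeval x p = 0 ↔ p ∈ Ideal.span (Set.range F) := by
  classical
  have hfg : (RingHom.ker (aeval (R := ℂ) x)).FG := (isNoetherianRing_iff_ideal_fg _).mp inferInstance _
  obtain ⟨T, hT⟩ := hfg
  let G : Finset (ℕ × MvPolynomial (Fin M) ℂ) := T.biUnion fun p =>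
    (p.support.image (Finsupp.weight d)).image fun n => (n, weightedHomogeneousComponent d n p)
  have hG : ∀ g ∈ G, IsWeightedHomogeneous d g.2 g.1 ∧ aeval x g.2 = 0 := by
    intro g hg
    rw [Finset.mem_biUnion] at hg
    obtain ⟨p, hp, hg⟩ := hg
    rw [Finset.mem_image] at hg
    obtain ⟨n, -, rfl⟩ := hg
    refine ⟨weightedHomogeneousComponent_isWeightedHomogeneous _ _, ?_⟩
    have h1 : aeval x p = 0 := by
      have : p ∈ RingHom.ker (aeval (R := ℂ) x) := hT ▸ Ideal.subset_span hp
      exact this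
    show aeval x (weightedHomogeneousComponent d n p) = 0
    rw [pres_proj 𝒜 hx, h1, map_zero]
  refine ⟨G.card, fun l => (G.equivFin.symm l).1.2, fun l => (G.equivFin.symm l).1.1,
    fun l => (hG _ (G.equivFin.symm l).2).1, fun p => ⟨fun hp => ?_, fun hp => ?_⟩⟩
  · have h1 : p ∈ Ideal.span (T : Set (MvPolynomial (Fin M) ℂ)) := by
      rw [hT]
      exact hp
    refine (Ideal.span_le.mpr fun q hq => ?_) h1
    rw [SetLike.mem_coe, ← pres_sum d q]
    refine Ideal.sum_mem _ fun n hn => Ideal.subset_span ?_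
    have h2 : (n, weightedHomogeneousComponent d n q) ∈ G := by
      rw [Finset.mem_biUnion]
      exact ⟨q, hq, Finset.mem_image.mpr ⟨n, hn, rfl⟩⟩
    exact ⟨G.equivFin ⟨_, h2⟩, by simp⟩
  · have h1 : Ideal.span (Set.range fun l => (G.equivFin.symm l).1.2) ≤
        RingHom.ker (aeval (R := ℂ) x) := by
      rw [Ideal.span_le]
      rintro _ ⟨l, rfl⟩
      exact (hG _ (G.equivFin.symm l).2).2
    exact h1 hp

end gr

section br

variable {R : Type u} [CommRing R] [Algebra ℂ R] (P : R →ₗ[ℂ] R →ₗ[ℂ] R)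

lemma pres_skew (h : ∀ a, P a a = 0) (a b : R) : P a b = - P b a := by
  have h1 := h (a + b)
  rw [map_add, map_add, LinearMap.add_apply, LinearMap.add_apply, h, h, zero_add, add_zero] at h1
  exact eq_neg_of_add_eq_zero_right h1

lemma pres_leib (h : ∀ a, P a a = 0) (hl : ∀ a b c, P a (b * c) = P a b * c + b * P a c) (a b c : R) :
    P (a * b) c = P a c * b + a * P b c := by
  rw [pres_skew P h (a * b) c, hl, pres_skew P h a c, pres_skew P h b c]
  ring

/-- chain rule -/
lemma pres_chain (h : ∀ a, P a a = 0) (hl : ∀ a b c, P a (b * c) = P a b * c + b * P a c) {M : ℕ}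
    (x : Fin M → R) (b : R) (p : MvPolynomial (Fin M) ℂ) :
    P (aeval x p) b = ∑ i, aeval x (pderiv i p) * P (x i) b := by
  classical
  induction p using MvPolynomial.induction_on with
  | C c =>
    have h1 : P 1 b = 0 := by
      have h2 := pres_leib P h hl 1 1 b
      rw [one_mul, mul_one, one_mul] at h2
      exact left_eq_add.mp h2
    have h3 : aeval x (C c : MvPolynomial (Fin M) ℂ) = c • (1 : R) := by
      rw [aeval_C, Algebra.algebraMap_eq_smul_one]
    rw [h3, map_smul, LinearMap.smul_apply, h1, smul_zero]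
    symm
    refine Finset.sum_eq_zero fun i _ => ?_
    rw [pderiv_C, map_zero, zero_mul]
  | add p q hp hq =>
    rw [map_add, map_add, LinearMap.add_apply, hp, hq, ← Finset.sum_add_distrib]
    refine Finset.sum_congr rfl fun i _ => ?_
    rw [map_add, map_add, add_mul]
  | mul_X p j hp =>
    rw [map_mul, aeval_X, pres_leib P h hl, hp]
    have h1 : ∀ i, aeval x (pderiv i (p * X j)) * P (x i) b =
        aeval x (pderiv i p) * P (x i) b * x j + if i = j then aeval x p * P (x i) b else 0 := by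
      intro i
      rw [Derivation.leibniz, pderiv_X, map_add, smul_eq_mul, smul_eq_mul, map_mul, map_mul, aeval_X]
      by_cases hij : i = j
      · subst hij
        rw [Pi.single_eq_same, if_pos rfl, map_one]
        ring
      · rw [if_neg hij, Pi.single_eq_of_ne' hij, map_zero]
        ring
    rw [Finset.sum_congr rfl fun i _ => h1 i, Finset.sum_add_distrib, ← Finset.sum_mul,
      Finset.sum_ite_eq' Finset.univ j, if_pos (Finset.mem_univ j)]

end br

variable {R : Type u} [CommRing R] [Algebra ℂ R] {𝒜 : ℕ → Submodule ℂ R} [GradedAlgebra 𝒜]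
  {P : R →ₗ[ℂ] R →ₗ[ℂ] R}

/-- P: presentations exist. -/
theorem exists_isPres (hX : IsContactFano 𝒜 P) :
    ∃ (M L : ℕ) (D : Dat ℂ M L) (ev : MvPolynomial (Fin M) ℂ →ₐ[ℂ] R), IsPres 𝒜 P D ev := by
  classical
  have := hX.finiteType
  obtain ⟨M, x, d, htop, hpos, hx⟩ := pres_gens 𝒜 hX.connected
  have hsurj : Function.Surjective (aeval (R := ℂ) x) := by
    rw [← AlgHom.range_eq_top, ← Algebra.adjoin_range_eq_range_aeval, htop]
  obtain ⟨L, F, e, hF, hker⟩ := pres_ker 𝒜 (x := x) (d := d) hx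
  have hlift := pres_lift 𝒜 hx hsurj
  have hP : ∀ i j, ∃ p : MvPolynomial (Fin M) ℂ,
      IsWeightedHomogeneous d p (d i + d j - 1) ∧ aeval x p = P (x i) (x j) := by
    intro i j
    refine hlift _ _ (hX.degree (d i) (d j) _ ?_ _ (hx i) _ (hx j))
    have := hpos i
    omega
  choose ℓ hℓ1 hℓ2 using hP
  let π : Fin M → Fin M → MvPolynomial (Fin M) ℂ := fun i j =>
    if i < j then ℓ i j else if j < i then - ℓ j i else 0
  have hbr : ∀ i j, aeval x (π i j) = P (x i) (x j) := by
    intro i j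
    simp only [π]
    rcases lt_trichotomy i j with h | h | h
    · rw [if_pos h, hℓ2]
    · subst h
      rw [if_neg (lt_irrefl _), if_neg (lt_irrefl _), map_zero, hX.alternating]
    · rw [if_neg h.not_gt, if_pos h, map_neg, hℓ2, pres_skew P hX.alternating (x i) (x j)]
  refine ⟨M, L, ⟨d, e, F, π⟩, aeval x, ?_⟩
  refine ⟨⟨hpos, hF, ?_, ?_, ?_, ?_⟩, hsurj, hker, fun i => by rw [aeval_X]; exact hx i, hlift,
    fun i j => by rw [aeval_X, aeval_X]; exact hbr i j⟩
  · intro i j n hn
    have hn' : n = d i + d j - 1 := by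
      have : d i + d j = n + 1 := hn
      omega
    show IsWeightedHomogeneous d (π i j) n
    rw [hn']
    simp only [π]
    rcases lt_trichotomy i j with h | h | h
    · rw [if_pos h]
      exact hℓ1 i j
    · subst h
      rw [if_neg (lt_irrefl _), if_neg (lt_irrefl _)]
      exact isWeightedHomogeneous_zero _ _ _
    · rw [if_neg h.not_gt, if_pos h, add_comm (d i) (d j)]
      exact (weightedHomogeneousSubmodule ℂ d _).neg_mem (hℓ1 j i)
  · intro i
    simp [π]
  · intro i j
    simp only [π]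
    rcases lt_trichotomy i j with h | h | h
    · rw [if_pos h, if_neg h.not_gt, if_pos h, neg_neg]
    · subst h
      rw [if_neg (lt_irrefl _), if_neg (lt_irrefl _), neg_zero]
    · rw [if_neg h.not_gt, if_pos h, if_pos h]
  · intro l j
    refine (hker _).mp ?_
    rw [map_sum]
    simp only [map_mul]
    show ∑ i, aeval x (pderiv i (F l)) * aeval x (π i j) = 0
    simp only [hbr]
    rw [← pres_chain P hX.alternating hX.leibniz x (x j) (F l)]
    have h1 : aeval x (F l) = 0 := (hker _).mpr (Ideal.subset_span ⟨l, rfl⟩)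
    rw [h1, map_zero, LinearMap.zero_apply]

end Vale.Agent.P292.Mo
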