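import Vale.Agent.P292.Mo.Back
import Vale.Agent.P292.Mo.Sp.AsmA
import Vale.Agent.P292.Mo.Sp.OKSpread
import Vale.Agent.P292.Mo.Sp.ModelGr
import Vale.Agent.P292.Mo.Sp.Indep
import Vale.Agent.P292.Mo.Sp.Noether
import Vale.Agent.P292.Mo.Sp.NoetherDet
import Vale.Agent.P292.Mo.Sp.NoetherSpread
import Vale.Agent.P292.Mo.Sp.Divides
import Vale.Agent.P292.Mo.Sp.LargeChar
import Vale.Agent.P292.Mo.Sp.ModelBr
import Vale.Agent.P292.Mo.Sp.Pres
import Vale.Agent.P292.Mo.Sp.PMSpread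

/-! # Spreading out: the final assembly. -/

namespace Vale.Agent.P292.Mo

open MvPolynomial

universe u v w

section main

variable {R : Type u} [CommRing R] [Algebra ℂ R] {𝒜 : ℕ → Submodule ℂ R} [GradedAlgebra 𝒜]
  {P : R →ₗ[ℂ] R →ₗ[ℂ] R}

/-- Some generator is not zero. -/
theorem asm_exists_gen (hX : IsContactFano 𝒜 P) {M L : ℕ} {D : Dat ℂ M L}
    {ev : MvPolynomial (Fin M) ℂ →ₐ[ℂ] R} (hD : IsPres 𝒜 P D ev) : ∃ i, ev (X i) ≠ 0 := by
  by_contra hcon
  push Not at hcon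
  obtain ⟨p, hp⟩ := hX.nonempty
  apply hp
  intro n hn r hr
  obtain ⟨f, hf, rfl⟩ := hD.lift n r hr
  have h1 : ev f = aeval (fun i => ev (X i)) f := by
    conv_lhs => rw [aeval_unique ev]
    rfl
  have h2 : ev f = 0 := by
    rw [h1]
    exact asm_eval_zero (algebraMap ℂ R) hn hf hcon
  rw [h2, map_zero]

/-- The reduction of the data modulo a large prime and the curve over its field. -/
theorem asm_reduction (hX : IsContactFano 𝒜 P) (hdim : 2 ≤ Algebra.trdeg ℂ R)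
    (mori : ∀ (k : Type) [Field k] [IsAlgClosed k] (p : ℕ) [CharP k p], p ≠ 2 → p ≠ 0 →
      ∀ (S : Type) [CommRing S] [Algebra k S] (ℬ : ℕ → Submodule k S) [GradedAlgebra ℬ]
        (Q : S →ₗ[k] S →ₗ[k] S), IsPM ℬ Q → ∀ (e n : ℕ) (y : Fin n → S), IsNoe ℬ p e y →
        ∀ f : S, (∃ h, ∃ G : MvPolynomial (Fin n) k, G ≠ 0 ∧ f * h = aeval y G) →
          ∃ w : S →ₐ[k] k, w f ≠ 0 ∧ Hit ℬ w)
    {M L : ℕ} {D : Dat ℂ M L} {ev : MvPolynomial (Fin M) ℂ →ₐ[ℂ] R} (hD : IsPres 𝒜 P D ev)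
    (T : Finset ℂ) (F : MvPolynomial (Fin M) ℂ) (hF : ev F ≠ 0) :
    ∃ (A : Subalgebra ℤ ℂ) (k : Type) (_ : Field k) (_ : IsAlgClosed k) (j : A →+* k) (d : ℕ)
      (ψ : Fin M → MvPolynomial (Fin 2) k), (T : Set ℂ) ⊆ A ∧ (d = 1 ∨ d = 2) ∧
      (∀ i, (ψ i).IsHomogeneous (d * D.d i)) ∧
      (∀ a : Fin 2 → k, a ≠ 0 → ∃ i, eval a (ψ i) ≠ 0) ∧
      (∀ l, ∀ G : MvPolynomial (Fin M) A, MvPolynomial.map (algebraMap A ℂ) G = D.F l →
        aeval ψ (MvPolynomial.map j G) = 0) ∧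
      ∀ G : MvPolynomial (Fin M) A, MvPolynomial.map (algebraMap A ℂ) G = F →
        eval (fun i => eval ![1, 0] (ψ i)) (MvPolynomial.map j G) ≠ 0 := by
  classical
  have := hX.domain
  obtain ⟨e, n, y, he, hy, hyi, hyS⟩ := exists_noether hX
  choose Y hYh hYe using fun i => hD.lift e (y i) (hy i)
  have hyY : (fun i => ev (Y i)) = y := funext hYe
  obtain ⟨hdet, hn⟩ := det_ne_zero_of_noether hX y hyi hyS
  obtain ⟨A1, hA1, h1⟩ := Dat.isOK_spread.{0} D hD.ok
  obtain ⟨A2, hA2, h2⟩ := isPM_spread.{u, 0} hX hD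
  obtain ⟨s, A3, hA3, h3⟩ := noether_spread.{u, 0} hD Y (by rwa [hyY])
  obtain ⟨b, A4, hb, hA4, h4⟩ := divides_spread.{u, 0} hX hD Y (by rwa [hyY]) (by rwa [hyY]) F hF
  obtain ⟨A5, hA5, h5⟩ := exists_lift_poly Y
  obtain ⟨A6, hA6, h6⟩ := exists_lift_poly fun _ : Unit => F
  obtain ⟨A7, hA7, h7⟩ := exists_fg_of_finite (T : Set ℂ) T.finite_toSet
  obtain ⟨A, hA, hA1', hA2', hA3', hA4', hA5', hA6', hA7'⟩ : ∃ A : Subalgebra ℤ ℂ, A.FG ∧
      A1 ≤ A ∧ A2 ≤ A ∧ A3 ≤ A ∧ A4 ≤ A ∧ A5 ≤ A ∧ A6 ≤ A ∧ A7 ≤ A := by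
    refine ⟨A1 ⊔ (A2 ⊔ (A3 ⊔ (A4 ⊔ (A5 ⊔ (A6 ⊔ A7))))), ?_, ?_, ?_, ?_, ?_, ?_, ?_, ?_⟩
    · exact hA1.sup (hA2.sup (hA3.sup (hA4.sup (hA5.sup (hA6.sup hA7)))))
    · exact le_sup_left
    · exact le_sup_left.trans le_sup_right
    · exact (le_sup_left.trans le_sup_right).trans le_sup_right
    · exact ((le_sup_left.trans le_sup_right).trans le_sup_right).trans le_sup_right
    · exact (((le_sup_left.trans le_sup_right).trans le_sup_right).trans le_sup_right).trans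
        le_sup_right
    · exact ((((le_sup_left.trans le_sup_right).trans le_sup_right).trans le_sup_right).trans
        le_sup_right).trans le_sup_right
    · exact ((((le_sup_right.trans le_sup_right).trans le_sup_right).trans le_sup_right).trans
        le_sup_right).trans le_sup_right
  obtain ⟨⟨D', hD'⟩, h1⟩ := h1 A hA1'
  have h1 := h1 D' hD'
  have h2 := h2 A hA2' D' hD'
  choose Y' hY' using h5 A hA5'
  obtain ⟨F', hF'⟩ := h6 A hA6' ()
  have h3 := h3 A hA3' D' Y' hD' hY'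
  obtain ⟨hbA, h4⟩ := h4 A hA4'
  have h4 := h4 D' Y' F' hD' hY' hF'
  have h7 := h7 A hA7'
  have hinj := map_algebraMap_injective (σ := Fin M) A
  have hdD : D'.d = D.d := by rw [← hD']; rfl
  -- the ring and its homomorphism to a field of characteristic zero
  obtain ⟨i₀, hi₀⟩ := asm_exists_gen hX hD
  let G' : MvPolynomial (Fin M) A := MvPolynomial.C ⟨b, hbA⟩ * ((D'.pbrM Y').det * X i₀)
  let g : D'.Rg := D'.q G'
  let ρ : D'.Rg →+* R := Ideal.Quotient.lift D'.I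
    (ev.toRingHom.comp (MvPolynomial.map (algebraMap A ℂ))) (by
      intro a ha
      have h8 : D'.I ≤ RingHom.ker (ev.toRingHom.comp (MvPolynomial.map (algebraMap A ℂ))) := by
        rw [Dat.I, Ideal.span_le]
        rintro _ ⟨l, rfl⟩
        rw [SetLike.mem_coe, RingHom.mem_ker]
        have h9 : MvPolynomial.map (algebraMap A ℂ) (D'.F l) = D.F l := by
          rw [← hD']
          rfl
        change ev (MvPolynomial.map (algebraMap A ℂ) (D'.F l)) = 0
        rw [h9, hD.ker]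
        exact Ideal.subset_span ⟨l, rfl⟩
      exact h8 ha)
  have hρ : ∀ p, ρ (D'.q p) = ev (MvPolynomial.map (algebraMap A ℂ) p) := fun p => rfl
  have hρg : ρ g ≠ 0 := by
    rw [hρ, map_mul, map_mul, map_mul, map_mul, map_C, map_X]
    refine mul_ne_zero ?_ (mul_ne_zero ?_ hi₀)
    · have h8 : ev (C ((algebraMap A ℂ) ⟨b, hbA⟩)) = algebraMap ℂ R b := ev.commutes b
      rw [h8]
      exact (map_ne_zero_iff _ (algebraMap ℂ R).injective).mpr hb
    · rw [← asm_det_map, hD']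
      have h8 : (fun i => MvPolynomial.map (algebraMap A ℂ) (Y' i)) = Y := funext hY'
      rw [h8]
      have h9 : ev (D.pbrM Y).det = (brM P y).det := by
        have h10 : ev.toRingHom.mapMatrix (D.pbrM Y) = brM P y := by
          ext1 i i'
          change ev (D.pbr (Y i) (Y i')) = P (y i) (y i')
          rw [asm_ev_pbr hX.alternating hX.leibniz hD, hYe, hYe]
        rw [← h10, ← RingHom.map_det]
        rfl
      rw [h9]
      exact hdet
  have hft := asm_finiteType_int (asm_finiteType hA D' g)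
  let f : Localization.Away g →+* FractionRing R := IsLocalization.Away.lift g
    (g := (algebraMap R (FractionRing R)).comp ρ) (IsUnit.mk0 _ (by
      rw [RingHom.comp_apply]
      exact (map_ne_zero_iff _ (IsFractionRing.injective R (FractionRing R))).mpr hρg))
  obtain ⟨k, _, _, p, hp, hpp, _, ⟨φ⟩⟩ :=
    exists_hom_large_char (Localization.Away g) (FractionRing R) f (max s 2)
  -- the point
  let θ : MvPolynomial (Fin M) A →+* k :=
    φ.comp ((algebraMap D'.Rg (Localization.Away g)).comp D'.q.toRingHom)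
  let j : A →+* k := θ.comp MvPolynomial.C
  let z : Fin M → k := fun i => θ (X i)
  have hθ : ∀ p, θ p = eval₂ j z p := by
    intro p
    have : θ = eval₂Hom j z := by
      refine MvPolynomial.ringHom_ext (fun a => ?_) fun i => ?_
      · rw [coe_eval₂Hom, eval₂_C]; rfl
      · rw [coe_eval₂Hom, eval₂_X]
    rw [this]
    rfl
  have hz : ∀ l, eval₂ j z (D'.F l) = 0 := by
    intro l
    rw [← hθ]
    change φ (algebraMap D'.Rg (Localization.Away g) (D'.q (D'.F l))) = 0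
    have h8 : D'.q (D'.F l) = 0 := Ideal.Quotient.eq_zero_iff_mem.mpr (Ideal.subset_span ⟨l, rfl⟩)
    rw [h8, map_zero, map_zero]
  obtain ⟨w, hw⟩ := asm_exists_point j D' z hz
  have hG' : θ G' ≠ 0 := by
    have h8 : IsUnit (algebraMap D'.Rg (Localization.Away g) g) :=
      IsLocalization.Away.algebraMap_isUnit g
    exact (h8.map φ).ne_zero
  rw [map_mul, map_mul] at hG'
  have hjb : j ⟨b, hbA⟩ ≠ 0 := left_ne_zero_of_mul hG'
  have hwdet : θ (D'.pbrM Y').det ≠ 0 := left_ne_zero_of_mul (right_ne_zero_of_mul hG')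
  have hwi : θ (X i₀) ≠ 0 := right_ne_zero_of_mul (right_ne_zero_of_mul hG')
  -- the graded algebra over the field
  have hOK := h1 k j
  obtain ⟨_⟩ := Dat.nonempty_gradedAlgebra (D'.map j) hOK
  obtain ⟨Q, hQ1, hQ2, hQ3, hQ4⟩ := Dat.exists_bracket (D'.map j) hOK
  have hPM := h2 k j Q hQ1 hQ2 hQ3 hQ4
  have hXgr : ∀ i, (D'.map j).q (X i) ∈ (D'.map j).gr (D'.d i) := fun i =>
    Submodule.mem_map_of_mem (isWeightedHomogeneous_X k (D'.map j).d i)
  have hNV : NV (D'.map j).gr w := by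
    refine ⟨D'.d i₀, hOK.pos i₀, _, hXgr i₀, ?_⟩
    have h8 := hw (X i₀)
    rw [map_X] at h8
    rw [h8, ← hθ]
    exact hwi
  have hYgr : ∀ i, (D'.map j).q (MvPolynomial.map j (Y' i)) ∈ (D'.map j).gr e := by
    intro i
    refine Submodule.mem_map_of_mem ?_
    refine asm_wh_map j (asm_wh_of_map (j := algebraMap A ℂ) Subtype.val_injective ?_)
    rw [hY' i]
    have h8 : (D'.map j).d = D.d := hdD
    rw [h8]
    exact hYh i
  have hn2 : 2 ≤ n := by
    have h8 := hdim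
    rw [← hn] at h8
    exact_mod_cast h8
  have hNoe : IsNoe (D'.map j).gr p e fun i => (D'.map j).q (MvPolynomial.map j (Y' i)) := by
    refine ⟨he, hn2, hYgr, ?_, ?_⟩
    · refine indep_of_det hPM _ w hNV ?_
      rw [asm_det_q (D'.map j) Q hQ1, asm_det_map, hw, ← hθ]
      exact hwdet
    · obtain ⟨S, hS1, hS2⟩ := h3 k j
      exact ⟨S, lt_of_le_of_lt (hS1.trans (le_max_left _ _)) hp, hS2⟩
  obtain ⟨w', hw', d, hd, ψ, hψ1, hψ2, hψ3⟩ := mori k p (by have := le_max_right s 2; omega)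
    hpp.ne_zero (D'.map j).Rg (D'.map j).gr Q hPM e n _ hNoe _ (h4 k j hjb)
  refine ⟨A, k, inferInstance, inferInstance, j, d, fun i => ψ ((D'.map j).q (X i)), h7, hd,
    ?_, ?_, ?_, ?_⟩
  · intro i
    rw [← hdD]
    exact hψ1 _ _ (hXgr i)
  · intro a ha
    by_contra hcon
    push Not at hcon
    obtain ⟨m, hm, r, hr, hne⟩ := hψ2 a ha
    obtain ⟨q, hq, rfl⟩ := hr
    apply hne
    have h8 : (MvPolynomial.eval a).comp ((ψ : (D'.map j).Rg →+* MvPolynomial (Fin 2) k).comp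
        ((D'.map j).q : MvPolynomial (Fin M) k →+* (D'.map j).Rg)) =
        eval₂Hom (RingHom.id k) fun i => eval a (ψ ((D'.map j).q (X i))) := by
      refine MvPolynomial.ringHom_ext (fun c => ?_) fun i => ?_
      · rw [coe_eval₂Hom, eval₂_C]
        have h9 : (D'.map j).q (C c) = algebraMap k _ c := (D'.map j).q.commutes c
        change eval a (ψ ((D'.map j).q (C c))) = _
        rw [h9, AlgHom.commutes]
        exact eval_C c
      · rw [coe_eval₂Hom, eval₂_X]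
        rfl
    have h9 := RingHom.congr_fun h8 q
    exact h9.trans (asm_eval_zero (RingHom.id k) hm hq hcon)
  · intro l G hG
    have h8 : G = D'.F l := hinj (by rw [hG, ← hD']; rfl)
    rw [h8]
    have h9 : (aeval fun i => ψ ((D'.map j).q (X i)) :
        MvPolynomial (Fin M) k →ₐ[k] MvPolynomial (Fin 2) k) = ψ.comp (D'.map j).q := by
      refine MvPolynomial.algHom_ext fun i => ?_
      rw [aeval_X]
      rfl
    rw [h9, AlgHom.comp_apply]
    have h10 : (D'.map j).q (MvPolynomial.map j (D'.F l)) = 0 :=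
      Ideal.Quotient.eq_zero_iff_mem.mpr (Ideal.subset_span ⟨l, rfl⟩)
    rw [h10, map_zero]
  · intro G hG
    have h8 : G = F' := hinj (by rw [hG, hF'])
    rw [h8]
    have h9 : (eval fun i => eval ![1, 0] (ψ ((D'.map j).q (X i)))) (MvPolynomial.map j F') =
        w' ((D'.map j).q (MvPolynomial.map j F')) := by
      have h10 : (w'.comp (D'.map j).q) = aeval fun i => eval ![1, 0] (ψ ((D'.map j).q (X i))) := by
        refine MvPolynomial.algHom_ext fun i => ?_
        rw [aeval_X, hψ3]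
        rfl
      rw [← AlgHom.comp_apply, h10]
      rfl
    rw [h9]
    exact hw'

/-- ASM: the final theorem of Part II. -/
theorem exists_isAnch_of_mori (hX : IsContactFano 𝒜 P) (hdim : 2 ≤ Algebra.trdeg ℂ R)
    (mori : ∀ (k : Type) [Field k] [IsAlgClosed k] (p : ℕ) [CharP k p], p ≠ 2 → p ≠ 0 →
      ∀ (S : Type) [CommRing S] [Algebra k S] (ℬ : ℕ → Submodule k S) [GradedAlgebra ℬ]
        (Q : S →ₗ[k] S →ₗ[k] S), IsPM ℬ Q → ∀ (e n : ℕ) (y : Fin n → S), IsNoe ℬ p e y →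
        ∀ f : S, (∃ h, ∃ G : MvPolynomial (Fin n) k, G ≠ 0 ∧ f * h = aeval y G) →
          ∃ w : S →ₐ[k] k, w f ≠ 0 ∧ Hit ℬ w) :
    ∃ (Ω : Type u) (_ : Field Ω) (_ : IsAlgClosed Ω) (_ : Algebra ℂ Ω) (d : ℕ)
      (φ : R →ₐ[ℂ] MvPolynomial (Fin 2) Ω), (d = 1 ∨ d = 2) ∧ IsAnch 𝒜 d φ := by
  classical
  have := hX.domain
  obtain ⟨M, L, D, ev, hD⟩ := exists_isPres hX
  have hev : (aeval fun i => ev (X i) : MvPolynomial (Fin M) ℂ →ₐ[ℂ] R) = ev :=
    (aeval_unique ev).symm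
  refine exists_isAnch_of_reductions (fun i => ev (X i)) D.d hD.ok.pos hD.hom
    (by rw [hev]; exact hD.surj) (Finset.univ.image D.F) ?_ ?_
  · rw [hev, Finset.coe_image, Finset.coe_univ, Set.image_univ]
    ext p
    rw [RingHom.mem_ker]
    exact (hD.ker p).symm
  · intro T F hF
    rw [hev] at hF
    obtain ⟨A, k, ik, ia, j, d, ψ, h1, h2, h3, h4, h5, h6⟩ := asm_reduction hX hdim mori hD T F hF
    refine ⟨A.toSubring, k, ik, ia, j, d, ψ, h1, h2, h3, h4, ?_, ?_⟩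
    · intro G hG
      obtain ⟨l, -, hl⟩ := Finset.mem_image.mp hG
      exact h5 l G hl.symm
    · intro G hG
      exact h6 G hG

end main

end Vale.Agent.P292.Mo
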