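import Vale.Agent.P292.Mo.Sp.Dat
import Vale.Agent.P292.K.A1

/-! # Spreading out: finitely many frames suffice. -/

namespace Vale.Agent.P292.Mo

open MvPolynomial

universe u v w

variable {R : Type u} [CommRing R] [Algebra ℂ R] {𝒜 : ℕ → Submodule ℂ R} [GradedAlgebra 𝒜]
  {P : R →ₗ[ℂ] R →ₗ[ℂ] R}

/-- A derivation of the quotient of a polynomial ring in terms of partial derivatives. -/
theorem framecover_der {M : ℕ} (ev : MvPolynomial (Fin M) ℂ →ₐ[ℂ] R) (δ : R →ₗ[ℂ] R)
    (hδ : ∀ b c, δ (b * c) = δ b * c + b * δ c) (a : MvPolynomial (Fin M) ℂ) :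
    δ (ev a) = ∑ j, ev (pderiv j a) * δ (ev (X j)) := by
  have h1 : δ 1 = 0 := by
    have h := hδ 1 1
    rw [mul_one, one_mul, mul_one] at h
    exact left_eq_add.mp h
  induction a using MvPolynomial.induction_on with
  | C c =>
    have h2 : ev (C c) = c • (1 : R) := by
      rw [← MvPolynomial.algebraMap_eq, AlgHom.commutes, Algebra.algebraMap_eq_smul_one]
    rw [h2, map_smul, h1, smul_zero]
    exact (Finset.sum_eq_zero fun j _ => by rw [pderiv_C, map_zero, zero_mul]).symm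
  | add p q hp hq =>
    rw [map_add, map_add, hp, hq, ← Finset.sum_add_distrib]
    exact Finset.sum_congr rfl fun j _ => by rw [map_add, map_add, add_mul]
  | mul_X p n hp =>
    rw [map_mul, hδ, hp, Finset.sum_mul]
    have h3 : ev p * δ (ev (X n)) =
        ∑ j, ev p * ev (pderiv j (X n : MvPolynomial (Fin M) ℂ)) * δ (ev (X j)) := by
      rw [Finset.sum_eq_single n]
      · rw [pderiv_X_self, map_one, mul_one]
      · intro j _ hj
        rw [pderiv_X_of_ne (Ne.symm hj), map_zero, mul_zero, zero_mul]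
      · intro h
        exact absurd (Finset.mem_univ n) h
    rw [h3, ← Finset.sum_add_distrib]
    refine Finset.sum_congr rfl fun j _ => ?_
    rw [pderiv_mul, map_add, map_mul, map_mul]
    ring

theorem framecover_skew (halt : ∀ a, P a a = 0) (a b : R) : P a b = - P b a := by
  have h := halt (a + b)
  rw [map_add, map_add, LinearMap.add_apply, LinearMap.add_apply, halt, halt, zero_add,
    add_zero] at h
  exact eq_neg_of_add_eq_zero_right h

/-- The bracket of polynomials is the bracket of the algebra. -/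
theorem framecover_pbr (halt : ∀ a, P a a = 0)
    (hleib : ∀ a b c, P a (b * c) = P a b * c + b * P a c) {M L : ℕ} {D : Dat ℂ M L}
    {ev : MvPolynomial (Fin M) ℂ →ₐ[ℂ] R}
    (hbr : ∀ i j, ev (D.π i j) = P (ev (X i)) (ev (X j))) (a b : MvPolynomial (Fin M) ℂ) :
    ev (D.pbr a b) = P (ev a) (ev b) := by
  have h1 : ∀ j, P (ev a) (ev (X j)) = ∑ i, ev (pderiv i a) * P (ev (X i)) (ev (X j)) := by
    intro j
    rw [framecover_skew halt, framecover_der ev (P (ev (X j))) (hleib _) a,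
      ← Finset.sum_neg_distrib]
    refine Finset.sum_congr rfl fun i _ => ?_
    rw [framecover_skew halt (ev (X i)), mul_neg]
  rw [Dat.pbr, framecover_der ev (P (ev a)) (hleib _) b, Finset.sum_comm, map_sum]
  refine Finset.sum_congr rfl fun j _ => ?_
  rw [h1, map_sum, Finset.mul_sum]
  refine Finset.sum_congr rfl fun i _ => ?_
  rw [map_mul, map_mul, hbr]
  ring

theorem framecover_det (halt : ∀ a, P a a = 0)
    (hleib : ∀ a b c, P a (b * c) = P a b * c + b * P a c) {M L : ℕ} {D : Dat ℂ M L}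
    {ev : MvPolynomial (Fin M) ℂ →ₐ[ℂ] R}
    (hbr : ∀ i j, ev (D.π i j) = P (ev (X i)) (ev (X j))) {N : ℕ}
    (x : Fin N → MvPolynomial (Fin M) ℂ) :
    ev (D.pbrM x).det = (brM P fun i => ev (x i)).det := by
  rw [AlgHom.map_det]
  congr 1
  ext i j
  exact framecover_pbr halt hleib hbr (x i) (x j)

/-- FC: finitely many frames suffice. -/
theorem frame_cover (hX : IsContactFano 𝒜 P) {M L : ℕ} {D : Dat ℂ M L}
    {ev : MvPolynomial (Fin M) ℂ →ₐ[ℂ] R} (hD : IsPres 𝒜 P D ev) :
    ∃ (T : ℕ) (N : Fin T → ℕ) (x : ∀ a, Fin (N a) → MvPolynomial (Fin M) ℂ)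
      (dx : ∀ a, Fin (N a) → ℕ) (g : Fin T → MvPolynomial (Fin M) ℂ),
      (∀ a i, IsWeightedHomogeneous D.d (x a i) (dx a i)) ∧
      (∀ a, IsFr 𝒜 (fun i => ev (x a i)) (dx a) (ev (g a))) ∧
      ∀ i, ∃ n, (X i : MvPolynomial (Fin M) ℂ) ^ n ∈
        Ideal.span (Set.range (Sum.elim D.F fun a => g a * (D.pbrM (x a)).det)) := by
  classical
  have := hX.finiteType
  -- the set of products
  let S : Set R := {r | ∃ (N : ℕ) (x : Fin N → MvPolynomial (Fin M) ℂ) (dx : Fin N → ℕ)
    (g : MvPolynomial (Fin M) ℂ), (∀ i, IsWeightedHomogeneous D.d (x i) (dx i)) ∧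
    IsFr 𝒜 (fun i => ev (x i)) dx (ev g) ∧ ev (g * (D.pbrM x).det) = r}
  have hS : ∀ i, ∃ n, ev (X i) ^ n ∈ Ideal.span S := by
    intro i
    refine mem_radical_of_forall (Ideal.span S) (ev (X i)) fun p hp => ?_
    by_contra hne
    have hv : ¬ IsVertex 𝒜 p := fun hv => hne (hv _ (hD.ok.pos i) _ (hD.hom i))
    obtain ⟨N, x, k, g, l, hx, hg, hpg, hpd, hgen⟩ := exists_chart hX p hv
    choose x' hx' hx'' using fun i => hD.lift (k i) (x i) (hx i)
    obtain ⟨g', hg', hg''⟩ := hD.lift l g hg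
    have hxe : (fun i => ev (x' i)) = x := funext hx''
    have hmem : g * (brM P x).det ∈ S := by
      refine ⟨N, x', k, g', hx', ?_, ?_⟩
      · rw [hxe, hg'']
        exact ⟨hx, ⟨l, hg⟩, hgen⟩
      · rw [map_mul, framecover_det hX.alternating hX.leibniz hD.br, hxe, hg'']
    have h0 := hp _ (Ideal.subset_span hmem)
    rw [map_mul] at h0
    exact (mul_ne_zero hpg hpd) h0
  choose n hn using hS
  choose W hWS hW using fun i => Submodule.mem_span_finite_of_mem_span (hn i)
  let U : Finset R := Finset.univ.biUnion W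
  have hU : ∀ r ∈ U, r ∈ S := by
    intro r hr
    obtain ⟨i, -, hi⟩ := Finset.mem_biUnion.mp hr
    exact hWS i hi
  let f : Fin U.card → R := fun a => (U.equivFin.symm a : R)
  have hf : ∀ a, f a ∈ S := fun a => hU _ (U.equivFin.symm a).2
  choose N x dx g hx hfr hval using hf
  refine ⟨U.card, N, x, dx, g, hx, hfr, fun i => ⟨n i, ?_⟩⟩
  have hmem : ev (X i) ^ n i ∈ Ideal.span (Set.range f) := by
    refine (Ideal.span_mono ?_) (hW i)
    intro r hr
    have hrU : r ∈ U := Finset.mem_biUnion.mpr ⟨i, Finset.mem_univ i, hr⟩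
    refine ⟨U.equivFin ⟨r, hrU⟩, ?_⟩
    change ((U.equivFin.symm (U.equivFin ⟨r, hrU⟩) : U) : R) = r
    rw [Equiv.symm_apply_apply]
  obtain ⟨c, hc⟩ := Ideal.mem_span_range_iff_exists_fun.mp hmem
  choose c' hc' using fun a => hD.surj (c a)
  have hker : X i ^ n i - ∑ a, c' a * (g a * (D.pbrM (x a)).det) ∈ D.I := by
    rw [← hD.ker, map_sub, map_pow, ← hc, map_sum, sub_eq_zero]
    exact Finset.sum_congr rfl fun a _ => by rw [map_mul, hc', hval]
  have h1 : D.I ≤ Ideal.span (Set.range (Sum.elim D.F fun a => g a * (D.pbrM (x a)).det)) := by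
    refine Ideal.span_mono ?_
    rintro _ ⟨l, rfl⟩
    exact ⟨Sum.inl l, rfl⟩
  have h2 : ∑ a, c' a * (g a * (D.pbrM (x a)).det) ∈
      Ideal.span (Set.range (Sum.elim D.F fun a => g a * (D.pbrM (x a)).det)) :=
    sum_mem fun a _ => Ideal.mul_mem_left _ _ (Ideal.subset_span ⟨Sum.inr a, rfl⟩)
  have h3 := add_mem (h1 hker) h2
  rwa [sub_add_cancel] at h3

end Vale.Agent.P292.Mo
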