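import Vale.Agent.P292.Mo.Sp.Lift

/-! # Spreading out: generation of differentials. -/

namespace Vale.Agent.P292.Mo

open MvPolynomial TensorProduct

universe u v w

section quot

variable {k : Type u} [CommRing k] {M : ℕ} {Q : Type v} [CommRing Q] [Algebra k Q]
  [Algebra (MvPolynomial (Fin M) k) Q] [IsScalarTower k (MvPolynomial (Fin M) k) Q]

/-- Chain rule in a quotient of a polynomial ring. -/
theorem framespread_D (p : MvPolynomial (Fin M) k) :
    KaehlerDifferential.D k Q (algebraMap (MvPolynomial (Fin M) k) Q p) =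
      ∑ m, algebraMap (MvPolynomial (Fin M) k) Q (pderiv m p) •
        KaehlerDifferential.D k Q (algebraMap (MvPolynomial (Fin M) k) Q (X m)) := by
  have h := (KaehlerDifferential.mvPolynomialBasis k (Fin M)).sum_repr
    (KaehlerDifferential.D k (MvPolynomial (Fin M) k) p)
  have h2 := congrArg (KaehlerDifferential.map k k (MvPolynomial (Fin M) k) Q) h
  rw [map_sum, KaehlerDifferential.map_D] at h2
  rw [← h2]
  refine Finset.sum_congr rfl fun m _ => ?_
  rw [map_smul, KaehlerDifferential.mvPolynomialBasis_apply,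
    KaehlerDifferential.mvPolynomialBasis_repr_apply, KaehlerDifferential.map_D,
    algebraMap_smul]

variable (Q) in
/-- The coordinate `m` of an element of `Q ⊗ Ω`. -/
noncomputable def framespread_coord (m : Fin M) :
    Q ⊗[MvPolynomial (Fin M) k] (Ω[MvPolynomial (Fin M) k⁄k]) →ₗ[MvPolynomial (Fin M) k] Q :=
  (TensorProduct.rid (MvPolynomial (Fin M) k) Q).toLinearMap ∘ₗ
    LinearMap.lTensor Q ((KaehlerDifferential.mvPolynomialBasis k (Fin M)).coord m)

omit [Algebra k Q] [IsScalarTower k (MvPolynomial (Fin M) k) Q] in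
theorem framespread_coord_tmul (m : Fin M) (q : Q) (p : MvPolynomial (Fin M) k) :
    framespread_coord Q m (q ⊗ₜ KaehlerDifferential.D k (MvPolynomial (Fin M) k) p) =
      algebraMap (MvPolynomial (Fin M) k) Q (pderiv m p) * q := by
  unfold framespread_coord
  rw [LinearMap.comp_apply, LinearMap.lTensor_tmul, Module.Basis.coord_apply,
    KaehlerDifferential.mvPolynomialBasis_repr_apply]
  show (TensorProduct.rid (MvPolynomial (Fin M) k) Q) (q ⊗ₜ (pderiv m p)) = _
  rw [TensorProduct.rid_tmul, Algebra.smul_def]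

/-- The certificate of a relation between differentials. -/
theorem framespread_cert {L N : ℕ}
    (hs : Function.Surjective (algebraMap (MvPolynomial (Fin M) k) Q))
    (F : Fin L → MvPolynomial (Fin M) k) (a y : MvPolynomial (Fin M) k)
    (x : Fin N → MvPolynomial (Fin M) k)
    (hF : ∀ t, algebraMap (MvPolynomial (Fin M) k) Q (F t) = 0)
    (hI : ∀ f, algebraMap (MvPolynomial (Fin M) k) Q f = 0 →
      ∃ H : Fin L → MvPolynomial (Fin M) k, ∑ t, H t * F t = f)
    (c : Fin N → Q)
    (h : algebraMap (MvPolynomial (Fin M) k) Q a • KaehlerDifferential.D k Q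
      (algebraMap (MvPolynomial (Fin M) k) Q y) =
        ∑ l, c l • KaehlerDifferential.D k Q (algebraMap (MvPolynomial (Fin M) k) Q (x l))) :
    ∃ (C : Fin N → MvPolynomial (Fin M) k) (H : Fin L → MvPolynomial (Fin M) k), ∀ m,
      algebraMap (MvPolynomial (Fin M) k) Q
        (a * pderiv m y - ∑ l, C l * pderiv m (x l) - ∑ t, H t * pderiv m (F t)) = 0 := by
  let τ : Q ⊗[MvPolynomial (Fin M) k] (Ω[MvPolynomial (Fin M) k⁄k]) :=
    (algebraMap (MvPolynomial (Fin M) k) Q a) ⊗ₜ
      KaehlerDifferential.D k (MvPolynomial (Fin M) k) y -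
      ∑ l, c l ⊗ₜ KaehlerDifferential.D k (MvPolynomial (Fin M) k) (x l)
  have hτ : KaehlerDifferential.mapBaseChange k (MvPolynomial (Fin M) k) Q τ = 0 := by
    show KaehlerDifferential.mapBaseChange k (MvPolynomial (Fin M) k) Q (_ - _) = 0
    rw [map_sub, map_sum, KaehlerDifferential.mapBaseChange_tmul, KaehlerDifferential.map_D, h]
    simp only [KaehlerDifferential.mapBaseChange_tmul, KaehlerDifferential.map_D]
    exact sub_self _
  obtain ⟨κ, hκ⟩ := (KaehlerDifferential.exact_kerCotangentToTensor_mapBaseChange k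
    (MvPolynomial (Fin M) k) Q hs τ).1 hτ
  obtain ⟨f, rfl⟩ := Ideal.toCotangent_surjective _ κ
  rw [KaehlerDifferential.kerCotangentToTensor_toCotangent] at hκ
  have hf : algebraMap (MvPolynomial (Fin M) k) Q f.1 = 0 := (RingHom.mem_ker).1 f.2
  obtain ⟨H, hH⟩ := hI _ hf
  choose C hC using fun l => hs (c l)
  refine ⟨C, H, fun m => ?_⟩
  have h2 := congrArg (framespread_coord Q m) hκ
  have h3 : framespread_coord Q m τ = algebraMap (MvPolynomial (Fin M) k) Q (pderiv m y) *
      algebraMap (MvPolynomial (Fin M) k) Q a -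
      ∑ l, algebraMap (MvPolynomial (Fin M) k) Q (pderiv m (x l)) * c l := by
    show framespread_coord Q m (_ - _) = _
    rw [map_sub, map_sum, framespread_coord_tmul]
    congr 1
    exact Finset.sum_congr rfl fun l _ => framespread_coord_tmul m _ _
  rw [h3, framespread_coord_tmul, mul_one, ← hH, map_sum, map_sum] at h2
  have h4 : ∀ t, algebraMap (MvPolynomial (Fin M) k) Q (pderiv m (H t * F t)) =
      algebraMap (MvPolynomial (Fin M) k) Q (H t * pderiv m (F t)) := by
    intro t
    rw [Derivation.leibniz, smul_eq_mul, smul_eq_mul, map_add, map_mul, map_mul, hF, zero_mul,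
      add_zero]
  rw [Finset.sum_congr rfl fun t _ => h4 t] at h2
  rw [map_sub, map_sub, map_sum, map_sum, h2, map_mul]
  have h6 : ∑ l, algebraMap (MvPolynomial (Fin M) k) Q (C l * pderiv m (x l)) =
      ∑ l, algebraMap (MvPolynomial (Fin M) k) Q (pderiv m (x l)) * c l := by
    refine Finset.sum_congr rfl fun l _ => ?_
    rw [map_mul, hC, mul_comm]
  rw [h6]
  ring

/-- From a certificate back to the relation. -/
theorem framespread_back {L N : ℕ}
    (hs : Function.Surjective (algebraMap (MvPolynomial (Fin M) k) Q))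
    (F : Fin L → MvPolynomial (Fin M) k) (g : MvPolynomial (Fin M) k)
    (x : Fin N → MvPolynomial (Fin M) k) (C : Fin M → Fin N → MvPolynomial (Fin M) k)
    (H : Fin M → Fin L → MvPolynomial (Fin M) k)
    (hF : ∀ t, algebraMap (MvPolynomial (Fin M) k) Q (F t) = 0)
    (h : ∀ i m, algebraMap (MvPolynomial (Fin M) k) Q
      (g * pderiv m (X i) - ∑ l, C i l * pderiv m (x l) - ∑ t, H i t * pderiv m (F t)) = 0)
    (r : Q) :
    ∃ c : Fin N → Q,
      algebraMap (MvPolynomial (Fin M) k) Q g • KaehlerDifferential.D k Q r =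
        ∑ l, c l • KaehlerDifferential.D k Q (algebraMap (MvPolynomial (Fin M) k) Q (x l)) := by
  -- generators
  have h1 : ∀ i, algebraMap (MvPolynomial (Fin M) k) Q g • KaehlerDifferential.D k Q
      (algebraMap (MvPolynomial (Fin M) k) Q (X i)) =
      ∑ l, algebraMap (MvPolynomial (Fin M) k) Q (C i l) • KaehlerDifferential.D k Q
        (algebraMap (MvPolynomial (Fin M) k) Q (x l)) := by
    intro i
    have e1 : ∀ m, algebraMap (MvPolynomial (Fin M) k) Q g *
        algebraMap (MvPolynomial (Fin M) k) Q (pderiv m (X i)) =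
        (∑ l, algebraMap (MvPolynomial (Fin M) k) Q (C i l) *
          algebraMap (MvPolynomial (Fin M) k) Q (pderiv m (x l))) +
          ∑ t, algebraMap (MvPolynomial (Fin M) k) Q (H i t) *
            algebraMap (MvPolynomial (Fin M) k) Q (pderiv m (F t)) := by
      intro m
      have h2 := h i m
      rw [map_sub, map_sub, map_sum, map_sum, map_mul] at h2
      simp only [map_mul] at h2
      linear_combination h2
    have e2 : ∀ t, ∑ m, algebraMap (MvPolynomial (Fin M) k) Q (pderiv m (F t)) •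
        KaehlerDifferential.D k Q (algebraMap (MvPolynomial (Fin M) k) Q (X m)) = 0 := by
      intro t
      rw [← framespread_D, hF, map_zero]
    rw [framespread_D (X i), Finset.smul_sum]
    calc ∑ m, algebraMap (MvPolynomial (Fin M) k) Q g •
          algebraMap (MvPolynomial (Fin M) k) Q (pderiv m (X i)) •
          KaehlerDifferential.D k Q (algebraMap (MvPolynomial (Fin M) k) Q (X m))
        = ∑ m, ((∑ l, algebraMap (MvPolynomial (Fin M) k) Q (C i l) •
          algebraMap (MvPolynomial (Fin M) k) Q (pderiv m (x l)) •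
          KaehlerDifferential.D k Q (algebraMap (MvPolynomial (Fin M) k) Q (X m))) +
          ∑ t, algebraMap (MvPolynomial (Fin M) k) Q (H i t) •
            algebraMap (MvPolynomial (Fin M) k) Q (pderiv m (F t)) •
          KaehlerDifferential.D k Q (algebraMap (MvPolynomial (Fin M) k) Q (X m))) := by
          refine Finset.sum_congr rfl fun m _ => ?_
          rw [smul_smul, e1 m, add_smul, Finset.sum_smul, Finset.sum_smul]
          simp only [smul_smul]
      _ = ∑ l, algebraMap (MvPolynomial (Fin M) k) Q (C i l) • KaehlerDifferential.D k Q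
            (algebraMap (MvPolynomial (Fin M) k) Q (x l)) := by
          rw [Finset.sum_add_distrib]
          have s1 : ∑ m, ∑ t, algebraMap (MvPolynomial (Fin M) k) Q (H i t) •
              algebraMap (MvPolynomial (Fin M) k) Q (pderiv m (F t)) •
              KaehlerDifferential.D k Q (algebraMap (MvPolynomial (Fin M) k) Q (X m)) = 0 := by
            rw [Finset.sum_comm]
            refine Finset.sum_eq_zero fun t _ => ?_
            rw [← Finset.smul_sum, e2 t, smul_zero]
          rw [s1, add_zero, Finset.sum_comm]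
          refine Finset.sum_congr rfl fun l _ => ?_
          rw [← Finset.smul_sum, ← framespread_D]
  obtain ⟨p, rfl⟩ := hs r
  refine ⟨fun l => ∑ m, algebraMap (MvPolynomial (Fin M) k) Q (pderiv m p) *
    algebraMap (MvPolynomial (Fin M) k) Q (C m l), ?_⟩
  rw [framespread_D p, Finset.smul_sum]
  have e3 : ∀ m, algebraMap (MvPolynomial (Fin M) k) Q g •
      algebraMap (MvPolynomial (Fin M) k) Q (pderiv m p) •
      KaehlerDifferential.D k Q (algebraMap (MvPolynomial (Fin M) k) Q (X m)) =
      ∑ l, (algebraMap (MvPolynomial (Fin M) k) Q (pderiv m p) *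
        algebraMap (MvPolynomial (Fin M) k) Q (C m l)) •
        KaehlerDifferential.D k Q (algebraMap (MvPolynomial (Fin M) k) Q (x l)) := by
    intro m
    rw [smul_comm, h1 m, Finset.smul_sum]
    exact Finset.sum_congr rfl fun l _ => smul_smul _ _ _
  rw [Finset.sum_congr rfl fun m _ => e3 m, Finset.sum_comm]
  exact Finset.sum_congr rfl fun l _ => (Finset.sum_smul).symm

end quot

/-- The certificate, for the quotient by an ideal. -/
theorem framespread_cert' {k : Type u} [CommRing k] {M L N : ℕ}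
    (F : Fin L → MvPolynomial (Fin M) k) (a y : MvPolynomial (Fin M) k)
    (x : Fin N → MvPolynomial (Fin M) k) (I : Ideal (MvPolynomial (Fin M) k))
    (hF : ∀ t, F t ∈ I) (hI : ∀ f ∈ I, ∃ H : Fin L → MvPolynomial (Fin M) k, ∑ t, H t * F t = f)
    (c : Fin N → MvPolynomial (Fin M) k ⧸ I)
    (h : Ideal.Quotient.mk I a • KaehlerDifferential.D k
        (MvPolynomial (Fin M) k ⧸ I) (Ideal.Quotient.mk I y) =
        ∑ l, c l • KaehlerDifferential.D k (MvPolynomial (Fin M) k ⧸ I)
          (Ideal.Quotient.mk I (x l))) :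
    ∃ (C : Fin N → MvPolynomial (Fin M) k) (H : Fin L → MvPolynomial (Fin M) k), ∀ m,
      a * pderiv m y - ∑ l, C l * pderiv m (x l) - ∑ t, H t * pderiv m (F t) ∈ I := by
  obtain ⟨C, H, hCH⟩ := framespread_cert
      (Q := MvPolynomial (Fin M) k ⧸ I) Ideal.Quotient.mk_surjective F a
      y x (fun t => Ideal.Quotient.eq_zero_iff_mem.2 (hF t))
      (fun f hf => hI f (Ideal.Quotient.eq_zero_iff_mem.1 hf))
      c h
  exact ⟨C, H, fun m => Ideal.Quotient.eq_zero_iff_mem.1 (hCH m)⟩

/-- Back, for the quotient by an ideal. -/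
theorem framespread_back' {k : Type u} [CommRing k] {M L N : ℕ}
    (F : Fin L → MvPolynomial (Fin M) k) (g : MvPolynomial (Fin M) k)
    (x : Fin N → MvPolynomial (Fin M) k) (C : Fin M → Fin N → MvPolynomial (Fin M) k)
    (H : Fin M → Fin L → MvPolynomial (Fin M) k) (I : Ideal (MvPolynomial (Fin M) k))
    (hF : ∀ t, F t ∈ I)
    (h : ∀ i m, g * pderiv m (X i) - ∑ l, C i l * pderiv m (x l) -
      ∑ t, H i t * pderiv m (F t) ∈ I)
    (r : MvPolynomial (Fin M) k ⧸ I) :
    ∃ c : Fin N → MvPolynomial (Fin M) k ⧸ I,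
      Ideal.Quotient.mk I g • KaehlerDifferential.D k (MvPolynomial (Fin M) k ⧸ I) r =
        ∑ l, c l • KaehlerDifferential.D k (MvPolynomial (Fin M) k ⧸ I)
          (Ideal.Quotient.mk I (x l)) :=
  framespread_back (Q := MvPolynomial (Fin M) k ⧸ I) Ideal.Quotient.mk_surjective F g x C H
    (fun t => Ideal.Quotient.eq_zero_iff_mem.2 (hF t))
    (fun i m => Ideal.Quotient.eq_zero_iff_mem.2 (h i m)) r

/-- Spreading out of finitely many memberships. -/
theorem framespread_mem {M L : ℕ} (F : Fin L → MvPolynomial (Fin M) ℂ)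
    (q : Fin M × Fin M → MvPolynomial (Fin M) ℂ)
    (h : ∀ s, q s ∈ Ideal.span (Set.range F)) :
    ∃ A₀ : Subalgebra ℤ ℂ, A₀.FG ∧ ∀ A : Subalgebra ℤ ℂ, A₀ ≤ A → ∀ s : Fin M × Fin M,
      ∀ (G' : Fin L → MvPolynomial (Fin M) A) (p' : MvPolynomial (Fin M) A),
        (∀ i, MvPolynomial.map (algebraMap A ℂ) (G' i) = F i) →
        MvPolynomial.map (algebraMap A ℂ) p' = q s →
        p' ∈ Ideal.span (Set.range G') ∧
        ∀ (k : Type v) [CommRing k] (j : A →+* k),
          MvPolynomial.map j p' ∈ Ideal.span (Set.range fun i => MvPolynomial.map j (G' i)) :=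
  exists_fg_of_forall _ fun s => mem_spread F (q s) (h s)

/-- Spreading out of the certificate. -/
theorem framespread_poly {M L N : ℕ} (F : Fin L → MvPolynomial (Fin M) ℂ)
    (g : MvPolynomial (Fin M) ℂ) (x : Fin N → MvPolynomial (Fin M) ℂ)
    (C : Fin M → Fin N → MvPolynomial (Fin M) ℂ) (H : Fin M → Fin L → MvPolynomial (Fin M) ℂ)
    (hCH : ∀ i m, g * pderiv m (X i) - ∑ l, C i l * pderiv m (x l) -
      ∑ t, H i t * pderiv m (F t) ∈ Ideal.span (Set.range F)) :
    ∃ A₀ : Subalgebra ℤ ℂ, A₀.FG ∧ ∀ A : Subalgebra ℤ ℂ, A₀ ≤ A →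
      ∀ (F' : Fin L → MvPolynomial (Fin M) A) (g' : MvPolynomial (Fin M) A)
        (x' : Fin N → MvPolynomial (Fin M) A),
        (∀ i, MvPolynomial.map (algebraMap A ℂ) (F' i) = F i) →
        MvPolynomial.map (algebraMap A ℂ) g' = g →
        (∀ i, MvPolynomial.map (algebraMap A ℂ) (x' i) = x i) →
        ∃ (C' : Fin M → Fin N → MvPolynomial (Fin M) A)
          (H' : Fin M → Fin L → MvPolynomial (Fin M) A),
        ∀ (k : Type v) [CommRing k] (j : A →+* k) (i m : Fin M),
          MvPolynomial.map j g' * pderiv m (X i) -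
            ∑ l, MvPolynomial.map j (C' i l) * pderiv m (MvPolynomial.map j (x' l)) -
            ∑ t, MvPolynomial.map j (H' i t) * pderiv m (MvPolynomial.map j (F' t)) ∈
              Ideal.span (Set.range fun l => MvPolynomial.map j (F' l)) := by
  obtain ⟨A₁, hA₁, hA₁'⟩ := exists_lift_poly (fun s : Fin M × Fin N => C s.1 s.2)
  obtain ⟨A₂, hA₂, hA₂'⟩ := exists_lift_poly (fun s : Fin M × Fin L => H s.1 s.2)
  obtain ⟨q, hq⟩ : ∃ q : Fin M × Fin M → MvPolynomial (Fin M) ℂ, ∀ s, q s =
      g * pderiv s.2 (X s.1) - ∑ l, C s.1 l * pderiv s.2 (x l) -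
        ∑ t, H s.1 t * pderiv s.2 (F t) := ⟨_, fun _ => rfl⟩
  obtain ⟨A₃, hA₃, hA₃'⟩ := framespread_mem.{v} F q fun s => by
    rw [hq s]
    exact hCH s.1 s.2
  refine ⟨A₁ ⊔ A₂ ⊔ A₃, (hA₁.sup hA₂).sup hA₃, fun A hA F' g' x' hF hg hx => ?_⟩
  have l1 : A₁ ≤ A := (le_sup_left.trans le_sup_left).trans hA
  have l2 : A₂ ≤ A := (le_sup_right.trans le_sup_left).trans hA
  have l3 : A₃ ≤ A := le_sup_right.trans hA
  choose C' hC' using fun s : Fin M × Fin N => hA₁' A l1 s
  choose H' hH' using fun s : Fin M × Fin L => hA₂' A l2 s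
  refine ⟨fun i l => C' (i, l), fun i t => H' (i, t), fun k _ j i m => ?_⟩
  have h0 : MvPolynomial.map (algebraMap A ℂ) (g' * pderiv m (X i) -
      ∑ l, C' (i, l) * pderiv m (x' l) - ∑ t, H' (i, t) * pderiv m (F' t)) =
      g * pderiv m (X i) - ∑ l, C i l * pderiv m (x l) - ∑ t, H i t * pderiv m (F t) := by
    rw [map_sub, map_sub, map_sum, map_sum, map_mul, ← pderiv_map, map_X, hg]
    simp only [map_mul, ← pderiv_map, hx, hF, hC', hH']
  have h1 := (hA₃' A l3 (i, m) F' _ hF (h0.trans (hq (i, m)).symm)).2 k j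
  have e : MvPolynomial.map j (g' * pderiv m (X i) - ∑ l, C' (i, l) * pderiv m (x' l) -
      ∑ t, H' (i, t) * pderiv m (F' t)) = MvPolynomial.map j g' * pderiv m (X i) -
      ∑ l, MvPolynomial.map j (C' (i, l)) * pderiv m (MvPolynomial.map j (x' l)) -
      ∑ t, MvPolynomial.map j (H' (i, t)) * pderiv m (MvPolynomial.map j (F' t)) := by
    rw [map_sub, map_sub, map_sum, map_sum, map_mul, ← pderiv_map, map_X]
    simp only [map_mul, pderiv_map]
  rw [e] at h1
  exact h1

/-- T3: generation of differentials spreads out. -/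
theorem frame_spread {M L N : ℕ} (F : Fin L → MvPolynomial (Fin M) ℂ)
    (g : MvPolynomial (Fin M) ℂ) (x : Fin N → MvPolynomial (Fin M) ℂ)
    (h : ∀ i, ∃ c : Fin N → MvPolynomial (Fin M) ℂ ⧸ Ideal.span (Set.range F),
      Ideal.Quotient.mk (Ideal.span (Set.range F)) g • KaehlerDifferential.D ℂ
        (MvPolynomial (Fin M) ℂ ⧸ Ideal.span (Set.range F)) (Ideal.Quotient.mk _ (X i)) =
        ∑ l, c l • KaehlerDifferential.D ℂ (MvPolynomial (Fin M) ℂ ⧸ Ideal.span (Set.range F))
          (Ideal.Quotient.mk _ (x l))) :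
    ∃ A₀ : Subalgebra ℤ ℂ, A₀.FG ∧ ∀ A : Subalgebra ℤ ℂ, A₀ ≤ A →
      ∀ (F' : Fin L → MvPolynomial (Fin M) A) (g' : MvPolynomial (Fin M) A)
        (x' : Fin N → MvPolynomial (Fin M) A),
        (∀ i, MvPolynomial.map (algebraMap A ℂ) (F' i) = F i) →
        MvPolynomial.map (algebraMap A ℂ) g' = g →
        (∀ i, MvPolynomial.map (algebraMap A ℂ) (x' i) = x i) →
        ∀ (k : Type v) [Field k] (j : A →+* k)
          (r : MvPolynomial (Fin M) k ⧸ Ideal.span (Set.range fun l => MvPolynomial.map j (F' l))),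
          ∃ c : Fin N →
            MvPolynomial (Fin M) k ⧸ Ideal.span (Set.range fun l => MvPolynomial.map j (F' l)),
          Ideal.Quotient.mk (Ideal.span (Set.range fun l => MvPolynomial.map j (F' l)))
            (MvPolynomial.map j g') • KaehlerDifferential.D k _ r =
            ∑ l, c l • KaehlerDifferential.D k _ (Ideal.Quotient.mk _ (MvPolynomial.map j (x' l))) := by
  choose c hc using h
  choose C H hCH using fun i => framespread_cert' F g (X i) x (Ideal.span (Set.range F))
    (fun t => Ideal.subset_span ⟨t, rfl⟩)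
    (fun f hf => (Ideal.mem_span_range_iff_exists_fun).mp hf) (c i) (hc i)
  obtain ⟨A₀, h1, h2⟩ := framespread_poly.{v} F g x C H hCH
  refine ⟨A₀, h1, fun A hA F' g' x' hF hg hx k _ j r => ?_⟩
  obtain ⟨C', H', h3⟩ := h2 A hA F' g' x' hF hg hx
  exact framespread_back' (fun l => MvPolynomial.map j (F' l)) (MvPolynomial.map j g')
    (fun l => MvPolynomial.map j (x' l)) (fun i l => MvPolynomial.map j (C' i l))
    (fun i t => MvPolynomial.map j (H' i t))
    (Ideal.span (Set.range fun l => MvPolynomial.map j (F' l)))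
    (fun t => Ideal.subset_span ⟨t, rfl⟩) (h3 k j) r

end Vale.Agent.P292.Mo
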