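import Vale.Agent.P292.Mo.Sp.Dat
import Vale.Agent.P292.Defs

/-! # Spreading out, block LBC: finitely many products of elements of coprime degrees suffice. -/

namespace Vale.Agent.P292.Mo

open MvPolynomial

universe u v w

variable {R : Type u} [CommRing R] [Algebra ℂ R] {𝒜 : ℕ → Submodule ℂ R} [GradedAlgebra 𝒜]
  {P : R →ₗ[ℂ] R →ₗ[ℂ] R}

/-- At a nonvertex point there are homogeneous elements of consecutive degrees. -/
theorem lbcover_exists_coprime (hX : IsContactFano 𝒜 P) (p : R →ₐ[ℂ] ℂ) (hp : ¬ IsVertex 𝒜 p) :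
    ∃ m n : ℕ, m.Coprime n ∧ (∃ r ∈ 𝒜 m, p r ≠ 0) ∧ ∃ r ∈ 𝒜 n, p r ≠ 0 := by
  let S : AddSubmonoid ℕ :=
    { carrier := {n | ∃ r ∈ 𝒜 n, p r ≠ 0}
      zero_mem' := ⟨1, SetLike.one_mem_graded 𝒜, by rw [map_one]; exact one_ne_zero⟩
      add_mem' := by
        rintro m n ⟨r, hr, hr0⟩ ⟨s, hs, hs0⟩
        exact ⟨r * s, SetLike.mul_mem_graded hr hs, by rw [map_mul]; exact mul_ne_zero hr0 hs0⟩ }
  have hS : Nat.setGcd (S : Set ℕ) = 1 := by
    refine hX.lineBundle p hp _ fun k r hr hr0 => ?_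
    exact Nat.setGcd_dvd_of_mem (show k ∈ (S : Set ℕ) from ⟨r, hr, hr0⟩)
  obtain ⟨N, hN⟩ := Nat.exists_mem_closure_of_ge (s := (S : Set ℕ))
  rw [hS, AddSubmonoid.closure_eq] at hN
  refine ⟨N, N + 1, by simp, hN N le_rfl (one_dvd _), hN (N + 1) (Nat.le_succ _) (one_dvd _)⟩

/-- LBC: finitely many products of elements of coprime degrees suffice. -/
theorem lb_cover (hX : IsContactFano 𝒜 P) {M L : ℕ} {D : Dat ℂ M L}
    {ev : MvPolynomial (Fin M) ℂ →ₐ[ℂ] R} (hD : IsPres 𝒜 P D ev) :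
    ∃ (T : ℕ) (a b : Fin T → MvPolynomial (Fin M) ℂ) (da db : Fin T → ℕ),
      (∀ t, IsWeightedHomogeneous D.d (a t) (da t)) ∧
      (∀ t, IsWeightedHomogeneous D.d (b t) (db t)) ∧ (∀ t, (da t).Coprime (db t)) ∧
      ∀ i, ∃ n, (X i : MvPolynomial (Fin M) ℂ) ^ n ∈
        Ideal.span (Set.range (Sum.elim D.F fun t => a t * b t)) := by
  classical
  let S : Set (MvPolynomial (Fin M) ℂ) :=
    {h | ∃ (a b : MvPolynomial (Fin M) ℂ) (da db : ℕ), IsWeightedHomogeneous D.d a da ∧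
      IsWeightedHomogeneous D.d b db ∧ da.Coprime db ∧ h = a * b}
  obtain ⟨s, hsS, hs⟩ := (Submodule.fg_span_iff_fg_span_finset_subset (R := MvPolynomial (Fin M) ℂ)
    S).mp (IsNoetherian.noetherian _)
  have hs' : ∀ t : Fin s.card, ((s.equivFin.symm t : s) : MvPolynomial (Fin M) ℂ) ∈ S := fun t =>
    hsS (s.equivFin.symm t).2
  choose a b da db ha hb hc hab using hs'
  refine ⟨s.card, a, b, da, db, ha, hb, hc, fun i => ?_⟩
  let J := Ideal.span (Set.range (Sum.elim D.F fun t => a t * b t))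
  have hSJ : ∀ h ∈ S, h ∈ J := by
    intro h hh
    have h1 : h ∈ Submodule.span (MvPolynomial (Fin M) ℂ) (s : Set (MvPolynomial (Fin M) ℂ)) := by
      rw [← hs]; exact Submodule.subset_span hh
    refine (Submodule.span_le.mpr ?_ : Submodule.span (MvPolynomial (Fin M) ℂ)
      (s : Set (MvPolynomial (Fin M) ℂ)) ≤ J) h1
    intro x hx
    refine Ideal.subset_span ⟨Sum.inr (s.equivFin ⟨x, hx⟩), ?_⟩
    rw [Sum.elim_inr, ← hab, Equiv.symm_apply_apply]
  have hFJ : ∀ l, D.F l ∈ J := fun l => Ideal.subset_span ⟨Sum.inl l, rfl⟩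
  have hrad : (X i : MvPolynomial (Fin M) ℂ) ∈ J.radical := by
    rw [← vanishingIdeal_zeroLocus_eq_radical (K := ℂ), mem_vanishingIdeal_iff]
    intro x hx
    by_contra hne
    have hx0 : ∀ f ∈ J, aeval x f = 0 := fun f hf => mem_zeroLocus_iff.mp hx f hf
    -- the point of `R`
    have hker : ∀ f, ev f = 0 → aeval (R := ℂ) x f = 0 := by
      intro f hf
      have h1 : f ∈ D.I := (hD.ker f).mp hf
      have h2 : D.I ≤ J := Ideal.span_le.mpr (by rintro _ ⟨l, rfl⟩; exact hFJ l)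
      exact hx0 f (h2 h1)
    let p : R →ₐ[ℂ] ℂ := AlgHom.liftOfSurjective ev hD.surj (aeval x) (by
      intro f hf
      exact hker f hf)
    have hpe : ∀ f, p (ev f) = aeval (R := ℂ) x f := fun f =>
      AlgHom.liftOfSurjective_apply ev hD.surj (aeval x) _ f
    have hv : ¬ IsVertex 𝒜 p := by
      intro hv
      have h1 := hv (D.d i) (hD.ok.pos i) (ev (X i)) (hD.hom i)
      rw [hpe] at h1
      exact hne h1
    obtain ⟨m, n, hmn, ⟨r, hr, hr0⟩, ⟨s', hs', hs0⟩⟩ := lbcover_exists_coprime hX p hv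
    obtain ⟨f, hf, hfr⟩ := hD.lift m r hr
    obtain ⟨g, hg, hgs⟩ := hD.lift n s' hs'
    have h2 : aeval (R := ℂ) x (f * g) = 0 := hx0 _ (hSJ _ ⟨f, g, m, n, hf, hg, hmn, rfl⟩)
    rw [map_mul, ← hpe, ← hpe, hfr, hgs] at h2
    exact (mul_ne_zero hr0 hs0) h2
  exact hrad

end Vale.Agent.P292.Mo
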