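import Mathlib

/-! # Spreading out: smoothness on a basic open subset of a union of smooth basic open subsets. -/

namespace Vale.Agent.P292.Mo

universe u v

/-- S1: smoothness on a basic open subset of a union of smooth basic open subsets. -/
theorem smooth_of_mem_span {k : Type u} [Field k] {R : Type v} [CommRing R] [Algebra k R]
    [Algebra.FiniteType k R] {M : ℕ} (x : Fin M → R)
    (h : ∀ i, Algebra.FormallySmooth k (Localization.Away (x i))) (s : R)
    (hs : s ∈ Ideal.span (Set.range x)) : Algebra.FormallySmooth k (Localization.Away s) := by
  have : Algebra.FinitePresentation k R :=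
    (Algebra.FinitePresentation.of_finiteType (R := k) (A := R)).1 inferInstance
  rw [← Algebra.basicOpen_subset_smoothLocus_iff]
  intro p hp
  by_contra hns
  have h1 : ∀ i, x i ∈ p.asIdeal := by
    intro i
    by_contra hi
    exact hns (Algebra.basicOpen_subset_smoothLocus_iff.2 (h i) hi)
  have h2 : Ideal.span (Set.range x) ≤ p.asIdeal :=
    Ideal.span_le.2 (by rintro _ ⟨i, rfl⟩; exact h1 i)
  exact hp (h2 hs)

end Vale.Agent.P292.Mo
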