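import Vale.Agent.P292.Mo.Sp.Dat
import Vale.Agent.P292.Mo.Sp.Lift

/-! # Spreading out: smoothness of a basic open set spreads out. -/

namespace Vale.Agent.P292.Mo

open MvPolynomial

universe u v w

/-- First order Taylor expansion. -/
theorem smoothspread_taylor {R : Type u} {B : Type v} [CommRing R] [CommRing B] [Algebra R B]
    {M : ℕ} (x δ : Fin M → B) (hδ : ∀ i j, δ i * δ j = 0) (p : MvPolynomial (Fin M) R) :
    aeval (fun i => x i + δ i) p = aeval x p + ∑ i, aeval x (pderiv i p) * δ i := by
  induction p using MvPolynomial.induction_on with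
  | C a => simp
  | add p q hp hq =>
    rw [map_add, map_add, hp, hq]
    have : ∀ i, aeval x (pderiv i (p + q)) * δ i =
        aeval x (pderiv i p) * δ i + aeval x (pderiv i q) * δ i := by
      intro i
      rw [map_add, map_add, add_mul]
    rw [Finset.sum_congr rfl fun i _ => this i, Finset.sum_add_distrib]
    ring
  | mul_X p n hp =>
    have h1 : ∀ i, aeval x (pderiv i (p * X n)) * δ i =
        aeval x (pderiv i p) * δ i * x n + (if i = n then aeval x p * δ i else 0) := by
      intro i
      rw [Derivation.leibniz, pderiv_X, smul_eq_mul, smul_eq_mul, map_add, map_mul, map_mul,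
        aeval_X]
      by_cases hin : i = n
      · subst hin
        simp
        ring
      · rw [Pi.single_eq_of_ne (Ne.symm hin), if_neg hin]
        simp
        ring
    rw [Finset.sum_congr rfl fun i _ => h1 i, Finset.sum_add_distrib, Finset.sum_ite_eq',
      if_pos (Finset.mem_univ _), ← Finset.sum_mul, map_mul, map_mul, hp, aeval_X, aeval_X]
    have h2 : (∑ i, aeval x (pderiv i p) * δ i) * δ n = 0 := by
      rw [Finset.sum_mul]
      exact Finset.sum_eq_zero fun i _ => by rw [mul_assoc, hδ, mul_zero]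
    linear_combination h2

/-- The certificate of smoothness. -/
def smoothspread_Cert {R : Type u} [CommRing R] {M L : ℕ} (F : Fin L → MvPolynomial (Fin M) R)
    (g : MvPolynomial (Fin M) R) (h : Fin M → Fin L → MvPolynomial (Option (Fin M)) R)
    (q : Fin L → Fin L → Fin L → MvPolynomial (Option (Fin M)) R)
    (r : Fin L → MvPolynomial (Option (Fin M)) R) : Prop :=
  ∀ j, rename some (F j) + ∑ i, rename some (pderiv i (F j)) * ∑ l, h i l * rename some (F l) =
    (∑ a, ∑ b, q j a b * (rename some (F a) * rename some (F b))) +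
      r j * (rename some g * X none - 1)

theorem smoothspread_cert_map {R : Type u} {S : Type v} [CommRing R] [CommRing S] {M L : ℕ}
    (f : R →+* S) {F : Fin L → MvPolynomial (Fin M) R}
    {g : MvPolynomial (Fin M) R} {h : Fin M → Fin L → MvPolynomial (Option (Fin M)) R}
    {q : Fin L → Fin L → Fin L → MvPolynomial (Option (Fin M)) R}
    {r : Fin L → MvPolynomial (Option (Fin M)) R} (hc : smoothspread_Cert F g h q r) :
    smoothspread_Cert (fun l => MvPolynomial.map f (F l)) (MvPolynomial.map f g)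
      (fun i l => MvPolynomial.map f (h i l)) (fun j a b => MvPolynomial.map f (q j a b))
      (fun j => MvPolynomial.map f (r j)) := by
  intro j
  have := congrArg (MvPolynomial.map f) (hc j)
  simp only [map_add, map_sum, map_mul, map_sub, map_one, map_X, map_rename] at this
  simp only [pderiv_map]
  exact this

theorem smoothspread_cert_of_map {R : Type u} {S : Type v} [CommRing R] [CommRing S] {M L : ℕ}
    (f : R →+* S) (hf : Function.Injective (MvPolynomial.map (σ := Option (Fin M)) f))
    {F : Fin L → MvPolynomial (Fin M) R}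
    {g : MvPolynomial (Fin M) R} {h : Fin M → Fin L → MvPolynomial (Option (Fin M)) R}
    {q : Fin L → Fin L → Fin L → MvPolynomial (Option (Fin M)) R}
    {r : Fin L → MvPolynomial (Option (Fin M)) R}
    (hc : smoothspread_Cert (fun l => MvPolynomial.map f (F l)) (MvPolynomial.map f g)
      (fun i l => MvPolynomial.map f (h i l)) (fun j a b => MvPolynomial.map f (q j a b))
      (fun j => MvPolynomial.map f (r j))) : smoothspread_Cert F g h q r := by
  intro j
  apply hf
  have := hc j
  simp only [map_add, map_sum, map_mul, map_sub, map_one, map_X, map_rename]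
  simp only [pderiv_map] at this
  exact this

/-- The certificate gives formal smoothness. -/
theorem smoothspread_smooth {R : Type u} [CommRing R] {M L : ℕ}
    {F : Fin L → MvPolynomial (Fin M) R} {g : MvPolynomial (Fin M) R}
    {h : Fin M → Fin L → MvPolynomial (Option (Fin M)) R}
    {q : Fin L → Fin L → Fin L → MvPolynomial (Option (Fin M)) R}
    {r : Fin L → MvPolynomial (Option (Fin M)) R} (hc : smoothspread_Cert F g h q r) :
    Algebra.FormallySmooth R
      (Localization.Away (Ideal.Quotient.mk (Ideal.span (Set.range F)) g)) := by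
  refine Algebra.FormallySmooth.of_comp_surjective fun B _ _ J hJ f => ?_
  have hJ2 : ∀ x ∈ J, ∀ y ∈ J, x * y = 0 := by
    intro x hx y hy
    have : x * y ∈ J ^ 2 := by
      rw [pow_two]
      exact Ideal.mul_mem_mul hx hy
    rwa [hJ, Ideal.mem_bot] at this
  -- the images of the variables
  obtain ⟨φ, hφ⟩ : ∃ φ : MvPolynomial (Fin M) R →ₐ[R] B ⧸ J, ∀ p, φ p =
      f (algebraMap _ _ (Ideal.Quotient.mk (Ideal.span (Set.range F)) p)) :=
    ⟨(f.comp (Algebra.algHom R (MvPolynomial (Fin M) R ⧸ Ideal.span (Set.range F)) _)).comp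
      (Ideal.Quotient.mkₐ R _), fun p => rfl⟩
  have hφF : ∀ l, φ (F l) = 0 := by
    intro l
    rw [hφ, Ideal.Quotient.eq_zero_iff_mem.mpr (Ideal.subset_span (Set.mem_range_self l)), map_zero,
      map_zero]
  have hφg : IsUnit (φ g) := by
    rw [hφ]
    exact (IsLocalization.Away.algebraMap_isUnit
      (Ideal.Quotient.mk (Ideal.span (Set.range F)) g)).map f
  choose b hb using fun i => Ideal.Quotient.mk_surjective (φ (X i))
  have hb' : ∀ p : MvPolynomial (Fin M) R, Ideal.Quotient.mk J (aeval b p) = φ p := by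
    intro p
    have : (Ideal.Quotient.mkₐ R J).comp (aeval b) = φ := by
      apply MvPolynomial.algHom_ext
      intro i
      rw [AlgHom.comp_apply, aeval_X]
      exact hb i
    rw [← this]
    rfl
  have hFJ : ∀ l, aeval b (F l) ∈ J := by
    intro l
    rw [← Ideal.Quotient.eq_zero_iff_mem, hb', hφF]
  obtain ⟨t, ht⟩ : ∃ t, aeval b g * t = 1 := by
    obtain ⟨c, hc⟩ := hφg.exists_right_inv
    obtain ⟨c', rfl⟩ := Ideal.Quotient.mk_surjective c
    have h1 : aeval b g * c' - 1 ∈ J := by
      rw [← Ideal.Quotient.eq_zero_iff_mem, map_sub, map_mul, hb', hc, map_one, sub_self]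
    have h2 := hJ2 _ h1 _ h1
    refine ⟨c' * (2 - aeval b g * c'), ?_⟩
    linear_combination -h2
  -- the evaluation at `(b, t)`
  set e : MvPolynomial (Option (Fin M)) R →ₐ[R] B := aeval (fun o => Option.elim o t b) with he
  have her : ∀ p : MvPolynomial (Fin M) R, e (rename some p) = aeval b p := by
    intro p
    rw [he, aeval_rename]
    rfl
  have heT : e (X none) = t := by
    rw [he, aeval_X]
    rfl
  set δ : Fin M → B := fun i => ∑ l, e (h i l) * aeval b (F l) with hδ
  have hδJ : ∀ i, δ i ∈ J := fun i => sum_mem fun l _ => Ideal.mul_mem_left _ _ (hFJ l)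
  have hδ2 : ∀ i j, δ i * δ j = 0 := fun i j => hJ2 _ (hδJ i) _ (hδJ j)
  have hF0 : ∀ j, aeval (fun i => b i + δ i) (F j) = 0 := by
    intro j
    rw [smoothspread_taylor b δ hδ2]
    have h1 := congrArg e (hc j)
    simp only [map_add, map_sum, map_mul, map_sub, map_one, her, heT] at h1
    rw [ht, sub_self, mul_zero, add_zero] at h1
    rw [hδ]
    refine h1.trans ?_
    refine Finset.sum_eq_zero fun a _ => Finset.sum_eq_zero fun c _ => ?_
    rw [hJ2 _ (hFJ a) _ (hFJ c), mul_zero]
  -- the lift on the quotient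
  obtain ⟨ψ, hψ⟩ : ∃ ψ : (MvPolynomial (Fin M) R ⧸ Ideal.span (Set.range F)) →ₐ[R] B,
      ∀ p, ψ (Ideal.Quotient.mk _ p) = aeval (fun i => b i + δ i) p := by
    refine ⟨Ideal.Quotient.liftₐ _ (aeval (fun i => b i + δ i)) ?_, fun p => rfl⟩
    intro a ha
    have : Ideal.span (Set.range F) ≤ RingHom.ker (aeval (R := R) (fun i => b i + δ i)) := by
      rw [Ideal.span_le]
      rintro _ ⟨l, rfl⟩
      exact hF0 l
    exact this ha
  have hψφ : ∀ p, Ideal.Quotient.mk J (ψ (Ideal.Quotient.mk _ p)) = φ p := by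
    intro p
    rw [hψ]
    have : (Ideal.Quotient.mkₐ R J).comp (aeval (fun i => b i + δ i)) = φ := by
      apply MvPolynomial.algHom_ext
      intro i
      rw [AlgHom.comp_apply, aeval_X, map_add]
      rw [Ideal.Quotient.mkₐ_eq_mk, Ideal.Quotient.eq_zero_iff_mem.mpr (hδJ i), add_zero]
      exact hb i
    rw [← this]
    rfl
  have hψg : IsUnit (ψ (Ideal.Quotient.mk _ g)) := by
    obtain ⟨c, hc⟩ := hφg.exists_right_inv
    obtain ⟨c', rfl⟩ := Ideal.Quotient.mk_surjective c
    have h1 : ψ (Ideal.Quotient.mk _ g) * c' - 1 ∈ J := by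
      rw [← Ideal.Quotient.eq_zero_iff_mem, map_sub, map_mul, hψφ, hc, map_one, sub_self]
    have h2 := hJ2 _ h1 _ h1
    refine IsUnit.of_mul_eq_one (c' * (2 - ψ (Ideal.Quotient.mk _ g) * c')) ?_
    linear_combination -h2
  refine ⟨IsLocalization.Away.liftAlgHom (Ideal.Quotient.mk (Ideal.span (Set.range F)) g)
    hψg, ?_⟩
  apply Localization.algHom_ext
  apply Ideal.Quotient.algHom_ext
  apply MvPolynomial.algHom_ext
  intro i
  have h1 := hψφ (X i)
  rw [hφ] at h1
  refine Eq.trans ?_ h1
  change Ideal.Quotient.mk J ((IsLocalization.Away.liftAlgHom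
    (Ideal.Quotient.mk (Ideal.span (Set.range F)) g) hψg)
      (algebraMap _ _ (Ideal.Quotient.mk _ (X i)))) = _
  rw [IsLocalization.Away.liftAlgHom_apply, IsLocalization.Away.lift_eq]
  rfl

/-- Formal smoothness gives the certificate. -/
theorem smoothspread_exists_cert {R : Type u} [CommRing R] {M L : ℕ}
    (F : Fin L → MvPolynomial (Fin M) R) (g : MvPolynomial (Fin M) R)
    (hs : Algebra.FormallySmooth R
      (Localization.Away (Ideal.Quotient.mk (Ideal.span (Set.range F)) g))) :
    ∃ (h : Fin M → Fin L → MvPolynomial (Option (Fin M)) R)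
      (q : Fin L → Fin L → Fin L → MvPolynomial (Option (Fin M)) R)
      (r : Fin L → MvPolynomial (Option (Fin M)) R), smoothspread_Cert F g h q r := by
  classical
  set I₁ : Ideal (MvPolynomial (Option (Fin M)) R) :=
    Ideal.span (Set.range fun l => rename some (F l)) with hI₁
  set w : MvPolynomial (Option (Fin M)) R := rename some g * X none - 1 with hw
  set I : Ideal (MvPolynomial (Option (Fin M)) R) := I₁ ⊔ Ideal.span {w} with hI
  have hFI : ∀ l, rename some (F l) ∈ I := fun l =>
    Ideal.mem_sup_left (Ideal.subset_span (Set.mem_range_self l))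
  have hwI : w ∈ I := Ideal.mem_sup_right (Ideal.mem_span_singleton_self w)
  have hle : I ^ 2 ≤ I := Ideal.pow_le_self two_ne_zero
  let fac : (MvPolynomial (Option (Fin M)) R ⧸ I ^ 2) →ₐ[R] (MvPolynomial (Option (Fin M)) R ⧸ I) :=
    Ideal.Quotient.factorₐ R hle
  have hfac : Function.Surjective fac := by
    intro x
    obtain ⟨y, rfl⟩ := Ideal.Quotient.mk_surjective x
    exact ⟨Ideal.Quotient.mk _ y, rfl⟩
  have hker : ∀ y, fac (Ideal.Quotient.mk _ y) = 0 ↔ y ∈ I := by
    intro y
    rw [← Ideal.Quotient.eq_zero_iff_mem]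
    rfl
  have hnil : IsNilpotent (RingHom.ker fac) := by
    refine ⟨2, ?_⟩
    rw [Ideal.zero_eq_bot, eq_bot_iff, pow_two (RingHom.ker fac), Ideal.mul_le]
    intro x hx y hy
    obtain ⟨x, rfl⟩ := Ideal.Quotient.mk_surjective x
    obtain ⟨y, rfl⟩ := Ideal.Quotient.mk_surjective y
    have hx' : x ∈ I := (hker x).mp hx
    have hy' : y ∈ I := (hker y).mp hy
    rw [Ideal.mem_bot, ← map_mul, Ideal.Quotient.eq_zero_iff_mem, pow_two]
    exact Ideal.mul_mem_mul hx' hy'
  -- the map to the quotient by `I`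
  obtain ⟨f0, hf0⟩ : ∃ f0 : (MvPolynomial (Fin M) R ⧸ Ideal.span (Set.range F)) →ₐ[R]
      (MvPolynomial (Option (Fin M)) R ⧸ I),
      ∀ p, f0 (Ideal.Quotient.mk _ p) = Ideal.Quotient.mk I (rename some p) := by
    refine ⟨Ideal.Quotient.liftₐ _ ((Ideal.Quotient.mkₐ R I).comp (rename some)) ?_, fun p => rfl⟩
    intro a ha
    have : Ideal.span (Set.range F) ≤
        RingHom.ker ((Ideal.Quotient.mkₐ R I).comp (rename (R := R) some)) := by
      rw [Ideal.span_le]
      rintro _ ⟨l, rfl⟩
      exact Ideal.Quotient.eq_zero_iff_mem.mpr (hFI l)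
    exact this ha
  have hunit : IsUnit (f0 (Ideal.Quotient.mk _ g)) := by
    refine IsUnit.of_mul_eq_one (Ideal.Quotient.mk I (X none)) ?_
    rw [hf0, ← map_mul, ← sub_eq_zero, ← map_one (Ideal.Quotient.mk I), ← map_sub,
      Ideal.Quotient.eq_zero_iff_mem]
    exact hwI
  let f : Localization.Away (Ideal.Quotient.mk (Ideal.span (Set.range F)) g) →ₐ[R]
      (MvPolynomial (Option (Fin M)) R ⧸ I) :=
    IsLocalization.Away.liftAlgHom (Ideal.Quotient.mk (Ideal.span (Set.range F)) g) hunit
  have hf : ∀ p, f (algebraMap _ _ (Ideal.Quotient.mk (Ideal.span (Set.range F)) p)) =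
      Ideal.Quotient.mk I (rename some p) := by
    intro p
    rw [← hf0]
    exact IsLocalization.Away.lift_eq _ hunit _
  obtain ⟨s, hs'⟩ : ∃ s : Localization.Away (Ideal.Quotient.mk (Ideal.span (Set.range F)) g) →ₐ[R]
      (MvPolynomial (Option (Fin M)) R ⧸ I ^ 2), ∀ x, fac (s x) = f x :=
    ⟨Algebra.FormallySmooth.liftOfSurjective f fac hfac hnil,
      Algebra.FormallySmooth.liftOfSurjective_apply f fac hfac hnil⟩
  obtain ⟨φ, hφ⟩ : ∃ φ : MvPolynomial (Fin M) R →ₐ[R] (MvPolynomial (Option (Fin M)) R ⧸ I ^ 2),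
      ∀ p, φ p = s (algebraMap _ _ (Ideal.Quotient.mk (Ideal.span (Set.range F)) p)) :=
    ⟨(s.comp (Algebra.algHom R (MvPolynomial (Fin M) R ⧸ Ideal.span (Set.range F)) _)).comp
      (Ideal.Quotient.mkₐ R _), fun p => rfl⟩
  have hφF : ∀ l, φ (F l) = 0 := by
    intro l
    rw [hφ, Ideal.Quotient.eq_zero_iff_mem.mpr (Ideal.subset_span (Set.mem_range_self l)), map_zero,
      map_zero]
  choose y hy using fun i => Ideal.Quotient.mk_surjective (φ (X i))
  have hyI : ∀ i, y i - X (some i) ∈ I := by
    intro i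
    rw [← hker, map_sub, map_sub, hy, hφ, hs', hf, rename_X]
    exact sub_self _
  -- decompose the corrections
  have hdec : ∀ i, ∃ (a : Fin L → MvPolynomial (Option (Fin M)) R)
      (c : MvPolynomial (Option (Fin M)) R),
      y i - X (some i) = (∑ l, a l * rename some (F l)) + c * w := by
    intro i
    obtain ⟨u, hu, v, hv, huv⟩ := Submodule.mem_sup.mp (hyI i)
    obtain ⟨a, ha⟩ := Ideal.mem_span_range_iff_exists_fun.mp hu
    obtain ⟨c, hc⟩ := Ideal.mem_span_singleton'.mp hv
    exact ⟨a, c, by rw [ha, hc, huv]⟩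
  choose h c hhc using hdec
  -- the Taylor expansion
  have htay : ∀ j, rename some (F j) + ∑ i, rename some (pderiv i (F j)) * (y i - X (some i)) ∈
      I ^ 2 := by
    intro j
    have h1 := smoothspread_taylor (R := R)
      (fun i => Ideal.Quotient.mk (I ^ 2) (X (some i)))
      (fun i => Ideal.Quotient.mk (I ^ 2) (y i - X (some i))) (by
        intro i i'
        rw [← map_mul, Ideal.Quotient.eq_zero_iff_mem, pow_two]
        exact Ideal.mul_mem_mul (hyI i) (hyI i')) (F j)
    have h2 : aeval (fun i => Ideal.Quotient.mk (I ^ 2) (X (some i)) +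
        Ideal.Quotient.mk (I ^ 2) (y i - X (some i))) = φ := by
      apply MvPolynomial.algHom_ext
      intro i
      rw [aeval_X, ← map_add, add_sub_cancel, hy]
    have h3 : ∀ p : MvPolynomial (Fin M) R,
        aeval (fun i => Ideal.Quotient.mk (I ^ 2) (X (some i))) p =
          Ideal.Quotient.mk (I ^ 2) (rename some p) := by
      intro p
      have : aeval (fun i => Ideal.Quotient.mk (I ^ 2) (X (some i))) =
          (Ideal.Quotient.mkₐ R (I ^ 2)).comp (rename some) := by
        apply MvPolynomial.algHom_ext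
        intro i
        rw [aeval_X, AlgHom.comp_apply, rename_X]
        rfl
      rw [this]
      rfl
    rw [h2, hφF] at h1
    simp only [h3] at h1
    rw [← Ideal.Quotient.eq_zero_iff_mem, map_add, map_sum, h1]
    simp only [map_mul]
  -- the square of the ideal
  have hsq : I ^ 2 ≤ Ideal.span (Set.range fun ab : Fin L × Fin L =>
      rename some (F ab.1) * rename some (F ab.2)) ⊔ Ideal.span {w} := by
    rw [pow_two, hI, Ideal.sup_mul, Ideal.mul_sup]
    refine sup_le (sup_le ?_ ?_) ?_
    · refine le_sup_of_le_left ?_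
      rw [hI₁, Ideal.span_mul_span', Ideal.span_le]
      rintro _ ⟨_, ⟨a, rfl⟩, _, ⟨b, rfl⟩, rfl⟩
      exact Ideal.subset_span ⟨(a, b), rfl⟩
    · exact le_sup_of_le_right Ideal.mul_le_right
    · exact le_sup_of_le_right Ideal.mul_le_left
  have hfin : ∀ j, ∃ (q : Fin L × Fin L → MvPolynomial (Option (Fin M)) R)
      (r : MvPolynomial (Option (Fin M)) R),
      rename some (F j) + ∑ i, rename some (pderiv i (F j)) * (y i - X (some i)) =
        (∑ ab : Fin L × Fin L, q ab * (rename some (F ab.1) * rename some (F ab.2))) + r * w := by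
    intro j
    obtain ⟨u, hu, v, hv, huv⟩ := Submodule.mem_sup.mp (hsq (htay j))
    obtain ⟨a, ha⟩ := Ideal.mem_span_range_iff_exists_fun.mp hu
    obtain ⟨c, hc⟩ := Ideal.mem_span_singleton'.mp hv
    exact ⟨a, c, by rw [ha, hc, huv]⟩
  choose q r hqr using hfin
  refine ⟨h, fun j a b => q j (a, b),
    fun j => r j - ∑ i, rename some (pderiv i (F j)) * c i, fun j => ?_⟩
  have h1 := hqr j
  rw [Fintype.sum_prod_type] at h1
  have h2 : ∑ i, rename some (pderiv i (F j)) * (y i - X (some i)) =
      (∑ i, rename some (pderiv i (F j)) * ∑ l, h i l * rename some (F l)) +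
        (∑ i, rename some (pderiv i (F j)) * c i) * w := by
    rw [Finset.sum_mul, ← Finset.sum_add_distrib]
    refine Finset.sum_congr rfl fun i _ => ?_
    rw [hhc]
    ring
  rw [h2] at h1
  rw [← hw]
  linear_combination h1

/-- T2: smoothness of a basic open set spreads out. -/
theorem smooth_spread {M L : ℕ} (F : Fin L → MvPolynomial (Fin M) ℂ) (g : MvPolynomial (Fin M) ℂ)
    (h : Algebra.FormallySmooth ℂ
      (Localization.Away (Ideal.Quotient.mk (Ideal.span (Set.range F)) g))) :
    ∃ A₀ : Subalgebra ℤ ℂ, A₀.FG ∧ ∀ A : Subalgebra ℤ ℂ, A₀ ≤ A →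
      ∀ (F' : Fin L → MvPolynomial (Fin M) A) (g' : MvPolynomial (Fin M) A),
        (∀ i, MvPolynomial.map (algebraMap A ℂ) (F' i) = F i) →
        MvPolynomial.map (algebraMap A ℂ) g' = g →
        ∀ (k : Type v) [Field k] (j : A →+* k), Algebra.FormallySmooth k
          (Localization.Away (Ideal.Quotient.mk
            (Ideal.span (Set.range fun l => MvPolynomial.map j (F' l))) (MvPolynomial.map j g'))) := by
  classical
  obtain ⟨h, q, r, hc⟩ := smoothspread_exists_cert F g h
  obtain ⟨A₀, hA₀, hlift⟩ := exists_lift_poly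
    (Sum.elim (fun il : Fin M × Fin L => h il.1 il.2)
      (Sum.elim (fun jab : Fin L × Fin L × Fin L => q jab.1 jab.2.1 jab.2.2) r))
  refine ⟨A₀, hA₀, fun A hA F' g' hF' hg' k _ j => ?_⟩
  choose P hP using hlift A hA
  refine smoothspread_smooth (smoothspread_cert_map j (F := F') (g := g')
    (h := fun i l => P (Sum.inl (i, l))) (q := fun j a b => P (Sum.inr (Sum.inl (j, a, b))))
    (r := fun j => P (Sum.inr (Sum.inr j))) ?_)
  refine smoothspread_cert_of_map (algebraMap A ℂ) (map_algebraMap_injective A) ?_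
  simp only [hF', hg', hP, Sum.elim_inl, Sum.elim_inr]
  exact hc

end Vale.Agent.P292.Mo
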