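import Vale.Agent.P292.Mo.Sp.Dat
import Vale.Agent.P292.K.A1

/-! # S0: contact Fano cones are smooth outside the vertex. -/

namespace Vale.Agent.P292.Mo

open MvPolynomial

universe u v w

section taylor

variable {k : Type u} [CommRing k] {M : ℕ}

/-- Taylor expansion along a square zero ideal. -/
theorem sm0_taylor {B : Type v} [CommRing B] [Algebra k B] {K : Ideal B} (hK : K ^ 2 = ⊥)
    (b δ : Fin M → B) (hδ : ∀ m, δ m ∈ K) (F : MvPolynomial (Fin M) k) :
    aeval (b + δ) F = aeval b F + ∑ m, aeval b (pderiv m F) * δ m := by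
  have hz : ∀ x ∈ K, ∀ y ∈ K, x * y = 0 := fun x hx y hy => by
    have h1 : x * y ∈ K ^ 2 := by rw [sq]; exact Ideal.mul_mem_mul hx hy
    rwa [hK] at h1
  induction F using MvPolynomial.induction_on with
  | C a => simp
  | add p q hp hq =>
    simp only [map_add, hp, hq, add_mul, Finset.sum_add_distrib]
    ring
  | mul_X p i hp =>
    have h1 : (∑ m, aeval b (pderiv m p) * δ m) * δ i = 0 := by
      rw [Finset.sum_mul]
      refine Finset.sum_eq_zero fun m _ => ?_
      rw [mul_assoc, hz _ (hδ m) _ (hδ i), mul_zero]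
    have h2 : (∑ m, aeval b (pderiv m (p * X i)) * δ m) =
        (∑ m, aeval b (pderiv m p) * δ m) * b i + aeval b p * δ i := by
      have h3 : ∀ m, aeval b (pderiv m (p * X i)) * δ m =
          aeval b (pderiv m p) * δ m * b i + (if m = i then aeval b p * δ i else 0) := by
        intro m
        rw [pderiv_mul, map_add, map_mul, map_mul, aeval_X]
        by_cases hm : m = i
        · subst hm
          rw [pderiv_X_self, if_pos rfl, map_one]
          ring
        · rw [pderiv_X_of_ne (Ne.symm hm), if_neg hm, map_zero]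
          ring
      rw [Finset.sum_congr rfl fun m _ => h3 m, Finset.sum_add_distrib, ← Finset.sum_mul,
        Finset.sum_ite_eq' Finset.univ i, if_pos (Finset.mem_univ i)]
    rw [map_mul, map_mul, aeval_X, aeval_X, hp, h2, Pi.add_apply]
    linear_combination h1

end taylor

section lift

variable {k : Type u} [Field k] {M : ℕ} {R : Type v} [CommRing R] [Algebra k R]

/-- The Jacobian matrix. -/
noncomputable def smz_jacM (y : Fin M → MvPolynomial (Fin M) k) :
    Matrix (Fin M) (Fin M) (MvPolynomial (Fin M) k) :=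
  Matrix.of fun l m => pderiv m (y l)

theorem smz_exists_factor {A : Type*} [CommRing A] [Algebra k A] {B : Type*} [CommRing B] [Algebra k B]
    (ev : A →ₐ[k] R) (hev : Function.Surjective ev) (g : A →ₐ[k] B)
    (h : ∀ a, ev a = 0 → g a = 0) : ∃ ψ : R →ₐ[k] B, ∀ a, ψ (ev a) = g a := by
  refine ⟨(Ideal.Quotient.liftₐ (RingHom.ker ev) g h).comp
    (Ideal.quotientKerAlgEquivOfSurjective hev).symm.toAlgHom, fun a => ?_⟩
  have h1 : (Ideal.quotientKerAlgEquivOfSurjective hev).symm (ev a) =
      Ideal.Quotient.mk (RingHom.ker ev) a := by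
    rw [AlgEquiv.symm_apply_eq]
    rfl
  change Ideal.Quotient.liftₐ (RingHom.ker ev) g h
    ((Ideal.quotientKerAlgEquivOfSurjective hev).symm (ev a)) = _
  rw [h1]
  rfl

/-- A complete intersection with invertible Jacobian is smooth. -/
theorem sm0_formallySmooth (ev : MvPolynomial (Fin M) k →ₐ[k] R) (hev : Function.Surjective ev)
    (y : Fin M → MvPolynomial (Fin M) k) (T : Set (Fin M)) (hT : ∀ l ∈ T, ev (y l) = 0)
    (h : MvPolynomial (Fin M) k) (hh : ∀ F, ev F = 0 → h * F ∈ Ideal.span (y '' T)) :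
    Algebra.FormallySmooth k (Localization.Away (ev (h * (smz_jacM y).det))) := by
  classical
  set s := ev (h * (smz_jacM y).det) with hs
  refine Algebra.FormallySmooth.of_comp_surjective fun B _ _ K hK => ?_
  intro u
  have hz : ∀ x ∈ K, ∀ y ∈ K, x * y = 0 := fun x hx y hy => by
    have h1 : x * y ∈ K ^ 2 := by rw [sq]; exact Ideal.mul_mem_mul hx hy
    rwa [hK] at h1
  have hnil : ∀ x : B, IsUnit (Ideal.Quotient.mk K x) → IsUnit x := by
    intro x hx
    obtain ⟨y, hy⟩ := hx.exists_right_inv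
    obtain ⟨y, rfl⟩ := Ideal.Quotient.mk_surjective y
    have h1 : x * y - 1 ∈ K := by
      rw [← Ideal.Quotient.eq_zero_iff_mem, map_sub, map_mul, hy, map_one, sub_self]
    have h2 : x * (y * (2 - x * y)) = 1 := by
      have := hz _ h1 _ h1
      linear_combination -this
    exact IsUnit.of_mul_eq_one _ h2
  -- the composition
  let A := Localization.Away s
  let π : R →ₐ[k] A := IsScalarTower.toAlgHom k R A
  choose b hb using fun m => Ideal.Quotient.mk_surjective (u (π (ev (X m))))
  have hφ : ∀ F, Ideal.Quotient.mk K (aeval b F) = u (π (ev F)) := by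
    intro F
    have h1 : (Ideal.Quotient.mkₐ k K).comp (aeval b) = (u.comp π).comp ev := by
      apply MvPolynomial.algHom_ext
      intro m
      simp only [AlgHom.comp_apply, aeval_X]
      exact hb m
    exact congrArg (fun f => f F) h1
  have hunit : IsUnit (π s) := IsLocalization.Away.algebraMap_isUnit s
  have hu1 : IsUnit (aeval b (h * (smz_jacM y).det)) := by
    apply hnil
    rw [hφ]
    exact hunit.map u
  rw [map_mul] at hu1
  have hu2 : IsUnit (aeval b (smz_jacM y).det) := isUnit_of_mul_isUnit_right hu1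
  have hu3 : IsUnit (aeval b h) := isUnit_of_mul_isUnit_left hu1
  obtain ⟨c, hc⟩ := hu2.exists_right_inv
  let Jb : Matrix (Fin M) (Fin M) B := (smz_jacM y).map (aeval b)
  have hJ : Jb.det = aeval b (smz_jacM y).det := by
    rw [AlgHom.map_det]; rfl
  let κ : Fin M → B := fun l => if l ∈ T then aeval b (y l) else 0
  have hκ : ∀ l, κ l ∈ K := by
    intro l
    simp only [κ]
    split_ifs with hl
    · rw [← Ideal.Quotient.eq_zero_iff_mem, hφ, hT l hl, map_zero, map_zero]
    · exact zero_mem _
  let δ : Fin M → B := fun m => - (c * (Jb.adjugate.mulVec κ) m)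
  have hδ : ∀ m, δ m ∈ K := by
    intro m
    refine neg_mem (Ideal.mul_mem_left _ _ ?_)
    rw [Matrix.mulVec, dotProduct]
    exact sum_mem fun l _ => Ideal.mul_mem_left _ _ (hκ l)
  have hδ2 : ∀ l, ∑ m, aeval b (pderiv m (y l)) * δ m = - κ l := by
    intro l
    have h1 : ∑ m, aeval b (pderiv m (y l)) * δ m =
        - (c * (Jb.mulVec (Jb.adjugate.mulVec κ)) l) := by
      rw [Matrix.mulVec, dotProduct, Finset.mul_sum, ← Finset.sum_neg_distrib]
      refine Finset.sum_congr rfl fun m _ => ?_
      simp only [δ, Jb, smz_jacM, Matrix.map_apply, Matrix.of_apply]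
      ring
    rw [h1, Matrix.mulVec_mulVec, Matrix.mul_adjugate, Matrix.smul_mulVec, Matrix.one_mulVec,
      Pi.smul_apply, smul_eq_mul, hJ]
    linear_combination - κ l * hc
  have hy0 : ∀ l ∈ T, aeval (b + δ) (y l) = 0 := by
    intro l hl
    rw [sm0_taylor hK b δ hδ, hδ2]
    simp only [κ, if_pos hl]
    ring
  have hsp : ∀ F ∈ Ideal.span (y '' T), aeval (b + δ) F = 0 := by
    intro F hF
    have h1 : Ideal.span (y '' T) ≤ RingHom.ker (aeval (b + δ) : MvPolynomial (Fin M) k →ₐ[k] B) := by
      rw [Ideal.span_le]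
      rintro _ ⟨l, hl, rfl⟩
      exact hy0 l hl
    exact h1 hF
  have hbK : ∀ F : MvPolynomial (Fin M) k, Ideal.Quotient.mk K (aeval (b + δ) F) = Ideal.Quotient.mk K (aeval b F) := by
    intro F
    rw [sm0_taylor hK b δ hδ, map_add, Ideal.Quotient.eq_zero_iff_mem.mpr
      (sum_mem fun m _ => Ideal.mul_mem_left _ _ (hδ m)), add_zero]
  have hh3 : IsUnit (aeval (b + δ) h) := by
    apply hnil
    rw [hbK]
    exact hu3.map _
  have hker : ∀ F, ev F = 0 → aeval (b + δ) F = 0 := by
    intro F hF
    have h1 := hsp _ (hh F hF)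
    rw [map_mul] at h1
    exact (hh3.mul_right_eq_zero).mp h1
  obtain ⟨ψ, hψ⟩ := smz_exists_factor ev hev
    (aeval (b + δ) : MvPolynomial (Fin M) k →ₐ[k] B) hker
  have hψs : IsUnit (ψ s) := by
    rw [hs, hψ, map_mul]
    refine hh3.mul (hnil _ ?_)
    rw [hbK]
    exact hu2.map _
  let Ψ : A →ₐ[k] B := IsLocalization.liftAlgHom (M := Submonoid.powers s) (f := ψ) (by
    rintro ⟨_, n, rfl⟩
    simp only [map_pow]
    exact hψs.pow n)
  have hΨ : ∀ r, Ψ (π r) = ψ r := fun r => IsLocalization.lift_eq _ _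
  refine ⟨Ψ, ?_⟩
  have h5 : ∀ r, (Ideal.Quotient.mkₐ k K).comp Ψ (π r) = u (π r) := by
    intro r
    obtain ⟨F, rfl⟩ := hev r
    rw [AlgHom.comp_apply, hΨ, hψ, ← hφ, ← hbK]
    rfl
  apply AlgHom.coe_ringHom_injective
  apply IsLocalization.ringHom_ext (Submonoid.powers s)
  ext r
  exact h5 r

end lift

section core

variable {M : ℕ} (a : Fin M → ℂ)

/-- First order Taylor formula at a point. -/
theorem sm0_taylor_point (F : MvPolynomial (Fin M) ℂ) :
    F - C (eval a F) - ∑ n, C (eval a (pderiv n F)) * (X n - C (a n)) ∈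
      (RingHom.ker (eval a)) ^ 2 := by
  induction F using MvPolynomial.induction_on with
  | C c => simp
  | add p q hp hq =>
    have h1 := add_mem hp hq
    convert h1 using 1
    simp only [map_add, add_mul, Finset.sum_add_distrib]
    ring
  | mul_X p i hp =>
    have h1 : ∑ n, C (eval a (pderiv n (p * X i))) * (X n - C (a n)) =
        C (a i) * ∑ n, C (eval a (pderiv n p)) * (X n - C (a n)) +
          C (eval a p) * (X i - C (a i)) := by
      have h3 : ∀ n, C (eval a (pderiv n (p * X i))) * (X n - C (a n)) =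
          C (a i) * (C (eval a (pderiv n p)) * (X n - C (a n))) +
            (if n = i then C (eval a p) * (X i - C (a i)) else 0) := by
        intro n
        rw [pderiv_mul, map_add, map_mul, map_mul, eval_X]
        by_cases hn : n = i
        · subst hn
          rw [pderiv_X_self, if_pos rfl, map_one]
          simp only [map_add, map_mul, mul_one]
          ring
        · rw [pderiv_X_of_ne (Ne.symm hn), if_neg hn, map_zero]
          simp only [map_add, map_mul, map_zero, mul_zero]
          ring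
      rw [Finset.sum_congr rfl fun n _ => h3 n, Finset.sum_add_distrib, ← Finset.mul_sum,
        Finset.sum_ite_eq' Finset.univ i, if_pos (Finset.mem_univ i)]
    have hX : ∀ n, (X n - C (a n) : MvPolynomial (Fin M) ℂ) ∈ RingHom.ker (eval a) := by
      intro n
      rw [RingHom.mem_ker, map_sub, eval_X, eval_C, sub_self]
    have h2 : (∑ n, C (eval a (pderiv n p)) * (X n - C (a n))) * (X i - C (a i)) ∈
        (RingHom.ker (eval a)) ^ 2 := by
      rw [sq]
      exact Ideal.mul_mem_mul (sum_mem fun n _ => Ideal.mul_mem_left _ _ (hX n)) (hX i)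
    have h4 := add_mem (Ideal.mul_mem_right (X i) _ hp) h2
    convert h4 using 1
    rw [h1, map_mul, eval_X, map_mul]
    ring

variable (y : Fin M → MvPolynomial (Fin M) ℂ) (T : Set (Fin M))

/-- the coefficient of the Euler type derivation -/
noncomputable def smCo (l : Fin M) : MvPolynomial (Fin M) ℂ :=
  open Classical in if l ∈ T then 0 else y l - C (eval a (y l))

theorem smz_der_sum_apply {ι : Type*} (s : Finset ι)
    (D : ι → Derivation ℂ (MvPolynomial (Fin M) ℂ) (MvPolynomial (Fin M) ℂ))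
    (F : MvPolynomial (Fin M) ℂ) : (∑ i ∈ s, D i) F = ∑ i ∈ s, D i F := by
  classical
  induction s using Finset.induction_on with
  | empty => simp
  | insert a s ha ih =>
    rw [Finset.sum_insert ha, Finset.sum_insert ha, Derivation.add_apply, ih]

/-- the derivations dual to the family `y` -/
noncomputable def smDual (l : Fin M) :
    Derivation ℂ (MvPolynomial (Fin M) ℂ) (MvPolynomial (Fin M) ℂ) :=
  ∑ m, (smz_jacM y).adjugate m l • pderiv m

theorem smDual_apply (l : Fin M) (F : MvPolynomial (Fin M) ℂ) :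
    smDual y l F = ∑ m, (smz_jacM y).adjugate m l * pderiv m F := by
  rw [smDual, smz_der_sum_apply]
  rfl

theorem smDual_self (l j : Fin M) : smDual y j (y l) = if l = j then (smz_jacM y).det else 0 := by
  rw [smDual_apply]
  have h1 : ∑ m, (smz_jacM y).adjugate m j * pderiv m (y l) = ((smz_jacM y) * (smz_jacM y).adjugate) l j := by
    rw [Matrix.mul_apply]
    exact Finset.sum_congr rfl fun m _ => by rw [smz_jacM, Matrix.of_apply]; ring
  rw [h1, Matrix.mul_adjugate, Matrix.smul_apply, Matrix.one_apply]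
  split_ifs <;> simp

/-- Cramer's rule. -/
theorem smDual_cramer (F : MvPolynomial (Fin M) ℂ) (n : Fin M) :
    (smz_jacM y).det * pderiv n F = ∑ l, smDual y l F * pderiv n (y l) := by
  have h1 : ∑ l, smDual y l F * pderiv n (y l) =
      ∑ m, pderiv m F * ((smz_jacM y).adjugate * (smz_jacM y)) m n := by
    simp only [smDual_apply, Finset.sum_mul, Matrix.mul_apply, Finset.mul_sum]
    rw [Finset.sum_comm]
    refine Finset.sum_congr rfl fun m _ => Finset.sum_congr rfl fun l _ => ?_
    rw [show smz_jacM y l n = pderiv n (y l) from rfl]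
    ring
  rw [h1, Matrix.adjugate_mul]
  simp only [Matrix.smul_apply, Matrix.one_apply, smul_eq_mul, mul_ite, mul_one, mul_zero]
  rw [Finset.sum_ite_eq' Finset.univ n, if_pos (Finset.mem_univ n)]
  ring

/-- the Euler type derivation -/
noncomputable def smTheta : Derivation ℂ (MvPolynomial (Fin M) ℂ) (MvPolynomial (Fin M) ℂ) :=
  ∑ l, smCo a y T l • smDual y l

theorem smTheta_apply (F : MvPolynomial (Fin M) ℂ) :
    smTheta a y T F = ∑ l, smCo a y T l * smDual y l F := by
  rw [smTheta, smz_der_sum_apply]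
  rfl

theorem smCo_mem (l : Fin M) : smCo a y T l ∈ RingHom.ker (eval a) := by
  classical
  unfold smCo
  split_ifs
  · exact zero_mem _
  · rw [RingHom.mem_ker, map_sub, eval_C, sub_self]

theorem smTheta_mem (F : MvPolynomial (Fin M) ℂ) : smTheta a y T F ∈ RingHom.ker (eval a) := by
  rw [smTheta_apply]
  exact sum_mem fun l _ => Ideal.mul_mem_right _ _ (smCo_mem a y T l)

variable {a y T}

theorem smTheta_sub_mem (hT : ∀ l ∈ T, eval a (y l) = 0) (u : MvPolynomial (Fin M) ℂ)
    (hu : u ∈ RingHom.ker (eval a)) :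
    smTheta a y T u - C (eval a (smz_jacM y).det) * u ∈
      Ideal.span (y '' T) ⊔ (RingHom.ker (eval a)) ^ 2 := by
  classical
  set 𝔪 := RingHom.ker (eval a) with h𝔪
  set J := Ideal.span (y '' T) with hJ
  have hy : ∀ l, y l - C (eval a (y l)) ∈ 𝔪 := fun l => by
    rw [RingHom.mem_ker, map_sub, eval_C, sub_self]
  -- `θ u ≡ ∑ v(β_l) (y_l - v y_l)`
  have h1 : smTheta a y T u - ∑ l, C (eval a (smDual y l u)) * (y l - C (eval a (y l))) ∈
      J ⊔ 𝔪 ^ 2 := by
    rw [smTheta_apply, ← Finset.sum_sub_distrib]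
    refine sum_mem fun l _ => ?_
    by_cases hl : l ∈ T
    · rw [smCo, if_pos hl, zero_mul, zero_sub, hT l hl, map_zero, sub_zero]
      exact Ideal.mem_sup_left (neg_mem (Ideal.mul_mem_left _ _ (Ideal.subset_span ⟨l, hl, rfl⟩)))
    · rw [smCo, if_neg hl]
      apply Ideal.mem_sup_right
      have h2 : (y l - C (eval a (y l))) * smDual y l u -
          C (eval a (smDual y l u)) * (y l - C (eval a (y l))) =
          (y l - C (eval a (y l))) * (smDual y l u - C (eval a (smDual y l u))) := by ring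
      rw [h2, sq]
      refine Ideal.mul_mem_mul (hy l) ?_
      rw [RingHom.mem_ker, map_sub, eval_C, sub_self]
  have h2 : ∑ l, C (eval a (smDual y l u)) * (y l - C (eval a (y l))) -
      C (eval a (smz_jacM y).det) * u ∈ 𝔪 ^ 2 := by
    have h3 : ∀ l, (y l - C (eval a (y l))) - ∑ n, C (eval a (pderiv n (y l))) * (X n - C (a n)) ∈
        𝔪 ^ 2 := fun l => sm0_taylor_point a (y l)
    have h4 := sm0_taylor_point a u
    have hu0 : eval a u = 0 := hu
    rw [hu0, map_zero, sub_zero] at h4
    have h5 : ∑ l, C (eval a (smDual y l u)) * ((y l - C (eval a (y l))) -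
        ∑ n, C (eval a (pderiv n (y l))) * (X n - C (a n))) -
        C (eval a (smz_jacM y).det) * (u - ∑ n, C (eval a (pderiv n u)) * (X n - C (a n))) ∈ 𝔪 ^ 2 :=
      sub_mem (sum_mem fun l _ => Ideal.mul_mem_left _ _ (h3 l)) (Ideal.mul_mem_left _ _ h4)
    convert h5 using 1
    have h6 : ∑ l, C (eval a (smDual y l u)) *
        ∑ n, C (eval a (pderiv n (y l))) * (X n - C (a n)) =
        C (eval a (smz_jacM y).det) * ∑ n, C (eval a (pderiv n u)) * (X n - C (a n)) := by
      rw [Finset.mul_sum]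
      simp_rw [Finset.mul_sum]
      rw [Finset.sum_comm]
      refine Finset.sum_congr rfl fun n _ => ?_
      have h7 := congrArg (eval a) (smDual_cramer y u n)
      rw [map_mul, map_sum] at h7
      simp_rw [map_mul] at h7
      have h8 : (C (eval a (smz_jacM y).det) : MvPolynomial (Fin M) ℂ) * C (eval a (pderiv n u)) =
          ∑ l, C (eval a (smDual y l u)) * C (eval a (pderiv n (y l))) := by
        rw [← C_mul, h7, map_sum]
        exact Finset.sum_congr rfl fun l _ => C_mul
      rw [← mul_assoc, h8, Finset.sum_mul]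
      exact Finset.sum_congr rfl fun l _ => by ring
    have h9 : ∀ l, C (eval a (smDual y l u)) * ((y l - C (eval a (y l))) -
        ∑ n, C (eval a (pderiv n (y l))) * (X n - C (a n))) =
        C (eval a (smDual y l u)) * (y l - C (eval a (y l))) - C (eval a (smDual y l u)) *
        ∑ n, C (eval a (pderiv n (y l))) * (X n - C (a n)) := fun l => mul_sub _ _ _
    rw [Finset.sum_congr rfl fun l _ => h9 l, Finset.sum_sub_distrib, h6]
    ring
  have h3 := add_mem h1 (Ideal.mem_sup_right (S := J) h2)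
  convert h3 using 1
  ring

theorem smTheta_sub_mem_pow (hT : ∀ l ∈ T, eval a (y l) = 0) (n : ℕ)
    (u : MvPolynomial (Fin M) ℂ) (hu : u ∈ (RingHom.ker (eval a)) ^ n) :
    smTheta a y T u - (n : MvPolynomial (Fin M) ℂ) * C (eval a (smz_jacM y).det) * u ∈
      Ideal.span (y '' T) ⊔ (RingHom.ker (eval a)) ^ (n + 1) := by
  set 𝔪 := RingHom.ker (eval a) with h𝔪
  set J := Ideal.span (y '' T) with hJ
  induction n generalizing u with
  | zero =>
    rw [Nat.cast_zero, zero_mul, zero_mul, sub_zero, zero_add, pow_one]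
    exact Ideal.mem_sup_right (smTheta_mem a y T u)
  | succ n ih =>
    rw [pow_succ] at hu
    refine Submodule.mul_induction_on hu ?_ ?_
    · intro u' hu' m hm
      have h1 := ih u' hu'
      have h2 := smTheta_sub_mem hT m hm
      have h3 : u' * (smTheta a y T m - C (eval a (smz_jacM y).det) * m) ∈ J ⊔ 𝔪 ^ (n + 2) := by
        obtain ⟨j, hj, e, he, hje⟩ := Submodule.mem_sup.mp h2
        rw [← hje, mul_add]
        refine add_mem (Ideal.mem_sup_left (Ideal.mul_mem_left _ _ hj)) (Ideal.mem_sup_right ?_)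
        rw [pow_add]
        exact Ideal.mul_mem_mul hu' he
      have h4 : m * (smTheta a y T u' -
          (n : MvPolynomial (Fin M) ℂ) * C (eval a (smz_jacM y).det) * u') ∈ J ⊔ 𝔪 ^ (n + 2) := by
        obtain ⟨j, hj, e, he, hje⟩ := Submodule.mem_sup.mp h1
        rw [← hje, mul_add]
        refine add_mem (Ideal.mem_sup_left (Ideal.mul_mem_left _ _ hj)) (Ideal.mem_sup_right ?_)
        rw [show n + 2 = 1 + (n + 1) by ring, pow_add, pow_one]
        exact Ideal.mul_mem_mul hm he
      have h5 := add_mem h3 h4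
      convert h5 using 1
      rw [Derivation.leibniz, smul_eq_mul, smul_eq_mul]
      push_cast
      ring
    · intro x x' hx hx'
      have h5 := add_mem hx hx'
      convert h5 using 1
      rw [map_add]
      ring

/-- The ideal is contained in `J + 𝔪 ^ n`. -/
theorem sm0_le_sup_pow (I : Ideal (MvPolynomial (Fin M) ℂ)) (hI : ∀ F ∈ I, eval a F = 0)
    (hT : ∀ l ∈ T, y l ∈ I) (hdet : eval a (smz_jacM y).det ≠ 0)
    (stab : ∀ j ∉ T, ∀ F ∈ I, smDual y j F ∈ I) (n : ℕ) :
    I ≤ Ideal.span (y '' T) ⊔ (RingHom.ker (eval a)) ^ n := by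
  classical
  set 𝔪 := RingHom.ker (eval a) with h𝔪
  set J := Ideal.span (y '' T) with hJ
  have hT0 : ∀ l ∈ T, eval a (y l) = 0 := fun l hl => hI _ (hT l hl)
  have hI𝔪 : I ≤ 𝔪 := fun F hF => hI F hF
  have hθJ : ∀ j ∈ J, smTheta a y T j ∈ J := by
    intro j hj
    refine Submodule.span_induction ?_ ?_ ?_ ?_ hj
    · rintro _ ⟨l, hl, rfl⟩
      rw [smTheta_apply]
      refine sum_mem fun l' _ => ?_
      rw [smDual_self]
      by_cases h : l = l'
      · subst h
        rw [smCo, if_pos hl, zero_mul]; exact zero_mem _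
      · rw [if_neg h, mul_zero]; exact zero_mem _
    · rw [map_zero]; exact zero_mem _
    · intro x x' _ _ hx hx'
      rw [map_add]; exact add_mem hx hx'
    · intro c x hx h
      rw [smul_eq_mul, Derivation.leibniz, smul_eq_mul, smul_eq_mul]
      exact add_mem (Ideal.mul_mem_left _ _ h) (Ideal.mul_mem_right _ _ hx)
  have hθI : ∀ F ∈ I, smTheta a y T F ∈ 𝔪 * I := by
    intro F hF
    rw [smTheta_apply]
    refine sum_mem fun l _ => ?_
    by_cases hl : l ∈ T
    · rw [smCo, if_pos hl, zero_mul]; exact zero_mem _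
    · exact Ideal.mul_mem_mul (smCo_mem a y T l) (stab l hl F hF)
  induction n with
  | zero => rw [pow_zero, Ideal.one_eq_top, sup_top_eq]; exact le_top
  | succ n ih =>
    rcases Nat.eq_zero_or_pos n with rfl | hn
    · rw [zero_add, pow_one]
      exact le_trans hI𝔪 le_sup_right
    intro F hF
    obtain ⟨j, hj, u, hu, rfl⟩ := Submodule.mem_sup.mp (ih hF)
    have h1 : smTheta a y T (j + u) ∈ J ⊔ 𝔪 ^ (n + 1) := by
      have h2 := hθI _ hF
      have h3 : 𝔪 * I ≤ J ⊔ 𝔪 ^ (n + 1) := by
        refine le_trans (Ideal.mul_mono_right ih) ?_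
        rw [Ideal.mul_sup, pow_succ']
        exact sup_le_sup Ideal.mul_le_right le_rfl
      exact h3 h2
    have h2 : smTheta a y T u ∈ J ⊔ 𝔪 ^ (n + 1) := by
      rw [map_add] at h1
      have := sub_mem h1 (Ideal.mem_sup_left (T := 𝔪 ^ (n + 1)) (hθJ j hj))
      rwa [add_sub_cancel_left] at this
    have h3 := sub_mem h2 (smTheta_sub_mem_pow hT0 n u hu)
    rw [sub_sub_cancel] at h3
    have h4 : u ∈ J ⊔ 𝔪 ^ (n + 1) := by
      have h5 := Ideal.mul_mem_left _ (C (((n : ℂ) * eval a (smz_jacM y).det)⁻¹)) h3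
      have h6 : ((n : ℂ) * eval a (smz_jacM y).det) ≠ 0 :=
        mul_ne_zero (Nat.cast_ne_zero.mpr hn.ne') hdet
      have h7 : (C (((n : ℂ) * eval a (smz_jacM y).det)⁻¹) : MvPolynomial (Fin M) ℂ) *
          ((n : MvPolynomial (Fin M) ℂ) * C (eval a (smz_jacM y).det) * u) = u := by
        have h8 : ((n : MvPolynomial (Fin M) ℂ)) = C (n : ℂ) := (map_natCast C n).symm
        rw [h8, ← mul_assoc, ← mul_assoc, ← C_mul, ← C_mul, mul_assoc,
          inv_mul_cancel₀ h6, C_1, one_mul]
      rwa [h7] at h5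
    exact add_mem (Ideal.mem_sup_left hj) h4

/-- Krull's intersection theorem. -/
theorem sm0_core (I : Ideal (MvPolynomial (Fin M) ℂ)) (hI : ∀ F ∈ I, eval a F = 0)
    (hT : ∀ l ∈ T, y l ∈ I) (hdet : eval a (smz_jacM y).det ≠ 0)
    (stab : ∀ j ∉ T, ∀ F ∈ I, smDual y j F ∈ I) :
    ∃ h, eval a h ≠ 0 ∧ ∀ F ∈ I, h * F ∈ Ideal.span (y '' T) := by
  classical
  set 𝔪 := RingHom.ker (eval a) with h𝔪
  set J := Ideal.span (y '' T) with hJ
  have h1 : ∀ F ∈ I, ∃ h, eval a h ≠ 0 ∧ h * F ∈ J := by
    intro F hF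
    have h2 : (Ideal.Quotient.mk J F) ∈
        (⨅ i : ℕ, 𝔪 ^ i • ⊤ : Submodule (MvPolynomial (Fin M) ℂ) (MvPolynomial (Fin M) ℂ ⧸ J)) := by
      rw [Submodule.mem_iInf]
      intro n
      obtain ⟨j, hj, u, hu, rfl⟩ := Submodule.mem_sup.mp (sm0_le_sup_pow I hI hT hdet stab n hF)
      rw [map_add, Ideal.Quotient.eq_zero_iff_mem.mpr hj, zero_add]
      have h3 : Ideal.Quotient.mk J u = u • (1 : MvPolynomial (Fin M) ℂ ⧸ J) := by
        change _ = Ideal.Quotient.mk J (u • 1)
        rw [smul_eq_mul, mul_one]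
      rw [h3]
      exact Submodule.smul_mem_smul hu trivial
    obtain ⟨⟨r, hr⟩, hrF⟩ := (Ideal.mem_iInf_smul_pow_eq_bot_iff 𝔪 _).mp h2
    refine ⟨1 - r, ?_, ?_⟩
    · have : eval a r = 0 := hr
      rw [map_sub, map_one, this, sub_zero]
      exact one_ne_zero
    · rw [← Ideal.Quotient.eq_zero_iff_mem, map_mul, map_sub, map_one]
      have h4 : Ideal.Quotient.mk J r * Ideal.Quotient.mk J F = Ideal.Quotient.mk J F := by
        rw [← map_mul]
        exact hrF
      rw [sub_mul, one_mul, h4, sub_self]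
  obtain ⟨S, hS⟩ : I.FG := IsNoetherian.noetherian I
  have hSI : ∀ F ∈ S, F ∈ I := fun F hF => hS ▸ Submodule.subset_span hF
  choose! h hh1 hh2 using h1
  refine ⟨∏ F ∈ S, h F, ?_, fun F hF => ?_⟩
  · rw [map_prod]
    exact Finset.prod_ne_zero_iff.mpr fun F hF => hh1 F (hSI F hF)
  · rw [← hS] at hF
    refine Submodule.span_induction ?_ ?_ ?_ ?_ hF
    · intro F hF
      obtain ⟨c, hc⟩ := Finset.dvd_prod_of_mem h hF
      rw [hc, mul_assoc, mul_comm c, ← mul_assoc]
      exact Ideal.mul_mem_right _ _ (hh2 F (hSI F hF))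
    · rw [mul_zero]; exact zero_mem _
    · intro x x' _ _ hx hx'
      rw [mul_add]; exact add_mem hx hx'
    · intro c x _ hx
      rw [smul_eq_mul, mul_left_comm]
      exact Ideal.mul_mem_left _ _ hx

theorem smz_der_chain {R : Type*} [CommRing R] [Algebra ℂ R]
    (ev : MvPolynomial (Fin M) ℂ →ₐ[ℂ] R) (E : Derivation ℂ R R) (G : MvPolynomial (Fin M) ℂ) :
    E (ev G) = ∑ m, ev (pderiv m G) * E (ev (X m)) := by
  classical
  induction G using MvPolynomial.induction_on with
  | C c => simp [MvPolynomial.algHom_C]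
  | add p q hp hq =>
    simp only [map_add, hp, hq, add_mul, Finset.sum_add_distrib]
  | mul_X p i hp =>
    have h2 : (∑ m, ev (pderiv m (p * X i)) * E (ev (X m))) =
        (∑ m, ev (pderiv m p) * E (ev (X m))) * ev (X i) + ev p * E (ev (X i)) := by
      have h3 : ∀ m, ev (pderiv m (p * X i)) * E (ev (X m)) =
          ev (pderiv m p) * E (ev (X m)) * ev (X i) +
            (if m = i then ev p * E (ev (X i)) else 0) := by
        intro m
        rw [pderiv_mul, map_add, map_mul, map_mul]
        by_cases hm : m = i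
        · subst hm
          rw [pderiv_X_self, if_pos rfl, map_one]
          ring
        · rw [pderiv_X_of_ne (Ne.symm hm), if_neg hm, map_zero]
          ring
      rw [Finset.sum_congr rfl fun m _ => h3 m, Finset.sum_add_distrib, ← Finset.sum_mul,
        Finset.sum_ite_eq' Finset.univ i, if_pos (Finset.mem_univ i)]
    rw [map_mul, Derivation.leibniz, hp, h2, smul_eq_mul, smul_eq_mul]
    ring

/-- The dual derivations preserve the ideal as soon as there are dual derivations on the
quotient. -/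
theorem sm0_stab {R : Type*} [CommRing R] [IsDomain R] [Algebra ℂ R]
    (ev : MvPolynomial (Fin M) ℂ →ₐ[ℂ] R) (y : Fin M → MvPolynomial (Fin M) ℂ) (j : Fin M)
    (E : Derivation ℂ R R) (D : R) (hD : D ≠ 0)
    (hE : ∀ l, E (ev (y l)) = if l = j then D else 0) (F : MvPolynomial (Fin M) ℂ)
    (hF : ev F = 0) : ev (smDual y j F) = 0 := by
  classical
  have hch := smz_der_chain ev E
  have h1 : ev (smz_jacM y).det * E (ev F) = ev (smDual y j F) * D := by
    have h2 : ev (smz_jacM y).det * E (ev F) = ∑ l, ev (smDual y l F) * E (ev (y l)) := by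
      rw [hch F, Finset.mul_sum]
      have h3 : ∀ l, ev (smDual y l F) * E (ev (y l)) =
          ∑ m, ev (smDual y l F) * ev (pderiv m (y l)) * E (ev (X m)) := by
        intro l
        rw [hch (y l), Finset.mul_sum]
        exact Finset.sum_congr rfl fun m _ => by ring
      rw [Finset.sum_congr rfl fun l _ => h3 l, Finset.sum_comm]
      refine Finset.sum_congr rfl fun m _ => ?_
      rw [← Finset.sum_mul, ← mul_assoc, ← map_mul, smDual_cramer, map_sum]
      simp_rw [map_mul]
    rw [h2]
    simp_rw [hE]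
    simp
  rw [hF, map_zero, mul_zero] at h1
  exact (mul_eq_zero.mp h1.symm).resolve_right hD

end core

section point

variable {R : Type u} [CommRing R] [Algebra ℂ R] {𝒜 : ℕ → Submodule ℂ R} [GradedAlgebra 𝒜]
  {P : R →ₗ[ℂ] R →ₗ[ℂ] R} {M : ℕ}

/-- the differential at a point -/
noncomputable def smz_dv (a : Fin M → ℂ) : MvPolynomial (Fin M) ℂ →ₗ[ℂ] (Fin M → ℂ) :=
  LinearMap.pi fun m => (aeval a : MvPolynomial (Fin M) ℂ →ₐ[ℂ] ℂ).toLinearMap ∘ₗ
    (pderiv m : Derivation ℂ (MvPolynomial (Fin M) ℂ) (MvPolynomial (Fin M) ℂ)).toLinearMap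

theorem smz_dv_apply (a : Fin M → ℂ) (F : MvPolynomial (Fin M) ℂ) (m : Fin M) :
    smz_dv a F m = eval a (pderiv m F) := by
  rw [smz_dv, LinearMap.pi_apply]
  simp [MvPolynomial.aeval_eq_eval]

theorem smz_dv_mul (a : Fin M → ℂ) (F G : MvPolynomial (Fin M) ℂ) :
    smz_dv a (F * G) = eval a F • smz_dv a G + eval a G • smz_dv a F := by
  funext m
  rw [smz_dv_apply, pderiv_mul, map_add, map_mul, map_mul, Pi.add_apply, Pi.smul_apply, Pi.smul_apply,
    smz_dv_apply, smz_dv_apply, smul_eq_mul, smul_eq_mul]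
  ring

theorem smz_exists_factor_lin {V W : Type*} [AddCommGroup V] [Module ℂ V] [AddCommGroup W]
    [Module ℂ W] (f : V →ₗ[ℂ] R) (hf : Function.Surjective f) (g : V →ₗ[ℂ] W)
    (h : ∀ v, f v = 0 → g v = 0) : ∃ ψ : R →ₗ[ℂ] W, ∀ v, ψ (f v) = g v := by
  refine ⟨(LinearMap.ker f).liftQ g h ∘ₗ (f.quotKerEquivOfSurjective hf).symm.toLinearMap,
    fun v => ?_⟩
  have h1 : (f.quotKerEquivOfSurjective hf).symm (f v) = (LinearMap.ker f).mkQ v := by
    rw [LinearEquiv.symm_apply_eq]
    rfl
  change (LinearMap.ker f).liftQ g h ((f.quotKerEquivOfSurjective hf).symm (f v)) = _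
  rw [h1]
  rfl

/-- Local complete intersection presentation at a nonvertex closed point. -/
theorem smz_exists_lci (hX : IsContactFano 𝒜 P) (p : R →ₐ[ℂ] ℂ) (hp : ¬ IsVertex 𝒜 p)
    (ev : MvPolynomial (Fin M) ℂ →ₐ[ℂ] R) (hev : Function.Surjective ev) :
    ∃ (y : Fin M → MvPolynomial (Fin M) ℂ) (T : Set (Fin M)), (∀ l ∈ T, ev (y l) = 0) ∧
      p (ev (smz_jacM y).det) ≠ 0 ∧
      ∀ j ∉ T, ∃ (E : Derivation ℂ R R) (D : R), D ≠ 0 ∧
        ∀ l, E (ev (y l)) = if l = j then D else 0 := by
  classical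
  obtain ⟨N, x, k, g, l, hx, hg, hpg, hdet, hgen⟩ := exists_chart hX p hp
  choose xt hxt using fun i => hev (x i)
  let a : Fin M → ℂ := fun m => p (ev (X m))
  have hpev : ∀ F, p (ev F) = eval a F := by
    intro F
    have h1 : p.comp ev = aeval a := by
      apply MvPolynomial.algHom_ext
      intro m
      rw [AlgHom.comp_apply, aeval_X]
    have h2 := congrArg (fun f => f F) h1
    simp only [AlgHom.comp_apply] at h2
    rw [h2, MvPolynomial.aeval_eq_eval]
  let I : Submodule ℂ (MvPolynomial (Fin M) ℂ) := LinearMap.ker ev.toLinearMap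
  have hI : ∀ F, F ∈ I ↔ ev F = 0 := fun F => Iff.rfl
  let W : Submodule ℂ (Fin M → ℂ) := I.map (smz_dv a)
  have hdetD : (Matrix.det (Matrix.of fun i j => P (x i) (x j))) ≠ 0 := fun h => hdet (by
    rw [h, map_zero])
  -- claim 1
  have c1 : Submodule.span ℂ (Set.range fun i => smz_dv a (xt i)) ⊔ W = ⊤ := by
    by_contra hne
    obtain ⟨f, hf0, hf⟩ := Submodule.exists_le_ker_of_lt_top _ (lt_top_iff_ne_top.mpr hne)
    obtain ⟨δ, hδ⟩ := smz_exists_factor_lin ev.toLinearMap hev (f ∘ₗ smz_dv a) (fun F hF => by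
      have h1 : smz_dv a F ∈ W := ⟨F, hF, rfl⟩
      exact hf (Submodule.mem_sup_right h1))
    have hδ' : ∀ F, δ (ev F) = f (smz_dv a F) := hδ
    have hder : ∀ r s, δ (r * s) = p r • δ s + p s • δ r := by
      intro r s
      obtain ⟨F, rfl⟩ := hev r
      obtain ⟨G, rfl⟩ := hev s
      rw [← map_mul, hδ', smz_dv_mul, map_add, map_smul, map_smul, hδ', hδ', hpev, hpev]
    have hδ0 : ∀ r, δ r = 0 := by
      intro r
      obtain ⟨c, hc⟩ := hgen r
      have h1 := relation_along p δ hder hc
      have h2 : ∀ i, δ (x i) = 0 := fun i => by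
        rw [← hxt i, hδ']
        exact hf (Submodule.mem_sup_left (Submodule.subset_span ⟨i, rfl⟩))
      rw [Finset.sum_eq_zero fun i _ => by rw [h2 i, smul_zero]] at h1
      exact (smul_eq_zero.mp h1).resolve_left hpg
    apply hf0
    apply LinearMap.pi_ext'
    intro m
    ext
    have h1 := hδ0 (ev (X m))
    rw [hδ'] at h1
    have h2 : smz_dv a (X m) = Pi.single m 1 := by
      funext n
      rw [smz_dv_apply, pderiv_X]
      by_cases h : n = m
      · subst h; simp
      · rw [Pi.single_eq_of_ne (fun h' => h h'.symm), Pi.single_eq_of_ne h, map_zero]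
    rw [h2] at h1
    simpa using h1
  -- claim 2
  have c2 : ∀ α : Fin N → ℂ, ∑ i, α i • smz_dv a (xt i) ∈ W → α = 0 := by
    intro α hα
    obtain ⟨F, hF, hFα⟩ := hα
    have hlam : ∀ (j : Fin N) (G : MvPolynomial (Fin M) ℂ),
        p (P (x j) (ev G)) = ∑ m, smz_dv a G m * p (P (x j) (ev (X m))) := by
      intro j G
      have h1 := smz_der_chain ev (hX.ham (x j)) G
      rw [IsContactFano.ham_apply] at h1
      rw [h1, map_sum]
      refine Finset.sum_congr rfl fun m _ => ?_
      rw [map_mul, IsContactFano.ham_apply, hpev, smz_dv_apply]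
    have h2 : (Matrix.of fun i j => p (P (x i) (x j))).mulVec α = 0 := by
      funext j
      rw [Matrix.mulVec, dotProduct, Pi.zero_apply]
      have h3 := hlam j F
      rw [show ev F = 0 from hF, map_zero, map_zero, hFα] at h3
      have h4 : ∑ m, (∑ i, α i • smz_dv a (xt i)) m * p (P (x j) (ev (X m))) =
          ∑ i, Matrix.of (fun i j => p (P (x i) (x j))) j i * α i := by
        have h5 : ∀ i, Matrix.of (fun i j => p (P (x i) (x j))) j i * α i =
            ∑ m, α i * (smz_dv a (xt i) m * p (P (x j) (ev (X m)))) := by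
          intro i
          rw [Matrix.of_apply, ← hxt i, hlam j (xt i), Finset.sum_mul]
          exact Finset.sum_congr rfl fun m _ => by ring
        rw [Finset.sum_congr rfl fun i _ => h5 i, Finset.sum_comm]
        refine Finset.sum_congr rfl fun m _ => ?_
        rw [Finset.sum_apply, Finset.sum_mul]
        refine Finset.sum_congr rfl fun i _ => ?_
        rw [Pi.smul_apply, smul_eq_mul]
        ring
      rw [← h4, ← h3]
    have h3 : (Matrix.of fun i j => p (P (x i) (x j))).det ≠ 0 := by
      have h4 : (Matrix.of fun i j => p (P (x i) (x j))).det =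
          p (Matrix.det (Matrix.of fun i j => P (x i) (x j))) := by
        rw [AlgHom.map_det]; rfl
      rw [h4]; exact hdet
    exact Matrix.eq_zero_of_mulVec_eq_zero h3 h2
  -- a basis
  let bW := Module.finBasis ℂ W
  have hbW : ∀ j, ∃ F, ev F = 0 ∧ smz_dv a F = (bW j : Fin M → ℂ) := by
    intro j
    obtain ⟨F, hF, h⟩ := (bW j).2
    exact ⟨F, hF, h⟩
  choose Fb hFb0 hFb using hbW
  have li1 : LinearIndependent ℂ (fun i => smz_dv a (xt i)) := by
    rw [Fintype.linearIndependent_iff]
    intro α hα i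
    have := c2 α (by rw [hα]; exact zero_mem _)
    rw [this]; rfl
  have li2 : LinearIndependent ℂ (fun j => smz_dv a (Fb j)) := by
    have h1 := bW.linearIndependent.map' W.subtype (Submodule.ker_subtype _)
    have h2 : (fun j => smz_dv a (Fb j)) = (W.subtype ∘ bW) := by
      funext j
      exact hFb j
    rw [h2]
    exact h1
  have hspW : Submodule.span ℂ (Set.range fun j => smz_dv a (Fb j)) = W := by
    have h1 : (Set.range fun j => smz_dv a (Fb j)) = W.subtype '' Set.range bW := by
      rw [← Set.range_comp]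
      congr 1
      funext j
      exact hFb j
    rw [h1, Submodule.span_image, bW.span_eq, Submodule.map_top, Submodule.range_subtype]
  have li : LinearIndependent ℂ (Sum.elim (fun i => smz_dv a (xt i)) (fun j => smz_dv a (Fb j))) := by
    refine LinearIndependent.sum_type li1 li2 ?_
    rw [hspW, Submodule.disjoint_def]
    intro z hz hzW
    obtain ⟨α, rfl⟩ := (Submodule.mem_span_range_iff_exists_fun ℂ).mp hz
    rw [c2 α hzW]
    simp
  have hsp : ⊤ ≤ Submodule.span ℂ
      (Set.range (Sum.elim (fun i => smz_dv a (xt i)) (fun j => smz_dv a (Fb j)))) := by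
    rw [Set.Sum.elim_range, Submodule.span_union, hspW, c1]
  let b := Module.Basis.mk li hsp
  let e := (Pi.basisFun ℂ (Fin M)).indexEquiv b
  let y : Fin M → MvPolynomial (Fin M) ℂ := fun l => Sum.elim xt Fb (e l)
  let T : Set (Fin M) := {l | ∃ j, e l = Sum.inr j}
  have hyT : ∀ l ∈ T, ev (y l) = 0 := by
    rintro l ⟨j, hj⟩
    simp only [y, hj, Sum.elim_inr]
    exact hFb0 j
  refine ⟨y, T, hyT, ?_, ?_⟩
  · rw [hpev, RingHom.map_det]
    have h1 : LinearIndependent ℂ (fun l => smz_dv a (y l)) := by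
      have h2 := li.comp e e.injective
      convert h2 using 1
      funext l
      simp only [y, Function.comp]
      rcases e l with i | j <;> rfl
    have h3 : (RingHom.mapMatrix (eval a)) (smz_jacM y) = Matrix.of fun l => smz_dv a (y l) := by
      ext l m
      rw [RingHom.mapMatrix_apply, Matrix.map_apply, smz_jacM, Matrix.of_apply, Matrix.of_apply,
        smz_dv_apply]
    rw [h3]
    have h4 := Matrix.linearIndependent_rows_iff_isUnit.mp
      (show LinearIndependent ℂ (Matrix.of fun l => smz_dv a (y l)).row from h1)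
    exact ((Matrix.isUnit_iff_isUnit_det _).mp h4).ne_zero
  · intro j hj
    have hj' : ∃ i, e j = Sum.inl i := by
      rcases hej : e j with i | i
      · exact ⟨i, rfl⟩
      · exact absurd ⟨i, hej⟩ hj
    obtain ⟨i, hi⟩ := hj'
    let Pm : Matrix (Fin N) (Fin N) R := Matrix.of fun i j => P (x i) (x j)
    let E : Derivation ℂ R R := ∑ l, Pm.adjugate i l • hX.ham (x l)
    have hE : ∀ r, E r = ∑ l, Pm.adjugate i l * P (x l) r := by
      intro r
      have h1 : ∀ s : Finset (Fin N), (∑ l ∈ s, Pm.adjugate i l • hX.ham (x l)) r =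
          ∑ l ∈ s, Pm.adjugate i l * P (x l) r := by
        intro s
        induction s using Finset.induction_on with
        | empty => simp
        | insert c s hc ih =>
          rw [Finset.sum_insert hc, Finset.sum_insert hc, Derivation.add_apply, ih,
            Derivation.smul_apply, IsContactFano.ham_apply, smul_eq_mul]
      exact h1 _
    refine ⟨E, Pm.det, hdetD, fun l => ?_⟩
    rcases hel : e l with i' | j'
    · have h1 : ev (y l) = x i' := by
        simp only [y, hel, Sum.elim_inl]
        exact hxt i'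
      have h2 : E (ev (y l)) = (Pm.adjugate * Pm) i i' := by
        rw [hE, h1, Matrix.mul_apply]
        rfl
      rw [h2, Matrix.adjugate_mul, Matrix.smul_apply, Matrix.one_apply]
      by_cases h : l = j
      · subst h
        have : i = i' := by
          rw [hi] at hel
          exact Sum.inl.inj hel
        rw [if_pos this, if_pos rfl, smul_eq_mul, mul_one]
      · have : i ≠ i' := by
          intro h3
          apply h
          apply e.injective
          rw [hel, hi, h3]
        rw [if_neg this, if_neg h, smul_zero]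
    · have h1 : ev (y l) = 0 := hyT l ⟨j', hel⟩
      rw [h1, map_zero, if_neg]
      intro h
      subst h
      rw [hi] at hel
      exact Sum.inl_ne_inr hel

/-- Smoothness near a nonvertex closed point. -/
theorem smz_exists_smooth_nhds (hX : IsContactFano 𝒜 P) (p : R →ₐ[ℂ] ℂ) (hp : ¬ IsVertex 𝒜 p) :
    ∃ s : R, p s ≠ 0 ∧ Algebra.FormallySmooth ℂ (Localization.Away s) := by
  classical
  have := hX.finiteType
  have := hX.domain
  obtain ⟨M, ev, hev⟩ := Algebra.FiniteType.iff_quotient_mvPolynomial''.mp hX.finiteType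
  obtain ⟨y, T, hT, hdet, hE⟩ := smz_exists_lci hX p hp ev hev
  let a : Fin M → ℂ := fun m => p (ev (X m))
  have hpev : ∀ F, p (ev F) = eval a F := by
    intro F
    have h1 : p.comp ev = aeval a := by
      apply MvPolynomial.algHom_ext
      intro m
      rw [AlgHom.comp_apply, aeval_X]
    have h2 := congrArg (fun f => f F) h1
    simp only [AlgHom.comp_apply] at h2
    rw [h2, MvPolynomial.aeval_eq_eval]
  obtain ⟨h, hh, hh2⟩ := sm0_core (a := a) (y := y) (T := T) (RingHom.ker ev)
    (fun F hF => by rw [← hpev, show ev F = 0 from hF, map_zero]) hT (by rw [← hpev]; exact hdet)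
    (fun j hj F hF => by
      obtain ⟨E, D, hD, hED⟩ := hE j hj
      exact sm0_stab ev y j E D hD hED F hF)
  refine ⟨ev (h * (smz_jacM y).det), ?_, sm0_formallySmooth ev hev y T hT h fun F hF => hh2 F hF⟩
  rw [map_mul, map_mul, hpev h]
  exact mul_ne_zero hh hdet

/-- S0: contact Fano cones are smooth outside the vertex. -/
theorem smooth_zero (hX : IsContactFano 𝒜 P) (n : ℕ) (hn : 0 < n) (s : R) (hs : s ∈ 𝒜 n) :
    Algebra.FormallySmooth ℂ (Localization.Away s) := by
  classical
  have := hX.finiteType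
  have : Algebra.FinitePresentation ℂ R := Algebra.FinitePresentation.of_finiteType.mp inferInstance
  rw [← Algebra.basicOpen_subset_smoothLocus_iff]
  intro q hq
  by_contra hns
  have hcl : IsClosed ((Algebra.smoothLocus ℂ R)ᶜ) := Algebra.isOpen_smoothLocus.isClosed_compl
  obtain ⟨S, hS⟩ := (PrimeSpectrum.isClosed_iff_zeroLocus _).mp hcl
  have hqS : q ∈ PrimeSpectrum.zeroLocus S := by rw [← hS]; exact hns
  have h1 : s ∈ (Ideal.span S).radical := by
    refine mem_radical_of_forall _ _ fun p hpS => ?_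
    by_contra hps
    have hnv : ¬ IsVertex 𝒜 p := fun h => hps (h n hn s hs)
    obtain ⟨t, ht, hsm⟩ := smz_exists_smooth_nhds hX p hnv
    have hprime : (RingHom.ker p).IsPrime := RingHom.ker_isPrime p
    let 𝔭 : PrimeSpectrum R := ⟨RingHom.ker p, hprime⟩
    have h2 : 𝔭 ∈ Algebra.smoothLocus ℂ R :=
      (Algebra.basicOpen_subset_smoothLocus_iff.mpr hsm) ht
    have h3 : 𝔭 ∈ (Algebra.smoothLocus ℂ R)ᶜ := by
      rw [hS, PrimeSpectrum.mem_zeroLocus]
      intro r hr
      exact hpS r (Ideal.subset_span hr)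
    exact h3 h2
  obtain ⟨m, hm⟩ := h1
  apply hq
  have h2 : Ideal.span S ≤ q.asIdeal := by
    rw [Ideal.span_le]
    exact hqS
  exact q.isPrime.mem_of_pow_mem m (h2 hm)

end point

end Vale.Agent.P292.Mo
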