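import Vale.Agent.P292.Mo.Sp.Dat
import Vale.Agent.P292.Mo.Sp.Lift
import Vale.Agent.P292.Mo.Sp.SmoothSpan
import Vale.Agent.P292.Mo.Sp.SmoothSpread
import Vale.Agent.P292.Mo.Sp.SmoothZero
import Vale.Agent.P292.Mo.Sp.ModelGr
import Vale.Agent.P292.Mo.Sp.OKSpread
import Vale.Agent.P292.Mo.Sp.FrameCover
import Vale.Agent.P292.Mo.Sp.LbCover
import Vale.Agent.P292.Mo.Sp.FrameSpread

/-! # Spreading out, block PM: the algebras over fields of large characteristic are as required. -/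

namespace Vale.Agent.P292.Mo

open MvPolynomial

universe u v w

/-! ### Combination of finitely generated subalgebras -/

theorem pmspread_and {Φ Ψ : Subalgebra ℤ ℂ → Prop}
    (h1 : ∃ A₀ : Subalgebra ℤ ℂ, A₀.FG ∧ ∀ A : Subalgebra ℤ ℂ, A₀ ≤ A → Φ A)
    (h2 : ∃ A₀ : Subalgebra ℤ ℂ, A₀.FG ∧ ∀ A : Subalgebra ℤ ℂ, A₀ ≤ A → Ψ A) :
    ∃ A₀ : Subalgebra ℤ ℂ, A₀.FG ∧ ∀ A : Subalgebra ℤ ℂ, A₀ ≤ A → Φ A ∧ Ψ A := by
  obtain ⟨A₁, h1, h1'⟩ := h1
  obtain ⟨A₂, h2, h2'⟩ := h2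
  exact ⟨A₁ ⊔ A₂, Subalgebra.FG.sup h1 h2, fun A hA =>
    ⟨h1' A (le_trans le_sup_left hA), h2' A (le_trans le_sup_right hA)⟩⟩

/-! ### Base change of the data -/

section basechange

variable {A : Type u} [CommRing A] {B : Type v} [CommRing B] {M L : ℕ}

theorem pmspread_hom_map {d : Fin M → ℕ} (j : A →+* B) {p : MvPolynomial (Fin M) A} {n : ℕ}
    (h : IsWeightedHomogeneous d p n) : IsWeightedHomogeneous d (MvPolynomial.map j p) n := by
  intro m hm
  rw [coeff_map] at hm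
  exact h (fun h0 => hm (by rw [h0, map_zero]))

theorem pmspread_hom_of_map {d : Fin M → ℕ} (j : A →+* B) (hj : Function.Injective j)
    {p : MvPolynomial (Fin M) A} {n : ℕ} (h : IsWeightedHomogeneous d (MvPolynomial.map j p) n) :
    IsWeightedHomogeneous d p n := by
  intro m hm
  exact h (by rw [coeff_map]; exact fun h0 => hm (hj (by rw [h0, map_zero])))

theorem pmspread_map_pbr (D : Dat A M L) (j : A →+* B) (a b : MvPolynomial (Fin M) A) :
    MvPolynomial.map j (D.pbr a b) =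
      (D.map j).pbr (MvPolynomial.map j a) (MvPolynomial.map j b) := by
  simp only [Dat.pbr, Dat.map, map_sum, map_mul, pderiv_map]

theorem pmspread_map_det (D : Dat A M L) (j : A →+* B) {N : ℕ}
    (x : Fin N → MvPolynomial (Fin M) A) :
    MvPolynomial.map j (D.pbrM x).det =
      ((D.map j).pbrM fun i => MvPolynomial.map j (x i)).det := by
  rw [RingHom.map_det]
  congr 1
  ext1 i l
  simp only [RingHom.mapMatrix_apply, Matrix.map_apply, Dat.pbrM, Matrix.of_apply,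
    pmspread_map_pbr]

end basechange

/-! ### The algebra of the data over a field -/

section field

variable {k : Type u} [Field k] {M L : ℕ}

theorem pmspread_mem_span {D : Dat k M L} {n : ℕ} (hn : 0 < n) {s : D.Rg} (hs : s ∈ D.gr n) :
    s ∈ Ideal.span (Set.range fun i => D.q (X i)) := by
  obtain ⟨p, hp, rfl⟩ := hs
  have hp' : IsWeightedHomogeneous D.d p n := hp
  have h1 : p ∈ Ideal.span (MvPolynomial.X '' Set.univ : Set (MvPolynomial (Fin M) k)) := by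
    rw [mem_ideal_span_X_image]
    intro m hm
    by_contra hcon
    push Not at hcon
    have hm0 : m = 0 := by
      ext i
      exact hcon i (Set.mem_univ i)
    have := hp' (mem_support_iff.mp hm)
    rw [hm0, map_zero] at this
    omega
  have h2 := Ideal.mem_map_of_mem (D.q : MvPolynomial (Fin M) k →+* D.Rg) h1
  rw [Ideal.map_span] at h2
  refine (Ideal.span_le.mpr ?_ : _ ≤ Ideal.span (Set.range fun i => D.q (X i))) h2
  rintro _ ⟨_, ⟨i, -, rfl⟩, rfl⟩
  exact Ideal.subset_span ⟨i, rfl⟩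

theorem pmspread_NV {D : Dat k M L} (y : D.Rg →ₐ[k] k) (hy : NV D.gr y) :
    ∃ i, y (D.q (X i)) ≠ 0 := by
  obtain ⟨n, hn, r, hr, hyr⟩ := hy
  by_contra hcon
  push Not at hcon
  apply hyr
  have h1 := pmspread_mem_span hn hr
  have h2 : Ideal.span (Set.range fun i => D.q (X i)) ≤ RingHom.ker y := by
    rw [Ideal.span_le]
    rintro _ ⟨i, rfl⟩
    exact hcon i
  exact h2 h1

/-- A product cover meets every nonvertex point. -/
theorem pmspread_cover {D : Dat k M L} {T : ℕ} {c : Fin T → MvPolynomial (Fin M) k}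
    (hc : ∀ i, ∃ n, (X i : MvPolynomial (Fin M) k) ^ n ∈ Ideal.span (Set.range (Sum.elim D.F c)))
    (y : D.Rg →ₐ[k] k) (hy : NV D.gr y) : ∃ t, y (D.q (c t)) ≠ 0 := by
  obtain ⟨i, hi⟩ := pmspread_NV y hy
  by_contra hcon
  push Not at hcon
  obtain ⟨n, hn⟩ := hc i
  have h2 : Ideal.span (Set.range (Sum.elim D.F c)) ≤ RingHom.ker (y.comp D.q) := by
    rw [Ideal.span_le]
    rintro _ ⟨s, rfl⟩
    rcases s with l | t
    · have : D.q (D.F l) = 0 := Ideal.Quotient.eq_zero_iff_mem.mpr (Ideal.subset_span ⟨l, rfl⟩)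
      show y (D.q (D.F l)) = 0
      rw [this, map_zero]
    · exact hcon t
  have h3 : (y.comp D.q) ((X i) ^ n) = 0 := h2 hn
  rw [map_pow] at h3
  exact hi (eq_zero_of_pow_eq_zero h3)

end field

/-! ### The structure over a field -/

theorem pmspread_isPM {k : Type u} [Field k] {M L : ℕ} (D : Dat k M L) [GradedAlgebra D.gr]
    (Q : D.Rg →ₗ[k] D.Rg →ₗ[k] D.Rg) (hQ : ∀ a b, Q (D.q a) (D.q b) = D.q (D.pbr a b))
    (halt : ∀ a, Q a a = 0) (hleib : ∀ a b c, Q a (b * c) = Q a b * c + b * Q a c)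
    (hdeg : ∀ i j n, i + j = n + 1 → ∀ a ∈ D.gr i, ∀ b ∈ D.gr j, Q a b ∈ D.gr n)
    (hconn : ∀ r ∈ D.gr 0, ∃ c : k, r = algebraMap k D.Rg c)
    (hsm : ∀ i, Algebra.FormallySmooth k (Localization.Away (D.q (X i))))
    (hfr : ∃ (T : ℕ) (N : Fin T → ℕ) (x : ∀ a, Fin (N a) → MvPolynomial (Fin M) k)
      (dx : ∀ a, Fin (N a) → ℕ) (g : Fin T → MvPolynomial (Fin M) k) (lg : Fin T → ℕ),
      (∀ a i, IsWeightedHomogeneous D.d (x a i) (dx a i)) ∧
      (∀ a, IsWeightedHomogeneous D.d (g a) (lg a)) ∧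
      (∀ a (r : D.Rg), ∃ c : Fin (N a) → D.Rg, D.q (g a) • KaehlerDifferential.D k D.Rg r =
        ∑ i, c i • KaehlerDifferential.D k D.Rg (D.q (x a i))) ∧
      ∀ i, ∃ n, (X i : MvPolynomial (Fin M) k) ^ n ∈
        Ideal.span (Set.range (Sum.elim D.F fun a => g a * (D.pbrM (x a)).det)))
    (hlb : ∃ (T : ℕ) (a b : Fin T → MvPolynomial (Fin M) k) (da db : Fin T → ℕ),
      (∀ t, IsWeightedHomogeneous D.d (a t) (da t)) ∧
      (∀ t, IsWeightedHomogeneous D.d (b t) (db t)) ∧ (∀ t, (da t).Coprime (db t)) ∧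
      ∀ i, ∃ n, (X i : MvPolynomial (Fin M) k) ^ n ∈
        Ideal.span (Set.range (Sum.elim D.F fun t => a t * b t))) :
    IsPM D.gr Q := by
  refine ⟨inferInstance, hconn, halt, hleib, hdeg, ?_, ?_, ?_⟩
  · intro y hy
    obtain ⟨T, N, x, dx, g, lg, hx, hg, hgen, hcov⟩ := hfr
    obtain ⟨t, ht⟩ := pmspread_cover hcov y hy
    refine ⟨N t, fun i => D.q (x t i), dx t, D.q (g t),
      ⟨fun i => ⟨x t i, hx t i, rfl⟩, ⟨lg t, ⟨g t, hg t, rfl⟩⟩, hgen t⟩, ?_⟩
    have h1 : brM Q (fun i => D.q (x t i)) =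
        (D.q : MvPolynomial (Fin M) k →+* D.Rg).mapMatrix (D.pbrM (x t)) := by
      ext1 i l
      exact hQ _ _
    rw [h1, ← RingHom.map_det]
    rw [map_mul] at ht
    exact ht
  · intro n hn s hs
    exact smooth_of_mem_span (fun i => D.q (X i)) hsm s (pmspread_mem_span hn hs)
  · intro y hy d hdiv
    obtain ⟨T, a, b, da, db, ha, hb, hab, hcov⟩ := hlb
    obtain ⟨t, ht⟩ := pmspread_cover hcov y hy
    rw [map_mul, map_mul] at ht
    have h1 := hdiv (da t) _ ⟨a t, ha t, rfl⟩ (left_ne_zero_of_mul ht)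
    have h2 := hdiv (db t) _ ⟨b t, hb t, rfl⟩ (right_ne_zero_of_mul ht)
    exact Nat.eq_one_of_dvd_coprimes (hab t) h1 h2

/-! ### Transport along algebra homomorphisms -/

theorem pmspread_kd {k : Type u} [Field k] {R : Type v} [CommRing R] [Algebra k R] {S : Type w}
    [CommRing S] [Algebra k S] (ψ : R →ₐ[k] S) {N : ℕ} (g r : R) (c x : Fin N → R)
    (h : g • KaehlerDifferential.D k R r = ∑ i, c i • KaehlerDifferential.D k R (x i)) :
    ψ g • KaehlerDifferential.D k S (ψ r) =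
      ∑ i, ψ (c i) • KaehlerDifferential.D k S (ψ (x i)) := by
  let _ : Algebra R S := ψ.toRingHom.toAlgebra
  have : IsScalarTower k R S := IsScalarTower.of_algebraMap_eq fun a => (ψ.commutes a).symm
  have h1 := congrArg (KaehlerDifferential.map k k R S) h
  rw [map_smul, map_sum, KaehlerDifferential.map_D] at h1
  simp only [map_smul, KaehlerDifferential.map_D] at h1
  have h2 : ∀ (a : R) (ω : Ω[S⁄k]), a • ω = ψ a • ω := fun a ω =>
    (algebraMap_smul S a ω).symm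
  rw [h2] at h1
  simp only [h2] at h1
  exact h1

theorem pmspread_smooth_equiv {k : Type u} [Field k] {R : Type v} [CommRing R] [Algebra k R]
    {S : Type w} [CommRing S] [Algebra k S] (ψ : R ≃ₐ[k] S) (s : R)
    (h : Algebra.FormallySmooth k (Localization.Away s)) :
    Algebra.FormallySmooth k (Localization.Away (ψ s)) :=
  Algebra.FormallySmooth.of_equiv
    (IsLocalization.algEquivOfAlgEquiv (M := Submonoid.powers s) (T := Submonoid.powers (ψ s))
      (Localization.Away s) (Localization.Away (ψ s)) ψ (Submonoid.map_powers ψ s))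

/-! ### Characteristic zero -/

section zero

variable {R : Type u} [CommRing R] [Algebra ℂ R] {𝒜 : ℕ → Submodule ℂ R} [GradedAlgebra 𝒜]
  {P : R →ₗ[ℂ] R →ₗ[ℂ] R}

omit [GradedAlgebra 𝒜] in
theorem pmspread_equiv {M L : ℕ} {D : Dat ℂ M L} {ev : MvPolynomial (Fin M) ℂ →ₐ[ℂ] R}
    (hD : IsPres 𝒜 P D ev) : ∃ φ : D.Rg ≃ₐ[ℂ] R, ∀ p, φ (D.q p) = ev p := by
  let f : D.Rg →ₐ[ℂ] R := Ideal.Quotient.liftₐ D.I ev (fun a ha => (hD.ker a).mpr ha)
  have hb : Function.Bijective f := by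
    constructor
    · rw [injective_iff_map_eq_zero]
      intro a ha
      obtain ⟨p, rfl⟩ := Ideal.Quotient.mk_surjective a
      exact Ideal.Quotient.eq_zero_iff_mem.mpr ((hD.ker p).mp ha)
    · intro r
      obtain ⟨p, rfl⟩ := hD.surj r
      exact ⟨D.q p, rfl⟩
  exact ⟨AlgEquiv.ofBijective f hb, fun p => rfl⟩

theorem pmspread_smooth_gen (hX : IsContactFano 𝒜 P) {M L : ℕ} {D : Dat ℂ M L}
    {ev : MvPolynomial (Fin M) ℂ →ₐ[ℂ] R} (hD : IsPres 𝒜 P D ev) (i : Fin M) :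
    Algebra.FormallySmooth ℂ
      (Localization.Away (Ideal.Quotient.mk (Ideal.span (Set.range D.F)) (X i))) := by
  obtain ⟨φ, hφ⟩ := pmspread_equiv hD
  have h1 := pmspread_smooth_equiv φ.symm _
    (smooth_zero hX (D.d i) (hD.ok.pos i) (ev (X i)) (hD.hom i))
  rw [← hφ, AlgEquiv.symm_apply_apply] at h1
  exact h1

omit [GradedAlgebra 𝒜] in
theorem pmspread_frame_gen {M L : ℕ} {D : Dat ℂ M L}
    {ev : MvPolynomial (Fin M) ℂ →ₐ[ℂ] R} (hD : IsPres 𝒜 P D ev) {N : ℕ}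
    {x : Fin N → MvPolynomial (Fin M) ℂ} {dx : Fin N → ℕ} {g : MvPolynomial (Fin M) ℂ}
    (h : IsFr 𝒜 (fun i => ev (x i)) dx (ev g)) (i : Fin M) :
    ∃ c : Fin N → MvPolynomial (Fin M) ℂ ⧸ Ideal.span (Set.range D.F),
      Ideal.Quotient.mk (Ideal.span (Set.range D.F)) g • KaehlerDifferential.D ℂ
        (MvPolynomial (Fin M) ℂ ⧸ Ideal.span (Set.range D.F)) (Ideal.Quotient.mk _ (X i)) =
        ∑ l, c l • KaehlerDifferential.D ℂ (MvPolynomial (Fin M) ℂ ⧸ Ideal.span (Set.range D.F))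
          (Ideal.Quotient.mk _ (x l)) := by
  obtain ⟨φ, hφ⟩ := pmspread_equiv hD
  obtain ⟨c, hc⟩ := h.gen (ev (X i))
  have h1 := pmspread_kd φ.symm.toAlgHom _ _ _ _ hc
  have h2 : ∀ p, φ.symm.toAlgHom (ev p) = D.q p := fun p => by
    rw [← hφ]
    exact φ.symm_apply_apply _
  simp only [h2] at h1
  exact ⟨_, h1⟩

theorem pmspread_elim {A : Type u} [CommRing A] {B : Type v} [CommRing B] {M L T : ℕ}
    (D : Dat A M L) (j : A →+* B) (c : Fin T → MvPolynomial (Fin M) A) :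
    (fun s => MvPolynomial.map j (Sum.elim D.F c s)) =
      Sum.elim (D.map j).F fun t => MvPolynomial.map j (c t) := by
  funext s
  rcases s with l | t <;> rfl

/-- Spreading out a cover. -/
theorem pmspread_cover_spread {M L T : ℕ} (D : Dat ℂ M L) (c : Fin T → MvPolynomial (Fin M) ℂ)
    (h : ∀ i, ∃ n, (X i : MvPolynomial (Fin M) ℂ) ^ n ∈
      Ideal.span (Set.range (Sum.elim D.F c))) :
    ∃ A₀ : Subalgebra ℤ ℂ, A₀.FG ∧ ∀ A : Subalgebra ℤ ℂ, A₀ ≤ A →
      ∀ (D' : Dat A M L), D'.map (algebraMap A ℂ) = D →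
        ∀ (c' : Fin T → MvPolynomial (Fin M) A),
          (∀ t, MvPolynomial.map (algebraMap A ℂ) (c' t) = c t) →
          ∀ (k : Type v) [Field k] (j : A →+* k), ∀ i, ∃ n,
            (X i : MvPolynomial (Fin M) k) ^ n ∈ Ideal.span
              (Set.range (Sum.elim (D'.map j).F fun t => MvPolynomial.map j (c' t))) := by
  choose n hn using h
  obtain ⟨A₀, hfg, hA₀⟩ := exists_fg_of_forall _ fun i : Fin M =>
    mem_spread.{0, v, 0} (Sum.elim D.F c) (X i ^ n i) (hn i)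
  refine ⟨A₀, hfg, fun A hA D' hD' c' hc' k _ j i => ⟨n i, ?_⟩⟩
  have h1 := (hA₀ A hA i (Sum.elim D'.F c') (X i ^ n i) (fun s => ?_)
    (by rw [map_pow, map_X])).2 k j
  · rw [map_pow, map_X, pmspread_elim] at h1
    exact h1
  · have h2 := congrFun (pmspread_elim D' (algebraMap A ℂ) c') s
    rw [h2, hD']
    simp only [hc']

theorem pmspread_hom {M L : ℕ} {D : Dat ℂ M L} {A : Subalgebra ℤ ℂ} {D' : Dat A M L}
    (hD' : D'.map (algebraMap A ℂ) = D) {k : Type v} [Field k] (j : A →+* k)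
    {p : MvPolynomial (Fin M) A} {n : ℕ}
    (hp : IsWeightedHomogeneous D.d (MvPolynomial.map (algebraMap A ℂ) p) n) :
    IsWeightedHomogeneous (D'.map j).d (MvPolynomial.map j p) n := by
  have hd : D'.d = D.d := by rw [← hD']; rfl
  have h1 := pmspread_hom_map j
    (pmspread_hom_of_map (algebraMap A ℂ) Subtype.val_injective hp)
  rw [← hd] at h1
  exact h1

theorem pmspread_smooth (hX : IsContactFano 𝒜 P) {M L : ℕ} {D : Dat ℂ M L}
    {ev : MvPolynomial (Fin M) ℂ →ₐ[ℂ] R} (hD : IsPres 𝒜 P D ev) :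
    ∃ A₀ : Subalgebra ℤ ℂ, A₀.FG ∧ ∀ A : Subalgebra ℤ ℂ, A₀ ≤ A →
      ∀ (D' : Dat A M L), D'.map (algebraMap A ℂ) = D →
        ∀ (k : Type v) [Field k] (j : A →+* k), ∀ i,
          Algebra.FormallySmooth k (Localization.Away ((D'.map j).q (X i))) := by
  obtain ⟨A₀, hfg, hA₀⟩ := exists_fg_of_forall _ fun i =>
    smooth_spread.{v} D.F (X i) (pmspread_smooth_gen hX hD i)
  refine ⟨A₀, hfg, fun A hA D' hD' k _ j i => ?_⟩
  have h1 := hA₀ A hA i D'.F (X i) (fun l => by rw [← hD']; rfl) (map_X _ _) k j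
  rw [map_X] at h1
  exact h1

theorem pmspread_lb (hX : IsContactFano 𝒜 P) {M L : ℕ} {D : Dat ℂ M L}
    {ev : MvPolynomial (Fin M) ℂ →ₐ[ℂ] R} (hD : IsPres 𝒜 P D ev) :
    ∃ A₀ : Subalgebra ℤ ℂ, A₀.FG ∧ ∀ A : Subalgebra ℤ ℂ, A₀ ≤ A →
      ∀ (D' : Dat A M L), D'.map (algebraMap A ℂ) = D →
        ∀ (k : Type v) [Field k] (j : A →+* k),
          ∃ (T : ℕ) (a b : Fin T → MvPolynomial (Fin M) k) (da db : Fin T → ℕ),
            (∀ t, IsWeightedHomogeneous (D'.map j).d (a t) (da t)) ∧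
            (∀ t, IsWeightedHomogeneous (D'.map j).d (b t) (db t)) ∧
            (∀ t, (da t).Coprime (db t)) ∧
            ∀ i, ∃ n, (X i : MvPolynomial (Fin M) k) ^ n ∈
              Ideal.span (Set.range (Sum.elim (D'.map j).F fun t => a t * b t)) := by
  obtain ⟨T, a, b, da, db, ha, hb, hab, hlb⟩ := lb_cover hX hD
  obtain ⟨A₀, hfg, hA₀⟩ := pmspread_and (pmspread_cover_spread.{v} D _ hlb)
    (pmspread_and (exists_lift_poly a) (exists_lift_poly b))
  refine ⟨A₀, hfg, fun A hA D' hD' k _ j => ?_⟩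
  obtain ⟨h1, h2, h3⟩ := hA₀ A hA
  choose a1 ha1 using h2
  choose b1 hb1 using h3
  refine ⟨T, fun t => MvPolynomial.map j (a1 t), fun t => MvPolynomial.map j (b1 t), da, db,
    fun t => pmspread_hom hD' j (by rw [ha1]; exact ha t),
    fun t => pmspread_hom hD' j (by rw [hb1]; exact hb t), hab, ?_⟩
  have h4 := h1 D' hD' (fun t => a1 t * b1 t) (fun t => by rw [map_mul, ha1, hb1]) k j
  simp only [map_mul] at h4
  exact h4

theorem pmspread_fr (hX : IsContactFano 𝒜 P) {M L : ℕ} {D : Dat ℂ M L}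
    {ev : MvPolynomial (Fin M) ℂ →ₐ[ℂ] R} (hD : IsPres 𝒜 P D ev) :
    ∃ A₀ : Subalgebra ℤ ℂ, A₀.FG ∧ ∀ A : Subalgebra ℤ ℂ, A₀ ≤ A →
      ∀ (D' : Dat A M L), D'.map (algebraMap A ℂ) = D →
        ∀ (k : Type v) [Field k] (j : A →+* k),
          ∃ (T : ℕ) (N : Fin T → ℕ) (x : ∀ a, Fin (N a) → MvPolynomial (Fin M) k)
            (dx : ∀ a, Fin (N a) → ℕ) (g : Fin T → MvPolynomial (Fin M) k) (lg : Fin T → ℕ),
            (∀ a i, IsWeightedHomogeneous (D'.map j).d (x a i) (dx a i)) ∧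
            (∀ a, IsWeightedHomogeneous (D'.map j).d (g a) (lg a)) ∧
            (∀ a (r : (D'.map j).Rg), ∃ c : Fin (N a) → (D'.map j).Rg,
              (D'.map j).q (g a) • KaehlerDifferential.D k (D'.map j).Rg r =
              ∑ i, c i • KaehlerDifferential.D k (D'.map j).Rg ((D'.map j).q (x a i))) ∧
            ∀ i, ∃ n, (X i : MvPolynomial (Fin M) k) ^ n ∈
              Ideal.span (Set.range (Sum.elim (D'.map j).F fun a =>
                g a * ((D'.map j).pbrM (x a)).det)) := by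
  obtain ⟨T, N, x, dx, g, hx, hfr, hcov⟩ := frame_cover hX hD
  have hg2 : ∀ a, ∃ p l, IsWeightedHomogeneous D.d p l ∧ ev p = ev (g a) := fun a => by
    obtain ⟨l, hl⟩ := (hfr a).ghom
    obtain ⟨p, hp, hpe⟩ := hD.lift l _ hl
    exact ⟨p, l, hp, hpe⟩
  choose g2 lg hg2 hg2e using hg2
  have hfr2 : ∀ a, IsFr 𝒜 (fun i => ev (x a i)) (dx a) (ev (g2 a)) := fun a => by
    rw [hg2e a]; exact hfr a
  have hcov2 : ∀ i, ∃ n, (X i : MvPolynomial (Fin M) ℂ) ^ n ∈
      Ideal.span (Set.range (Sum.elim D.F fun a => g2 a * (D.pbrM (x a)).det)) := fun i => by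
    obtain ⟨n, hn⟩ := hcov i
    refine ⟨n, (Ideal.span_le.mpr ?_ : _ ≤ Ideal.span
      (Set.range (Sum.elim D.F fun a => g2 a * (D.pbrM (x a)).det))) hn⟩
    rintro _ ⟨s, rfl⟩
    rcases s with l | a
    · exact Ideal.subset_span ⟨Sum.inl l, rfl⟩
    · have h1 : g a - g2 a ∈ D.I := (hD.ker _).mp (by rw [map_sub, hg2e a, sub_self])
      have h2 : D.I ≤ Ideal.span
          (Set.range (Sum.elim D.F fun a => g2 a * (D.pbrM (x a)).det)) := by
        refine Ideal.span_mono ?_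
        rintro _ ⟨l, rfl⟩
        exact ⟨Sum.inl l, rfl⟩
      have h3 : g a * (D.pbrM (x a)).det =
          (g a - g2 a) * (D.pbrM (x a)).det + g2 a * (D.pbrM (x a)).det := by ring
      show g a * (D.pbrM (x a)).det ∈ _
      rw [h3]
      exact add_mem (Ideal.mul_mem_right _ _ (h2 h1)) (Ideal.subset_span ⟨Sum.inr a, rfl⟩)
  obtain ⟨A₀, hfg, hA₀⟩ := pmspread_and (pmspread_cover_spread.{v} D _ hcov2)
    (pmspread_and (exists_fg_of_forall _ fun a =>
      frame_spread.{v} D.F (g2 a) (x a) (pmspread_frame_gen hD (hfr2 a)))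
    (pmspread_and (exists_lift_poly (fun s : Σ a, Fin (N a) => x s.1 s.2))
      (exists_lift_poly g2)))
  refine ⟨A₀, hfg, fun A hA D' hD' k _ j => ?_⟩
  obtain ⟨h1, h2, h3, h4⟩ := hA₀ A hA
  choose x1 hx1 using h3
  choose g1 hg1 using h4
  refine ⟨T, N, fun a i => MvPolynomial.map j (x1 ⟨a, i⟩), dx,
    fun a => MvPolynomial.map j (g1 a), lg,
    fun a i => pmspread_hom hD' j (by rw [hx1]; exact hx a i),
    fun a => pmspread_hom hD' j (by rw [hg1]; exact hg2 a), fun a r => ?_, ?_⟩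
  · exact h2 a D'.F (g1 a) (fun i => x1 ⟨a, i⟩) (fun l => by rw [← hD']; rfl) (hg1 a)
      (fun i => hx1 ⟨a, i⟩) k j r
  · have h5 := h1 D' hD' (fun a => g1 a * (D'.pbrM fun i => x1 ⟨a, i⟩).det) (fun a => by
      rw [map_mul, pmspread_map_det, hg1, hD']
      simp only [hx1]) k j
    simp only [map_mul, pmspread_map_det] at h5
    exact h5

/-- PM: the algebras of the data over fields of large characteristic are as required. -/
theorem isPM_spread (hX : IsContactFano 𝒜 P) {M L : ℕ} {D : Dat ℂ M L}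
    {ev : MvPolynomial (Fin M) ℂ →ₐ[ℂ] R} (hD : IsPres 𝒜 P D ev) :
    ∃ A₀ : Subalgebra ℤ ℂ, A₀.FG ∧ ∀ A : Subalgebra ℤ ℂ, A₀ ≤ A →
      ∀ (D' : Dat A M L), D'.map (algebraMap A ℂ) = D →
        ∀ (k : Type v) [Field k] [IsAlgClosed k] (j : A →+* k) [GradedAlgebra (D'.map j).gr]
          (Q : (D'.map j).Rg →ₗ[k] (D'.map j).Rg →ₗ[k] (D'.map j).Rg),
          (∀ a b, Q ((D'.map j).q a) ((D'.map j).q b) = (D'.map j).q ((D'.map j).pbr a b)) →
          (∀ a, Q a a = 0) → (∀ a b c, Q a (b * c) = Q a b * c + b * Q a c) →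
          (∀ i i' n, i + i' = n + 1 → ∀ a ∈ (D'.map j).gr i, ∀ b ∈ (D'.map j).gr i',
            Q a b ∈ (D'.map j).gr n) → IsPM (D'.map j).gr Q := by
  obtain ⟨A₀, hfg, hA₀⟩ := pmspread_and (Dat.isOK_spread.{v} D hD.ok)
    (pmspread_and (pmspread_smooth.{u, v} hX hD)
      (pmspread_and (pmspread_fr.{u, v} hX hD) (pmspread_lb.{u, v} hX hD)))
  refine ⟨A₀, hfg, fun A hA D' hD' k _ _ j _ Q hQ halt hleib hdeg => ?_⟩
  obtain ⟨⟨-, hok⟩, hsm, hfr, hlb⟩ := hA₀ A hA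
  exact pmspread_isPM (D'.map j) Q hQ halt hleib hdeg
    (Dat.connected (D'.map j) (hok D' hD' k j)) (hsm D' hD' k j) (hfr D' hD' k j)
    (hlb D' hD' k j)

end zero

end Vale.Agent.P292.Mo
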